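import Vale.Agent.P214.NG.Core

/-!
# P214, block NG (2): integrated inequalities on an interval
-/

open Set Filter Topology MeasureTheory

set_option linter.all false

namespace Vale.Agent.P214.NG

/-- the energy functions of a centre on the interval `[α, β]` of log-scales -/
structure EPath (α β M : ℝ) (a g b g₁ : ℝ → ℝ) : Prop where
  da : ∀ u ∈ Icc α β, HasDerivAt a (2 * (a u - g u) + 2 * b u) u
  dg : ∀ u ∈ Icc α β, HasDerivAt g (g₁ u) u
  gpos : ∀ u ∈ Icc α β, 0 < g u
  glow : ∀ u ∈ Icc α β, -M * g u ≤ g₁ u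
  bnn : ∀ u ∈ Icc α β, 0 ≤ b u

/-- a height function of a centre (weight `F`), with its energy `gS` -/
structure HPath (α β C₁ ε : ℝ) (g b g₁ H H₁ gS : ℝ → ℝ) : Prop where
  dH : ∀ u ∈ Icc α β, HasDerivAt H (H₁ u) u
  Hpos : ∀ u ∈ Icc α β, 0 < H u
  err1 : ∀ u ∈ Icc α β, H₁ u ≤ 2 * gS u + ε * b u
  err2 : ∀ u ∈ Icc α β, H₁ u ≤ 2 * gS u + ε * (g₁ u + C₁ * g u)
  cs : ∀ u ∈ Icc α β, gS u ^ 2 ≤ H u * b u
  le : ∀ u ∈ Icc α β, gS u ≤ g u

/-- `A = max a (g/2)` -/
noncomputable def Am (a g : ℝ → ℝ) (u : ℝ) : ℝ := max (a u) (g u / 2)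

/-- `Y` along the path -/
noncomputable def Yp (a g : ℝ → ℝ) (u : ℝ) : ℝ := Yr (a u) (g u)

/-- `min (A/H) 1` -/
noncomputable def nn (a g H : ℝ → ℝ) (u : ℝ) : ℝ := min (Am a g u / H u) 1

/-- the constant `C₂` -/
noncomputable def C2 (M C₁ : ℝ) : ℝ := 2 * (M + 2 + C₁)

variable {α β M C₁ ε : ℝ} {a g b g₁ H H₁ gS : ℝ → ℝ}

namespace EPath

lemma mono (h : EPath α β M a g b g₁) {α' β' : ℝ} (h1 : α ≤ α') (h2 : β' ≤ β) :
    EPath α' β' M a g b g₁ :=
  ⟨fun u hu => h.da u ⟨h1.trans hu.1, hu.2.trans h2⟩,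
   fun u hu => h.dg u ⟨h1.trans hu.1, hu.2.trans h2⟩,
   fun u hu => h.gpos u ⟨h1.trans hu.1, hu.2.trans h2⟩,
   fun u hu => h.glow u ⟨h1.trans hu.1, hu.2.trans h2⟩,
   fun u hu => h.bnn u ⟨h1.trans hu.1, hu.2.trans h2⟩⟩

lemma Apos (h : EPath α β M a g b g₁) {u : ℝ} (hu : u ∈ Icc α β) : 0 < Am a g u :=
  lt_max_of_lt_right (half_pos (h.gpos u hu))

lemma g_le (h : EPath α β M a g b g₁) (u : ℝ) : g u ≤ 2 * Am a g u := by
  have := le_max_right (a u) (g u / 2)
  unfold Am; linarith

lemma cont_a (h : EPath α β M a g b g₁) : ContinuousOn a (Icc α β) :=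
  fun u hu => (h.da u hu).continuousAt.continuousWithinAt

lemma cont_g (h : EPath α β M a g b g₁) : ContinuousOn g (Icc α β) :=
  fun u hu => (h.dg u hu).continuousAt.continuousWithinAt

lemma cont_A (h : EPath α β M a g b g₁) : ContinuousOn (Am a g) (Icc α β) :=
  h.cont_a.sup (h.cont_g.div_const 2)

lemma cont_Y (h : EPath α β M a g b g₁) : ContinuousOn (Yp a g) (Icc α β) := by
  unfold Yp Yr
  refine continuousOn_const.inf (continuousOn_const.sup ?_)
  exact (h.cont_g.sub h.cont_a).div h.cont_g fun u hu => (h.gpos u hu).ne'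

lemma cont_logA (h : EPath α β M a g b g₁) :
    ContinuousOn (fun u => Real.log (Am a g u)) (Icc α β) :=
  h.cont_A.log fun u hu => (h.Apos hu).ne'

/-- right derivative majorant of `-log A` -/
noncomputable def dA (a g b g₁ : ℝ → ℝ) (u : ℝ) : ℝ :=
  if g u / 2 ≤ a u then -((2 * (a u - g u) + 2 * b u) / a u) else -(g₁ u / g u)

lemma slopeA (h : EPath α β M a g b g₁) :
    ∀ x ∈ Ico α β, ∀ r, dA a g b g₁ x < r →
      ∃ᶠ z in 𝓝[>] x, slope (fun u => -Real.log (Am a g u)) x z < r := by
  intro x hx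
  have hxI : x ∈ Icc α β := ⟨hx.1, hx.2.le⟩
  have hg := h.gpos x hxI
  have hev : ∀ᶠ z in 𝓝[>] x, z ∈ Icc α β := by
    filter_upwards [Ioo_mem_nhdsGT hx.2] with z hz
    exact ⟨hx.1.trans hz.1.le, hz.2.le⟩
  by_cases hc : g x / 2 ≤ a x
  · have hax : 0 < a x := by linarith
    have h1 : HasDerivAt (fun u => -Real.log (a u))
        (-((2 * (a x - g x) + 2 * b x) / a x)) x := ((h.da x hxI).log hax.ne').neg
    have hpos : ∀ᶠ z in 𝓝[>] x, 0 < a z :=
      ((h.da x hxI).continuousAt.eventually (lt_mem_nhds hax)).filter_mono nhdsWithin_le_nhds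
    have h2 := slope_cond (f := fun u => -Real.log (Am a g u)) h1 (by
      filter_upwards [hpos] with z hz
      have : Real.log (a z) ≤ Real.log (Am a g z) := Real.log_le_log hz (le_max_left _ _)
      linarith) (by
      have : Am a g x = a x := max_eq_left hc
      simp only [this])
    intro r hr
    apply h2
    unfold dA at hr
    rwa [if_pos hc] at hr
  · push Not at hc
    have hgx : 0 < g x / 2 := by linarith
    have h1 : HasDerivAt (fun u => -Real.log (g u / 2)) (-(g₁ x / g x)) x := by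
      have h2 := (((h.dg x hxI).div_const 2).log hgx.ne').neg
      refine h2.congr_deriv ?_
      field_simp
    have h2 := slope_cond (f := fun u => -Real.log (Am a g u)) h1 (by
      filter_upwards [hev] with z hz
      have : Real.log (g z / 2) ≤ Real.log (Am a g z) :=
        Real.log_le_log (half_pos (h.gpos z hz)) (le_max_right _ _)
      linarith) (by
      have : Am a g x = g x / 2 := max_eq_right hc.le
      simp only [this])
    intro r hr
    apply h2
    unfold dA at hr
    rwa [if_neg (not_le.2 hc)] at hr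

/-- `log A` is nondecreasing up to `C₂ ∫ Y` -/
theorem A_mono (h : EPath α β M a g b g₁) (hαβ : α ≤ β) (hM : 0 ≤ M) (hC₁ : 0 ≤ C₁) :
    Real.log (Am a g α) ≤ Real.log (Am a g β) + C2 M C₁ * ∫ v in α..β, Yp a g v := by
  have h1 := gr1 hαβ (f := fun u => -Real.log (Am a g u)) (f' := dA a g b g₁)
    (R := fun u => C2 M C₁ * Yp a g u) h.cont_logA.neg h.slopeA
    (continuousOn_const.mul h.cont_Y) (by
      intro x hx
      have hxI : x ∈ Icc α β := ⟨hx.1, hx.2.le⟩
      have hg := h.gpos x hxI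
      have hY0 := Yr_nonneg (a x) (g x)
      unfold dA
      split_ifs with hc
      · refine (alg4 hg hc (h.bnn x hxI)).trans ?_
        unfold Yp C2
        nlinarith
      · push Not at hc
        have h3 := Yr_half hg hc
        have h4 : -(g₁ x / g x) ≤ M := by
          have := h.glow x hxI
          rw [← neg_div, div_le_iff₀ hg]; linarith
        unfold Yp C2
        nlinarith) β ⟨hαβ, le_rfl⟩
  rw [intervalIntegral.integral_const_mul] at h1
  linarith

/-- the growth inequality -/
theorem A_growth (h : EPath α β M a g b g₁) (hh : HPath α β C₁ ε g b g₁ H H₁ gS)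
    (hαβ : α ≤ β) (hM : 0 ≤ M) (hC₁ : 0 ≤ C₁) {θ : ℝ} (hθ1 : θ ≤ 1 / 4)
    (hθ : ∀ u ∈ Icc α β, g u - gS u ≤ θ * Am a g u)
    (hcH : ContinuousOn H (Icc α β)) :
    (1 / 8) * (∫ v in α..β, nn a g H v) - C2 M C₁ * (∫ v in α..β, Yp a g v)
      ≤ Real.log (Am a g β) - Real.log (Am a g α) := by
  have hcn : ContinuousOn (nn a g H) (Icc α β) := by
    unfold nn
    exact (h.cont_A.div hcH fun u hu => (hh.Hpos u hu).ne').inf continuousOn_const
  have h1 := gr1 hαβ (f := fun u => -Real.log (Am a g u)) (f' := dA a g b g₁)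
    (R := fun u => C2 M C₁ * Yp a g u - (1 / 8) * nn a g H u) h.cont_logA.neg h.slopeA
    ((continuousOn_const.mul h.cont_Y).sub (continuousOn_const.mul hcn)) (by
      intro x hx
      have hxI : x ∈ Icc α β := ⟨hx.1, hx.2.le⟩
      have hg := h.gpos x hxI
      have hY0 := Yr_nonneg (a x) (g x)
      have hH := hh.Hpos x hxI
      unfold dA
      split_ifs with hc
      · have hA : Am a g x = a x := max_eq_left hc
        have h2 := alg3 hg hc hH (hh.cs x hxI) (h.bnn x hxI) (by
          have := hθ x hxI; rwa [hA] at this) hθ1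
        unfold Yp C2 nn
        rw [hA]
        nlinarith
      · push Not at hc
        have h3 := Yr_half hg hc
        have h4 : -(g₁ x / g x) ≤ M := by
          have := h.glow x hxI
          rw [← neg_div, div_le_iff₀ hg]; linarith
        have h5 : nn a g H x ≤ 1 := min_le_right _ _
        unfold Yp C2
        nlinarith) β ⟨hαβ, le_rfl⟩
  have hiY : IntervalIntegrable (Yp a g) volume α β := by
    apply ContinuousOn.intervalIntegrable; rw [uIcc_of_le hαβ]; exact h.cont_Y
  have hin : IntervalIntegrable (nn a g H) volume α β := by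
    apply ContinuousOn.intervalIntegrable; rw [uIcc_of_le hαβ]; exact hcn
  rw [intervalIntegral.integral_sub (hiY.const_mul _) (hin.const_mul _),
    intervalIntegral.integral_const_mul, intervalIntegral.integral_const_mul] at h1
  linarith

/-- the frequency inequality -/
theorem n_step (h : EPath α β M a g b g₁) (hh : HPath α β C₁ ε g b g₁ H H₁ gS)
    (hαβ : α ≤ β) (hM : 0 ≤ M) (hC₁ : 0 ≤ C₁) {θ L : ℝ} (hθ0 : 0 ≤ θ) (hθ1 : θ ≤ 1 / 4)
    (hε0 : 0 ≤ ε) (hε1 : ε ≤ 1)
    (hθ : ∀ u ∈ Icc α β, g u - gS u ≤ θ * Am a g u)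
    (hL : Real.log 2 ≤ L) {u : ℝ} (hu : u ∈ Icc α β) :
    Real.log (H u) - Real.log (Am a g u)
      ≤ max L (Real.log (H α) - Real.log (Am a g α))
        + (C2 M C₁ * (∫ v in α..u, Yp a g v) + (2 * θ + 4 * ε) * ∫ v in α..u, nn a g H v) := by
  have hcH : ContinuousOn H (Icc α β) :=
    fun u hu => (hh.dH u hu).continuousAt.continuousWithinAt
  have hcn : ContinuousOn (nn a g H) (Icc α β) := by
    unfold nn
    exact (h.cont_A.div hcH fun u hu => (hh.Hpos u hu).ne').inf continuousOn_const
  have hclH : ContinuousOn (fun u => Real.log (H u)) (Icc α β) :=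
    hcH.log fun u hu => (hh.Hpos u hu).ne'
  have hnn0 : ∀ x ∈ Icc α β, 0 ≤ nn a g H x := fun x hx =>
    le_min (div_nonneg (h.Apos hx).le (hh.Hpos x hx).le) zero_le_one
  have h1 := gr2 hαβ (f := fun u => Real.log (H u) - Real.log (Am a g u))
    (f' := fun u => H₁ u / H u + dA a g b g₁ u)
    (R := fun u => C2 M C₁ * Yp a g u + (2 * θ + 4 * ε) * nn a g H u) (L := L)
    (hclH.sub h.cont_logA) ?_
    ((continuousOn_const.mul h.cont_Y).add (continuousOn_const.mul hcn)) ?_ ?_ u hu
  · have hsub : Icc α u ⊆ Icc α β := Icc_subset_Icc_right hu.2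
    have hiY : IntervalIntegrable (Yp a g) volume α u := by
      apply ContinuousOn.intervalIntegrable; rw [uIcc_of_le hu.1]; exact h.cont_Y.mono hsub
    have hin : IntervalIntegrable (nn a g H) volume α u := by
      apply ContinuousOn.intervalIntegrable; rw [uIcc_of_le hu.1]; exact hcn.mono hsub
    rw [intervalIntegral.integral_add (hiY.const_mul _) (hin.const_mul _),
      intervalIntegral.integral_const_mul, intervalIntegral.integral_const_mul] at h1
    exact h1
  · -- slope condition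
    intro x hx r hr
    have hxI : x ∈ Icc α β := ⟨hx.1, hx.2.le⟩
    have hsA := h.slopeA x hx ((r + dA a g b g₁ x - H₁ x / H x) / 2) (by
      linarith)
    have hlH : HasDerivAt (fun u => Real.log (H u)) (H₁ x / H x) x :=
      (hh.dH x hxI).log (hh.Hpos x hxI).ne'
    have h2 : Tendsto (slope (fun u => Real.log (H u)) x) (𝓝[>] x) (𝓝 (H₁ x / H x)) :=
      (hasDerivAt_iff_tendsto_slope.1 hlH).mono_left
        (nhdsWithin_mono _ (fun z (hz : x < z) => ne_of_gt hz))
    have h3 : ∀ᶠ z in 𝓝[>] x, slope (fun u => Real.log (H u)) x z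
        < (r + H₁ x / H x - dA a g b g₁ x) / 2 := by
      apply h2.eventually_lt_const
      linarith
    refine (hsA.and_eventually h3).mono ?_
    rintro z ⟨hz1, hz2⟩
    have h4 : slope (fun u => Real.log (H u) - Real.log (Am a g u)) x z
        = slope (fun u => Real.log (H u)) x z + slope (fun u => -Real.log (Am a g u)) x z := by
      simp only [slope_def_field]
      ring
    rw [h4]
    linarith
  · intro x hx
    have := hnn0 x hx
    have := Yr_nonneg (a x) (g x)
    unfold Yp C2
    positivity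
  · intro x hx hLx
    have hxI : x ∈ Icc α β := ⟨hx.1, hx.2.le⟩
    have hg := h.gpos x hxI
    have hY0 := Yr_nonneg (a x) (g x)
    have hH := hh.Hpos x hxI
    have hA := h.Apos hxI
    -- A ≤ H / 2
    have hAH : 2 * Am a g x ≤ H x := by
      have h2 : Real.log (2 * Am a g x) ≤ Real.log (H x) := by
        rw [Real.log_mul (by norm_num) hA.ne']
        have := hL.trans hLx
        linarith
      exact (Real.log_le_log_iff (by positivity) hH).1 h2
    have hnx : nn a g H x = Am a g x / H x := by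
      unfold nn
      apply min_eq_left
      rw [div_le_one hH]; linarith
    have hnx0 := hnn0 x hxI
    show H₁ x / H x + dA a g b g₁ x ≤ _
    unfold dA
    split_ifs with hc
    · have hAa : Am a g x = a x := max_eq_left hc
      have h2 := alg1 hg hc (by rw [hAa] at hAH; linarith) (hh.cs x hxI) (h.bnn x hxI)
        (hh.le x hxI) (by have := hθ x hxI; rwa [hAa] at this) hθ1 hε0 hε1 (hh.err1 x hxI)
      rw [hnx, hAa]
      unfold Yp C2
      have h3 : 4 * Yr (a x) (g x) ≤ 2 * (M + 2 + C₁) * Yr (a x) (g x) := by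
        gcongr; linarith
      linarith
    · push Not at hc
      have h2 := alg2 hg hc hH (by
        have := h.g_le x; linarith) (hh.le x hxI) (h.glow x hxI) hε0 hε1 hM hC₁ (hh.err2 x hxI)
      unfold Yp C2
      have h3 : 0 ≤ (2 * θ + 4 * ε) * nn a g H x := by positivity
      linarith

end EPath

end Vale.Agent.P214.NG
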