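import Vale.Agent.P214.NG.Ode

/-!
# P214, block NG (3): the data of a path with a finite set of representatives
-/

open Set Filter Topology MeasureTheory

set_option linter.all false

namespace Vale.Agent.P214.NG

variable {X : Type*} [MetricSpace X]

/-- `Λ(i) = κ + 2 i h` at the `i`-th grid point -/
noncomputable def Lam (κ h : ℝ) (i : ℕ) : ℝ := κ + 2 * (i * h)

/-- `A` at the `i`-th grid point -/
noncomputable def Ag (a g : ℝ → ℝ) (h : ℝ) (i : ℕ) : ℝ := Am a g (i * h)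

/-- running maximum of `A` over the grid points `≤ i` -/
noncomputable def Abar (a g : ℝ → ℝ) (h : ℝ) (i : ℕ) : ℝ :=
  (Finset.range (i + 1)).sup' ⟨0, by simp⟩ (Ag a g h)

/-- the square of the `j`-th radius at the `i`-th grid point: `Λ(i)^{e j} Ā(i)` -/
noncomputable def rad2 (e : ℕ → ℕ) (κ h : ℝ) (a g : ℝ → ℝ) (j i : ℕ) : ℝ :=
  Lam κ h i ^ e j * Abar a g h i

/-- `S` is separated: squared distances `> ρ` -/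
def Sep (S : Finset X) (ρ : ℝ) : Prop := ∀ c ∈ S, ∀ c' ∈ S, c ≠ c' → ρ < dist c c' ^ 2

/-- `S` covers `S₀` at squared distance `ρ` -/
def Cov (S S₀ : Finset X) (ρ : ℝ) : Prop := ∀ c ∈ S₀, ∃ c' ∈ S, dist c c' ^ 2 ≤ ρ

/-- The data of one centre: energies on `[0, I h]`, uncapped height function `H₀` for the bottom
representatives `S₀`, capped height functions `H S` for the subsets `S ⊆ S₀`. -/
structure NGData (I : ℕ) (h κ M C₁ ε B₀ C₈ : ℝ) (a g b g₁ : ℝ → ℝ) (S₀ : Finset X)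
    (H₀ H₀' : ℝ → ℝ) (H H₁ gS : Finset X → ℝ → ℝ) : Prop where
  epath : EPath 0 (I * h) M a g b g₁
  budget : ∫ u in (0:ℝ)..(I * h), Yp a g u ≤ B₀
  dH₀ : ∀ u ∈ Icc 0 (I * h), HasDerivAt H₀ (H₀' u) u
  H₀err : ∀ u ∈ Icc 0 (I * h), H₀' u ≤ 2 * g u + ε * (g₁ u + C₁ * g u)
  init : H₀ 0 ≤ κ * Am a g 0
  hpath : ∀ S ⊆ S₀, S.Nonempty → HPath 0 (I * h) C₁ ε g b g₁ (H S) (H₁ S) (gS S)
  comp : ∀ S ⊆ S₀, S.Nonempty → ∀ ρ : ℝ, 0 ≤ ρ → Cov S S₀ ρ → ∀ u ∈ Icc 0 (I * h),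
    H S u ≤ 2 * H₀ u + C₈ * ρ

/-- no gap event before the `I`-th grid point -/
def NoEvent (I : ℕ) (h κ : ℝ) (e : ℕ → ℕ) (M₀ : ℕ) (a g : ℝ → ℝ) (S₀ : Finset X)
    (gS : Finset X → ℝ → ℝ) (θ : ℕ → ℝ) : Prop :=
  ∀ i < I, ∀ j < M₀, ∀ S ⊆ S₀, S.Nonempty → Sep S (rad2 e κ h a g (j + 1) i) →
    Cov S S₀ (rad2 e κ h a g j i) →
    2 * Ag a g h i ≤ Ag a g h (i + 1) ∨
      ∀ u ∈ Icc (i * h : ℝ) ((i + 1 : ℕ) * h), g u - gS S u ≤ θ i * Am a g u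

/-- **Target of the block** (`path`): a stage with large growth. -/
def PathStatement (X : Type*) [MetricSpace X] : Prop :=
  ∀ (M₀ : ℕ) (e : ℕ → ℕ) (h M C₁ B₀ C₈ Cg : ℝ), 1 ≤ M₀ → Monotone e → 1 ≤ e 0 → 0 < h → h ≤ 2 →
    0 ≤ M → 0 ≤ C₁ → 0 ≤ B₀ → 0 ≤ C₈ → 0 < Cg →
    ∃ ε₀ κ₀ : ℝ, 0 < ε₀ ∧ ε₀ ≤ 1 ∧ 1 ≤ κ₀ ∧
      ∀ (I : ℕ) (κ ε : ℝ) (a g b g₁ : ℝ → ℝ) (S₀ : Finset X) (H₀ H₀' : ℝ → ℝ)
        (H H₁ gS : Finset X → ℝ → ℝ) (θ : ℕ → ℝ),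
        κ₀ ≤ κ → 0 ≤ ε → ε ≤ ε₀ → S₀.Nonempty → S₀.card ≤ M₀ →
        NGData I h κ M C₁ ε B₀ C₈ a g b g₁ S₀ H₀ H₀' H H₁ gS →
        (∀ i, 0 ≤ θ i) → (∀ i, θ i ≤ 1 / 4) → (∑ i ∈ Finset.range I, θ i ≤ 1) →
        NoEvent I h κ e M₀ a g S₀ gS θ →
        Real.exp (κ / 8) ≤ Lam κ h I →
        ∃ i₀ i₁ j : ℕ, ∃ S ⊆ S₀, i₀ < i₁ ∧ i₁ ≤ I ∧ j < M₀ ∧ S.Nonempty ∧
          Sep S (rad2 e κ h a g (j + 1) i₁) ∧ Cov S S₀ (rad2 e κ h a g j i₀) ∧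
          Cg * Real.log (Lam κ h I) ≤ Real.log (Ag a g h i₁) - Real.log (Ag a g h i₀)

end Vale.Agent.P214.NG
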