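import Vale.Agent.P214.NG.Multi

/-!
# P214, block NG (7): the abstract path lemma
-/

open Set Filter Topology MeasureTheory

set_option linter.all false

namespace Vale.Agent.P214.NG

variable {X : Type*} [MetricSpace X]

section aux

variable {I : ℕ} {h κ M C₁ ε B₀ : ℝ} {a g b g₁ : ℝ → ℝ}

lemma Lam_mono (h0 : 0 ≤ h) {i i' : ℕ} (hi : i ≤ i') : Lam κ h i ≤ Lam κ h i' := by
  unfold Lam; gcongr

lemma one_le_Lam (h0 : 0 ≤ h) (hκ : 1 ≤ κ) (i : ℕ) : 1 ≤ Lam κ h i := by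
  unfold Lam
  have : 0 ≤ 2 * (i * h) := by positivity
  linarith

lemma le_Abar (i : ℕ) : Ag a g h i ≤ Abar a g h i :=
  Finset.le_sup' (Ag a g h) (by simp)

lemma Abar_mono {i i' : ℕ} (hi : i ≤ i') : Abar a g h i ≤ Abar a g h i' := by
  unfold Abar
  refine Finset.sup'_le _ _ fun k hk => ?_
  rw [Finset.mem_range] at hk
  exact Finset.le_sup' (Ag a g h) (by rw [Finset.mem_range]; omega)

lemma Abar_le (he : EPath 0 (I * h) M a g b g₁) (h0 : 0 ≤ h) (hM : 0 ≤ M) (hC₁ : 0 ≤ C₁)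
    (hB : ∫ u in (0:ℝ)..(I * h), Yp a g u ≤ B₀) {i : ℕ} (hi : i ≤ I) :
    Abar a g h i ≤ Real.exp (C2 M C₁ * B₀) * Ag a g h i := by
  unfold Abar
  refine Finset.sup'_le _ _ fun k hk => ?_
  rw [Finset.mem_range] at hk
  have hm := grid_mem h0 hi
  exact A_quasi' he hM hC₁ hB (by positivity)
    (mul_le_mul_of_nonneg_right (Nat.cast_le.2 (by omega)) h0) hm.2

lemma Ag_pos (he : EPath 0 (I * h) M a g b g₁) (h0 : 0 ≤ h) {i : ℕ} (hi : i ≤ I) :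
    0 < Ag a g h i := he.Apos (grid_mem h0 hi)

lemma Abar_pos (he : EPath 0 (I * h) M a g b g₁) (h0 : 0 ≤ h) (i : ℕ) :
    0 < Abar a g h i :=
  (Ag_pos he h0 (Nat.zero_le I)).trans_le ((le_Abar 0).trans (Abar_mono (Nat.zero_le i)))

lemma rad2_nonneg (he : EPath 0 (I * h) M a g b g₁) (h0 : 0 ≤ h) (hκ : 1 ≤ κ) (e : ℕ → ℕ)
    (j i : ℕ) : 0 ≤ rad2 e κ h a g j i := by
  unfold rad2
  have := Abar_pos he h0 i
  have := one_le_Lam h0 hκ i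
  positivity

lemma rad2_mono (he : EPath 0 (I * h) M a g b g₁) (h0 : 0 ≤ h) (hκ : 1 ≤ κ) (e : ℕ → ℕ)
    (j : ℕ) {i i' : ℕ} (hi : i ≤ i') : rad2 e κ h a g j i ≤ rad2 e κ h a g j i' := by
  unfold rad2
  have h1 := Abar_pos he h0 i
  have h2 := one_le_Lam h0 hκ i
  have h3 := Lam_mono (κ := κ) h0 hi
  have h4 := Abar_mono (a := a) (g := g) (h := h) hi
  have h5 : 0 ≤ Lam κ h i' ^ e j := by
    have := one_le_Lam h0 hκ i'
    positivity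
  gcongr

lemma rad2_mono_j (he : EPath 0 (I * h) M a g b g₁) (h0 : 0 ≤ h) (hκ : 1 ≤ κ) {e : ℕ → ℕ}
    (hem : Monotone e) (j i : ℕ) : rad2 e κ h a g j i ≤ rad2 e κ h a g (j + 1) i := by
  unfold rad2
  have h1 := Abar_pos he h0 i
  have h2 := one_le_Lam h0 hκ i
  have h3 := hem (Nat.le_succ j)
  gcongr

end aux

/-- constant of the initial bound -/
noncomputable def K3 (M C₁ B₀ C₈ : ℝ) : ℝ :=
  2 * K2 M C₁ B₀ + C₈ * Real.exp (C2 M C₁ * B₀)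

lemma K3_ge {M C₁ B₀ C₈ : ℝ} (hM : 0 ≤ M) (hC₁ : 0 ≤ C₁) (hB0 : 0 ≤ B₀) (hC₈ : 0 ≤ C₈) :
    1 ≤ K3 M C₁ B₀ C₈ := by
  unfold K3 K2
  have h1 := C2_nonneg hM hC₁
  have h2 : 1 ≤ Real.exp (C2 M C₁ * B₀) := Real.one_le_exp (by positivity)
  have h3 : 0 ≤ C₈ * Real.exp (C2 M C₁ * B₀) := by positivity
  nlinarith

variable {I : ℕ} {h κ M C₁ ε B₀ C₈ : ℝ} {a g b g₁ : ℝ → ℝ} {S₀ : Finset X}
  {H₀ H₀' : ℝ → ℝ} {H H₁ gS : Finset X → ℝ → ℝ}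

/-- **Trivial bound for a covering subset**: at a grid time `H S ≤ K₃ Λ^{e j} A`. -/
theorem NGData.height_le' (hD : NGData I h κ M C₁ ε B₀ C₈ a g b g₁ S₀ H₀ H₀' H H₁ gS)
    (h0 : 0 ≤ h) (hM : 0 ≤ M) (hC₁ : 0 ≤ C₁) (hε0 : 0 ≤ ε) (hε1 : ε ≤ 1) (hB0 : 0 ≤ B₀)
    (hC₈ : 0 ≤ C₈) (hκ : 1 ≤ κ) {e : ℕ → ℕ} {j i : ℕ} (hej : 1 ≤ e j) (hi : i ≤ I)
    {S : Finset X} (hS : S ⊆ S₀) (hSne : S.Nonempty) (hcov : Cov S S₀ (rad2 e κ h a g j i)) :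
    H S (i * h) ≤ K3 M C₁ B₀ C₈ * Lam κ h i ^ e j * Ag a g h i := by
  have hm := grid_mem h0 hi
  have h1 := hD.comp S hS hSne _ (rad2_nonneg hD.epath h0 hκ e j i) hcov _ hm
  have h2 := trivial_bound hD.epath hM hC₁ hε0 hε1 hB0 hD.budget hD.dH₀ hD.H₀err hκ hD.init hm
  have h3 := Abar_le hD.epath h0 hM hC₁ hD.budget hi
  have hA := Ag_pos hD.epath h0 hi
  have hL := one_le_Lam h0 hκ i
  have h4 : Lam κ h i ≤ Lam κ h i ^ e j := le_self_pow₀ hL (by omega)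
  have hK2 : 0 ≤ K2 M C₁ B₀ := by unfold K2; positivity
  have h5 : H₀ (i * h) ≤ K2 M C₁ B₀ * Lam κ h i ^ e j * Ag a g h i := by
    refine h2.trans ?_
    show K2 M C₁ B₀ * Lam κ h i * Ag a g h i ≤ _
    gcongr
  have h6 : C₈ * rad2 e κ h a g j i
      ≤ C₈ * Real.exp (C2 M C₁ * B₀) * Lam κ h i ^ e j * Ag a g h i := by
    unfold rad2
    calc C₈ * (Lam κ h i ^ e j * Abar a g h i)
        ≤ C₈ * (Lam κ h i ^ e j * (Real.exp (C2 M C₁ * B₀) * Ag a g h i)) := by gcongr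
      _ = _ := by ring
  unfold K3
  linarith

/-- constant of the stage time bound -/
noncomputable def K6 (h M C₁ B₀ C₈ Cg δ : ℝ) : ℝ :=
  (ch h M C₁ B₀)⁻¹ * Real.exp (Lc h M C₁ B₀ + K1 h M C₁ B₀ + Real.log (K3 M C₁ B₀ C₈))
    * (Cg / δ + C2 M C₁ * B₀)

/-- **Duration of a stage with small growth.** -/
theorem NGData.stage_time (hD : NGData I h κ M C₁ ε B₀ C₈ a g b g₁ S₀ H₀ H₀' H H₁ gS)
    (h0 : 0 < h) (h2 : h ≤ 2) (hM : 0 ≤ M) (hC₁ : 0 ≤ C₁) (hε0 : 0 ≤ ε) (hε1 : ε ≤ 1)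
    (hB0 : 0 ≤ B₀) (hC₈ : 0 ≤ C₈) (hκ : 1 ≤ κ) {e : ℕ → ℕ} {j i₀ n E : ℕ} (hej : 1 ≤ e j)
    (heE : e j ≤ E)
    (hi : i₀ + n ≤ I) {S : Finset X} (hS : S ⊆ S₀) (hSne : S.Nonempty)
    (hcov : Cov S S₀ (rad2 e κ h a g j i₀)) {θ : ℕ → ℝ}
    (hθ0 : ∀ i, 0 ≤ θ i) (hθ1 : ∀ i, θ i ≤ 1 / 4) (hθs : ∑ i ∈ Finset.range I, θ i ≤ 1)
    (halt : ∀ i, i₀ ≤ i → i < i₀ + n → (2 * Am a g (i * h) ≤ Am a g ((i + 1 : ℕ) * h) ∨
      ∀ u ∈ Icc (i * h : ℝ) ((i + 1 : ℕ) * h), g u - gS S u ≤ θ i * Am a g u))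
    {Cg δ ℓ : ℝ} (hCg : 0 < Cg) (hδ : 0 < δ) (hεδ : 32 * ε * Cg ≤ δ) (hℓ : 0 ≤ ℓ)
    (hg : Gl a g h (i₀ + n) - Gl a g h i₀ ≤ Cg * ℓ) :
    Lam κ h (i₀ + n) ≤ (1 + 4 * K6 h M C₁ B₀ C₈ Cg δ) * Real.exp (2 * δ * ℓ)
      * Lam κ h i₀ ^ E := by
  have hsb := stage_bound hD.epath (hD.hpath S hS hSne) h0 h2 hM hC₁ hε0 hε1 hD.budget hB0 hi
    hθ0 hθ1 hθs halt
  have hC2 := C2_nonneg hM hC₁
  have hL := one_le_Lam h0.le hκ i₀
  have hK3 := K3_ge hM hC₁ hB0 hC₈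
  set gs := Gl a g h (i₀ + n) - Gl a g h i₀ with hgs
  have hi0 : i₀ ≤ I := by omega
  have hA := Ag_pos hD.epath h0.le hi0
  have hHpos := (hD.hpath S hS hSne).Hpos _ (grid_mem h0.le hi0)
  have hLE : 1 ≤ Lam κ h i₀ ^ E := one_le_pow₀ hL
  have hLj : Lam κ h i₀ ^ e j ≤ Lam κ h i₀ ^ E := pow_le_pow_right₀ hL heE
  -- initial ell
  have hell : ell h M C₁ B₀ a g (H S) i₀
      ≤ Lc h M C₁ B₀ + Real.log (K3 M C₁ B₀ C₈) + Real.log (Lam κ h i₀ ^ E) := by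
    have hlK : 0 ≤ Real.log (K3 M C₁ B₀ C₈) := Real.log_nonneg hK3
    have hlL : 0 ≤ Real.log (Lam κ h i₀ ^ E) := Real.log_nonneg hLE
    have hLc : 0 ≤ Lc h M C₁ B₀ := (Real.log_nonneg one_le_two).trans (le_max_left _ _)
    unfold ell
    refine max_le (by linarith) ?_
    have h3 := hD.height_le' h0.le hM hC₁ hε0 hε1 hB0 hC₈ hκ hej hi0 hS hSne hcov
    have h4 : H S (i₀ * h) ≤ K3 M C₁ B₀ C₈ * Lam κ h i₀ ^ E * Ag a g h i₀ := by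
      refine h3.trans ?_
      gcongr
    have h5 := Real.log_le_log hHpos h4
    rw [Real.log_mul (by positivity) hA.ne', Real.log_mul (by positivity) (by positivity)] at h5
    have h6 : Real.log (Am a g (i₀ * h)) = Real.log (Ag a g h i₀) := rfl
    rw [h6]
    linarith
  -- lower bound of the exponential
  have hchp : 0 < ch h M C₁ B₀ := by unfold ch; positivity
  set Z := Real.exp (Lc h M C₁ B₀ + K1 h M C₁ B₀ + Real.log (K3 M C₁ B₀ C₈)) with hZ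
  have hexp : (Z * Real.exp (δ * ℓ) * Lam κ h i₀ ^ E)⁻¹
      ≤ Real.exp (-(ell h M C₁ B₀ a g (H S) i₀ + K1 h M C₁ B₀ + 32 * ε * gs)) := by
    rw [hZ, ← Real.exp_log (show 0 < Lam κ h i₀ ^ E by positivity), ← Real.exp_add,
      ← Real.exp_add, ← Real.exp_neg]
    apply Real.exp_le_exp.2
    have h3 : 32 * ε * gs ≤ δ * ℓ := by
      calc 32 * ε * gs ≤ 32 * ε * (Cg * ℓ) := by gcongr
        _ = (32 * ε * Cg) * ℓ := by ring
        _ ≤ δ * ℓ := by gcongr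
    linarith
  have h3 : (n : ℝ) * (ch h M C₁ B₀ * (Z * Real.exp (δ * ℓ) * Lam κ h i₀ ^ E)⁻¹)
      ≤ Cg * ℓ + C2 M C₁ * B₀ := by
    refine le_trans ?_ (hsb.trans (by linarith))
    gcongr
  have h4 : Cg * ℓ + C2 M C₁ * B₀ ≤ (Cg / δ + C2 M C₁ * B₀) * Real.exp (δ * ℓ) := by
    have h5 : δ * ℓ ≤ Real.exp (δ * ℓ) := by
      have := Real.add_one_le_exp (δ * ℓ); linarith
    have h6 : 1 ≤ Real.exp (δ * ℓ) := Real.one_le_exp (by positivity)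
    have h7 : Cg * ℓ = Cg / δ * (δ * ℓ) := by field_simp
    have h8 : 0 ≤ C2 M C₁ * B₀ := by positivity
    have h9 : 0 ≤ Cg / δ := by positivity
    rw [h7]
    nlinarith
  have hpos : 0 < Z * Real.exp (δ * ℓ) * Lam κ h i₀ ^ E := by positivity
  have h5 : (n : ℝ) ≤ K6 h M C₁ B₀ C₈ Cg δ * Real.exp (2 * δ * ℓ) * Lam κ h i₀ ^ E := by
    have h6 := h3.trans h4
    rw [show (n : ℝ) * (ch h M C₁ B₀ * (Z * Real.exp (δ * ℓ) * Lam κ h i₀ ^ E)⁻¹)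
        = (n : ℝ) * ch h M C₁ B₀ / (Z * Real.exp (δ * ℓ) * Lam κ h i₀ ^ E) by
          rw [div_eq_mul_inv]; ring, div_le_iff₀ hpos] at h6
    have h7 : (n : ℝ) ≤ (Cg / δ + C2 M C₁ * B₀) * Real.exp (δ * ℓ)
        * (Z * Real.exp (δ * ℓ) * Lam κ h i₀ ^ E) / ch h M C₁ B₀ := by
      rw [le_div_iff₀ hchp]; exact h6
    refine h7.trans (le_of_eq ?_)
    rw [show 2 * δ * ℓ = δ * ℓ + δ * ℓ by ring, Real.exp_add]
    unfold K6
    rw [← hZ, div_eq_mul_inv]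
    ring
  have h6 : Lam κ h (i₀ + n) = Lam κ h i₀ + 2 * (n * h) := by
    unfold Lam; push_cast; ring
  have h7 : 2 * ((n : ℝ) * h) ≤ 4 * n := by
    have : (0 : ℝ) ≤ n := Nat.cast_nonneg n
    nlinarith
  have h8 : Lam κ h i₀ ≤ Lam κ h i₀ ^ E := le_self_pow₀ hL (by omega)
  have h9 : 1 ≤ Real.exp (2 * δ * ℓ) := Real.one_le_exp (by positivity)
  have h10 : Lam κ h i₀ ^ E ≤ Real.exp (2 * δ * ℓ) * Lam κ h i₀ ^ E :=
    le_mul_of_one_le_left (by positivity) h9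
  rw [h6]
  nlinarith


/-- the exponent of the final iteration -/
noncomputable def Pex (M₀ E : ℕ) : ℕ := (E + 1) ^ ((M₀ + 1) * M₀ + 1)

lemma log_Lam_succ (h0 : 0 < h) (h2 : h ≤ 2) (hκ : 1 ≤ κ) (i : ℕ) :
    Real.log (Lam κ h (i + 1)) ≤ Real.log (Lam κ h i) + Real.log 5 := by
  have hL := one_le_Lam h0.le hκ i
  rw [← Real.log_mul (by positivity) (by norm_num)]
  have h1 : Lam κ h (i + 1) = Lam κ h i + 2 * h := by unfold Lam; push_cast; ring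
  apply Real.log_le_log
  · have := one_le_Lam h0.le hκ (i + 1); linarith
  · rw [h1]; linarith

/-- abstract iteration over stages -/
lemma iterate {E I : ℕ} {lam : ℕ → ℝ} {V : ℕ → ℕ} {K w c : ℝ}
    (hV : ∀ i i', i ≤ i' → V i' ≤ V i)
    (hstage : ∀ i₀ i, i₀ ≤ i → i ≤ I → V i₀ = V i → lam i ≤ K + E * lam i₀)
    (hsucc : ∀ i, lam (i + 1) ≤ lam i + c) (hl0 : lam 0 ≤ w) (hK : K + E * c ≤ w)
    (hc : 0 ≤ c) (hw : 0 ≤ w) (q : ℕ) : ∀ i ≤ I, V 0 ≤ V i + q →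
      lam i ≤ ((E : ℝ) + 1) ^ (q + 1) * w := by
  have hE0 : (0:ℝ) ≤ E := Nat.cast_nonneg _
  have hEc : 0 ≤ (E:ℝ) * c := by positivity
  induction q with
  | zero =>
    intro i hiI hq
    have hanti := hV 0 i (Nat.zero_le i)
    have h3 := hstage 0 i (Nat.zero_le _) hiI (by omega)
    have h6 : (E : ℝ) * lam 0 ≤ E * w := by gcongr
    rw [zero_add, pow_one]
    linarith
  | succ q ih =>
    intro i hiI hq
    classical
    have hex : ∃ i', V i' = V i := ⟨i, rfl⟩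
    obtain ⟨i₀, hi₀, hmin⟩ : ∃ i₀, V i₀ = V i ∧ ∀ k < i₀, V k ≠ V i :=
      ⟨Nat.find hex, Nat.find_spec hex, fun k hk => Nat.find_min hex hk⟩
    have hi₀le : i₀ ≤ i := by
      by_contra hlt
      exact hmin i (not_le.1 hlt) rfl
    have h3 := hstage i₀ i hi₀le hiI hi₀
    have hpow1 : (1:ℝ) ≤ ((E:ℝ) + 1) ^ (q + 1) := one_le_pow₀ (by linarith)
    have hw9 : w ≤ ((E:ℝ) + 1) ^ (q + 1) * w := by nlinarith
    have hstart : E * lam i₀ ≤ E * (((E:ℝ) + 1) ^ (q + 1) * w) + E * c := by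
      rcases Nat.eq_zero_or_pos i₀ with hz | hz
      · rw [hz]
        have h10 := mul_le_mul_of_nonneg_left (hl0.trans hw9) hE0
        linarith
      · obtain ⟨k, hk⟩ : ∃ k, i₀ = k + 1 := ⟨i₀ - 1, by omega⟩
        have hkne : V k ≠ V i := hmin k (by omega)
        have hkanti := hV k i (by omega)
        have h8 := ih k (by omega) (by omega)
        have h9 := hsucc k
        rw [← hk] at h9
        have h11 : lam i₀ ≤ ((E:ℝ) + 1) ^ (q + 1) * w + c := by linarith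
        have h10 := mul_le_mul_of_nonneg_left h11 hE0
        linarith
    have h8 : ((E:ℝ) + 1) ^ (q + 1 + 1) * w
        = E * (((E:ℝ) + 1) ^ (q + 1) * w) + ((E:ℝ) + 1) ^ (q + 1) * w := by
      rw [pow_succ]; ring
    rw [h8]
    linarith

/-- final numerical contradiction -/
lemma final_contra {P : ℕ} {Kc ℓ κ δ w : ℝ} (hP : 0 < P) (hδ : δ = 1 / (8 * P)) (hKc : 0 ≤ Kc)
    (hw : w = Kc + 2 * δ * ℓ + Real.log κ) (hκ : 1 ≤ κ) (hκℓ : κ ≤ 8 * ℓ)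
    (hκ₀ : 1 + 16 * (P * Real.log (32 * P) + P * Kc) ≤ κ) (hfin : ℓ ≤ P * w) : False := by
  have hP1 : (1:ℝ) ≤ P := by exact_mod_cast hP
  have h3 : (P:ℝ) * w = P * Kc + ℓ / 4 + P * Real.log κ := by
    rw [hw, hδ]; field_simp; ring
  have hκpos : 0 < κ := by linarith
  have hℓpos : 0 < ℓ := by linarith
  have h4 : Real.log κ ≤ ℓ / (4 * P) - 1 + Real.log (32 * P) := by
    have h5 : Real.log κ ≤ Real.log (8 * ℓ) := Real.log_le_log hκpos hκℓ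
    have h6 := Real.add_one_le_exp (Real.log (ℓ / (4 * P)))
    rw [Real.exp_log (by positivity)] at h6
    have h7 : Real.log (8 * ℓ) = Real.log (ℓ / (4 * P)) + Real.log (32 * P) := by
      rw [← Real.log_mul (by positivity) (by positivity)]
      congr 1
      field_simp
      norm_num
    linarith
  have h5 : (P:ℝ) * Real.log κ ≤ ℓ / 4 - P + P * Real.log (32 * P) := by
    calc (P:ℝ) * Real.log κ ≤ P * (ℓ / (4 * P) - 1 + Real.log (32 * P)) := by gcongr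
      _ = _ := by field_simp
  linarith

/-- the stage inequality in logarithmic form, assuming that no stage has large growth -/
lemma NGData.log_stage (hD : NGData I h κ M C₁ ε B₀ C₈ a g b g₁ S₀ H₀ H₀' H H₁ gS)
    (h0 : 0 < h) (h2 : h ≤ 2) (hM : 0 ≤ M) (hC₁ : 0 ≤ C₁) (hε0 : 0 ≤ ε) (hε1 : ε ≤ 1)
    (hB0 : 0 ≤ B₀) (hC₈ : 0 ≤ C₈) (hκ : 1 ≤ κ) {e : ℕ → ℕ} {M₀ : ℕ} (hem : Monotone e)
    (he0 : 1 ≤ e 0) (hne : S₀.Nonempty) (hcard : S₀.card ≤ M₀)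
    {θ : ℕ → ℝ}
    (hθ0 : ∀ i, 0 ≤ θ i) (hθ1 : ∀ i, θ i ≤ 1 / 4) (hθs : ∑ i ∈ Finset.range I, θ i ≤ 1)
    (hNE : NoEvent I h κ e M₀ a g S₀ gS θ)
    {Cg δ ℓ : ℝ} (hCg : 0 < Cg) (hδ : 0 < δ) (hεδ : 32 * ε * Cg ≤ δ) (hℓ : 0 ≤ ℓ)
    (hcon : ∀ i₀ i₁ j : ℕ, ∀ S ⊆ S₀, i₀ < i₁ → i₁ ≤ I → j < M₀ → S.Nonempty →
      Sep S (rad2 e κ h a g (j + 1) i₁) → Cov S S₀ (rad2 e κ h a g j i₀) →
      Real.log (Ag a g h i₁) - Real.log (Ag a g h i₀) < Cg * ℓ)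
    {i₀ i : ℕ} (hi0 : i₀ ≤ i) (hiI : i ≤ I)
    (heq : totNum S₀ M₀ (rad2 e κ h a g) i₀ = totNum S₀ M₀ (rad2 e κ h a g) i) :
    Real.log (Lam κ h i) ≤ Real.log (1 + 4 * K6 h M C₁ B₀ C₈ Cg δ) + 2 * δ * ℓ
      + e M₀ * Real.log (Lam κ h i₀) := by
  have hE1 : 1 ≤ e M₀ := he0.trans (hem (Nat.zero_le _))
  have hC2 := C2_nonneg hM hC₁
  have hchp : 0 < ch h M C₁ B₀ := by unfold ch; positivity
  have hK6 : 0 ≤ K6 h M C₁ B₀ C₈ Cg δ := by unfold K6; positivity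
  have hK7' : 1 ≤ 1 + 4 * K6 h M C₁ B₀ C₈ Cg δ := by linarith
  have hL0 := one_le_Lam h0.le hκ i₀
  have hL0' := Real.log_nonneg hL0
  rcases eq_or_lt_of_le hi0 with rfl | hlt
  · have h3 : 0 ≤ Real.log (1 + 4 * K6 h M C₁ B₀ C₈ Cg δ) := Real.log_nonneg hK7'
    have h4 : 0 ≤ 2 * δ * ℓ := by positivity
    have h5 : (1:ℝ) ≤ e M₀ := by exact_mod_cast hE1
    nlinarith
  · obtain ⟨n, rfl⟩ := Nat.exists_eq_add_of_le hi0
    obtain ⟨j, hj, S, hS, hSne, hsep, hcov⟩ := exists_stage (M₀ := M₀) hne hcard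
      (fun j i => rad2_nonneg hD.epath h0.le hκ e j i)
      (fun j i i' hi => rad2_mono hD.epath h0.le hκ e j hi)
      (fun j i => rad2_mono_j hD.epath h0.le hκ hem j i) hi0 heq
    have hg := hcon i₀ (i₀ + n) j S hS hlt hiI hj hSne hsep hcov
    have halt : ∀ i, i₀ ≤ i → i < i₀ + n → (2 * Am a g (i * h) ≤ Am a g ((i + 1 : ℕ) * h) ∨
        ∀ u ∈ Icc (i * h : ℝ) ((i + 1 : ℕ) * h), g u - gS S u ≤ θ i * Am a g u) := by
      intro i hi1 hi2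
      exact hNE i (by omega) j hj S hS hSne
        (hsep.mono (rad2_mono hD.epath h0.le hκ e (j + 1) hi2.le))
        (hcov.mono (rad2_mono hD.epath h0.le hκ e j hi1))
    have hst := hD.stage_time h0 h2 hM hC₁ hε0 hε1 hB0 hC₈ hκ (E := e M₀)
      (he0.trans (hem (Nat.zero_le j))) (hem hj.le) hiI hS hSne hcov hθ0 hθ1 hθs halt
      hCg hδ hεδ hℓ hg.le
    have h3 := Real.log_le_log (by linarith [one_le_Lam h0.le hκ (i₀ + n)]) hst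
    rw [Real.log_mul (by positivity) (by positivity), Real.log_mul (by positivity)
      (Real.exp_pos _).ne', Real.log_exp, Real.log_pow] at h3
    exact h3

/-- **The abstract path lemma.** -/
theorem path (X : Type*) [MetricSpace X] : PathStatement X := by
  intro M₀ e h M C₁ B₀ C₈ Cg hM₀ hem he0 h0 h2 hM hC₁ hB0 hC₈ hCg
  obtain ⟨P, hP⟩ : ∃ P : ℕ, P = Pex M₀ (e M₀) := ⟨_, rfl⟩
  have hPpos : 0 < P := by rw [hP]; unfold Pex; positivity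
  have hP1 : (1:ℝ) ≤ P := by exact_mod_cast hPpos
  obtain ⟨δ, hδ⟩ : ∃ δ : ℝ, δ = 1 / (8 * P) := ⟨_, rfl⟩
  have hδpos : 0 < δ := by rw [hδ]; positivity
  have hC2 := C2_nonneg hM hC₁
  have hchp : 0 < ch h M C₁ B₀ := by unfold ch; positivity
  have hK6 : 0 ≤ K6 h M C₁ B₀ C₈ Cg δ := by unfold K6; positivity
  obtain ⟨K7, hK7⟩ : ∃ K7 : ℝ, K7 = 1 + 4 * K6 h M C₁ B₀ C₈ Cg δ := ⟨_, rfl⟩
  have hK7' : 1 ≤ K7 := by linarith
  have hlK7 : 0 ≤ Real.log K7 := Real.log_nonneg hK7'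
  have hlog5 : 0 ≤ Real.log 5 := Real.log_nonneg (by norm_num)
  obtain ⟨Kc, hKc⟩ : ∃ Kc : ℝ, Kc = Real.log K7 + e M₀ * Real.log 5 := ⟨_, rfl⟩
  have hKc0 : 0 ≤ Kc := by rw [hKc]; positivity
  have hl32 : 0 ≤ Real.log (32 * P) := Real.log_nonneg (by nlinarith)
  refine ⟨min 1 (δ / (32 * Cg)), 1 + 16 * (P * Real.log (32 * P) + P * Kc),
    lt_min one_pos (by positivity), min_le_left _ _, ?_, ?_⟩
  · have : 0 ≤ 16 * (P * Real.log (32 * P) + P * Kc) := by positivity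
    linarith
  intro I κ ε a g b g₁ S₀ H₀ H₀' H H₁ gS θ hκ₀ hε0 hεε hne hcard hD hθ0 hθ1 hθs hNE hLam
  have hε1 : ε ≤ 1 := hεε.trans (min_le_left _ _)
  have hεδ : 32 * ε * Cg ≤ δ := by
    have h1 : ε ≤ δ / (32 * Cg) := hεε.trans (min_le_right _ _)
    rw [le_div_iff₀ (by positivity)] at h1
    linarith
  have hκ : 1 ≤ κ := by
    have : 0 ≤ 16 * (P * Real.log (32 * P) + P * Kc) := by positivity
    linarith
  have hLI := one_le_Lam h0.le hκ I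
  have hℓ0 : 0 ≤ Real.log (Lam κ h I) := Real.log_nonneg hLI
  have hκℓ : κ ≤ 8 * Real.log (Lam κ h I) := by
    have h1 := Real.log_le_log (Real.exp_pos _) hLam
    rw [Real.log_exp] at h1
    linarith
  by_contra hcon
  push Not at hcon
  have hlκ : 0 ≤ Real.log κ := Real.log_nonneg hκ
  have h2d : 0 ≤ 2 * δ * Real.log (Lam κ h I) := by positivity
  have hit := iterate (E := e M₀) (I := I) (lam := fun i => Real.log (Lam κ h i))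
    (V := totNum S₀ M₀ (rad2 e κ h a g)) (K := Real.log K7 + 2 * δ * Real.log (Lam κ h I))
    (w := Kc + 2 * δ * Real.log (Lam κ h I) + Real.log κ) (c := Real.log 5)
    (fun i i' hi => totNum_anti (fun j i i' hi => rad2_mono hD.epath h0.le hκ e j hi) hi)
    (fun i₀ i hi0 hiI heq => by
      rw [hK7]
      exact hD.log_stage h0 h2 hM hC₁ hε0 hε1 hB0 hC₈ hκ hem he0 hne hcard hθ0 hθ1 hθs hNE hCg
        hδpos hεδ hℓ0 hcon hi0 hiI heq)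
    (fun i => log_Lam_succ h0 h2 hκ i)
    (by
      have hLam0 : Real.log (Lam κ h 0) = Real.log κ := by unfold Lam; simp
      show Real.log (Lam κ h 0) ≤ _
      rw [hLam0]; linarith)
    (by rw [hKc]; linarith) hlog5 (by positivity) ((M₀ + 1) * M₀) I le_rfl
    (by
      have := totNum_le (S₀ := S₀) (M₀ := M₀) (r := rad2 e κ h a g) hcard 0
      omega)
  have hPe : ((e M₀ : ℝ) + 1) ^ ((M₀ + 1) * M₀ + 1) = (P : ℝ) := by
    rw [hP]; unfold Pex; push_cast; rfl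
  rw [hPe] at hit
  exact final_contra hPpos hδ hKc0 rfl hκ hκℓ hκ₀ hit

end Vale.Agent.P214.NG
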