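import Vale.Agent.P214.NG.MultiL

/-!
# P214, block NG-L (4): the clock `L`, the radii, and the trivial bound
-/

open Set Filter Topology MeasureTheory

set_option linter.all false

namespace Vale.Agent.P214.NG

variable {N : ℕ} {h κ L₀ M C₁ ε B₀ : ℝ} {a g b g₁ H H₁ gS H₀ H₀' : ℝ → ℝ}

/-- growth of the running maximum -/
noncomputable def Gb (a g : ℝ → ℝ) (h : ℝ) (i : ℕ) : ℝ :=
  Real.log (Abar a g h i) - Real.log (Abar a g h 0)

lemma Lg_eq (i : ℕ) : Lg L₀ h a g i = L₀ + 2 * (i * h) - Gb a g h i := rfl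

lemma Lg_zero : Lg L₀ h a g 0 = L₀ := by unfold Lg; simp

lemma Gb_zero : Gb a g h 0 = 0 := by unfold Gb; simp

lemma Gb_mono (he : EPath 0 (N * h) M a g b g₁) (h0 : 0 ≤ h) {i i' : ℕ} (hi : i ≤ i') :
    Gb a g h i ≤ Gb a g h i' := by
  unfold Gb
  have := Real.log_le_log (Abar_pos he h0 i) (Abar_mono (a := a) (g := g) (h := h) hi)
  linarith

lemma Gb_nonneg (he : EPath 0 (N * h) M a g b g₁) (h0 : 0 ≤ h) (i : ℕ) :
    0 ≤ Gb a g h i := by
  have := Gb_mono he h0 (Nat.zero_le i)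
  rwa [Gb_zero] at this

lemma Lg_le (he : EPath 0 (N * h) M a g b g₁) (h0 : 0 ≤ h) {i i' : ℕ} (hi : i ≤ i') :
    Lg L₀ h a g i' ≤ Lg L₀ h a g i + 2 * (((i' : ℝ) - i) * h) := by
  rw [Lg_eq, Lg_eq]
  have := Gb_mono he h0 hi
  linarith

lemma Abar_exp (he : EPath 0 (N * h) M a g b g₁) (h0 : 0 ≤ h) (i i' : ℕ) :
    Abar a g h i' = Abar a g h i * Real.exp (Gb a g h i' - Gb a g h i) := by
  unfold Gb
  have h1 := Abar_pos he h0 i
  have h2 := Abar_pos he h0 i'
  rw [show Real.log (Abar a g h i') - Real.log (Abar a g h 0)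
      - (Real.log (Abar a g h i) - Real.log (Abar a g h 0))
      = Real.log (Abar a g h i') - Real.log (Abar a g h i) by ring,
    ← Real.log_div h2.ne' h1.ne', Real.exp_log (div_pos h2 h1)]
  field_simp

/-- **The radii are nondecreasing in time.** -/
lemma radL_mono (he : EPath 0 (N * h) M a g b g₁) (h0 : 0 ≤ h) {e : ℕ → ℕ} {j i i' : ℕ}
    (hi : i ≤ i') (hL : 0 < Lg L₀ h a g i) (hL1 : 1 ≤ Lg L₀ h a g i')
    (hL' : (e j : ℝ) ≤ Lg L₀ h a g i') :
    radL e L₀ h a g j i ≤ radL e L₀ h a g j i' := by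
  unfold radL
  have h1 := Abar_pos he h0 i
  set x := Gb a g h i' - Gb a g h i with hx
  have hx0 : 0 ≤ x := by
    have := Gb_mono he h0 hi
    linarith
  rw [Abar_exp he h0 i i', ← hx]
  have hLi' : 0 < Lg L₀ h a g i' := by linarith
  have h3 : Lg L₀ h a g i ≤ Lg L₀ h a g i' + x := by
    rw [Lg_eq, Lg_eq, hx]
    have : (i : ℝ) ≤ i' := by exact_mod_cast hi
    have : (i : ℝ) * h ≤ i' * h := by gcongr
    linarith
  have h4 : Lg L₀ h a g i ≤ Lg L₀ h a g i' * Real.exp (x / Lg L₀ h a g i') := by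
    refine h3.trans ?_
    have h5 := Real.add_one_le_exp (x / Lg L₀ h a g i')
    calc Lg L₀ h a g i' + x = Lg L₀ h a g i' * (x / Lg L₀ h a g i' + 1) := by
          field_simp; ring
      _ ≤ _ := by gcongr
  calc Lg L₀ h a g i ^ e j * Abar a g h i
      ≤ (Lg L₀ h a g i' * Real.exp (x / Lg L₀ h a g i')) ^ e j * Abar a g h i := by gcongr
    _ = Lg L₀ h a g i' ^ e j * (Abar a g h i * Real.exp (e j * (x / Lg L₀ h a g i'))) := by
        rw [mul_pow, ← Real.exp_nat_mul]; ring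
    _ ≤ Lg L₀ h a g i' ^ e j * (Abar a g h i * Real.exp x) := by
        have h6 : (e j : ℝ) * (x / Lg L₀ h a g i') ≤ x := by
          rw [← mul_div_assoc, div_le_iff₀ hLi', mul_comm]
          exact mul_le_mul_of_nonneg_left hL' hx0
        gcongr

lemma radL_nonneg (he : EPath 0 (N * h) M a g b g₁) (h0 : 0 ≤ h) {e : ℕ → ℕ} {j i : ℕ}
    (hL : 0 ≤ Lg L₀ h a g i) : 0 ≤ radL e L₀ h a g j i := by
  unfold radL
  have := Abar_pos he h0 i
  positivity

lemma radL_mono_j (he : EPath 0 (N * h) M a g b g₁) (h0 : 0 ≤ h) {e : ℕ → ℕ}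
    (hem : Monotone e) {j i : ℕ} (hL : 1 ≤ Lg L₀ h a g i) :
    radL e L₀ h a g j i ≤ radL e L₀ h a g (j + 1) i := by
  unfold radL
  have h1 := Abar_pos he h0 i
  have h3 := hem (Nat.le_succ j)
  gcongr

/-- constants of the trivial bound -/
noncomputable def c9 (h M C₁ B₀ : ℝ) : ℝ := C7 h M C₁ B₀ / h

noncomputable def c10 (h M C₁ B₀ : ℝ) : ℝ :=
  (c9 h M C₁ B₀ + C7 h M C₁ B₀) / (1 - Real.exp (-h))

lemma step_ineq {c₉ C₇ x y h : ℝ} (h0 : 0 < h) (hc : c₉ * h = C₇) (hc0 : 0 ≤ c₉)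
    (hy : 0 ≤ y) (hx : 0 ≤ x) (hx' : 0 ≤ x + 2 * h - y) {c₁₀ : ℝ}
    (hc10 : c₁₀ * (1 - Real.exp (-h)) = c₉ + C₇) (hc10' : 0 ≤ c₁₀) :
    Real.exp (-y) * (c₉ * x + c₁₀) + C₇ ≤ c₉ * (x + 2 * h - y) + c₁₀ := by
  rcases le_total y h with hyh | hyh
  · have h1 : Real.exp (-y) ≤ 1 := by rw [Real.exp_le_one_iff]; linarith
    have h2 : Real.exp (-y) * (c₉ * x + c₁₀) ≤ 1 * (c₉ * x + c₁₀) := by gcongr
    have h3 : c₉ * h ≤ c₉ * (2 * h - y) := by gcongr; linarith
    linarith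
  · have h1 : Real.exp (-y) ≤ Real.exp (-h) := Real.exp_le_exp.2 (by linarith)
    have h2 : Real.exp (-h) < 1 := by rw [Real.exp_lt_one_iff]; linarith
    have h3 : c₁₀ * (1 - Real.exp (-h)) ≤ c₁₀ * (1 - Real.exp (-y)) := by gcongr
    have h4 : -1 ≤ (2 * h - y) + (1 - Real.exp (-y)) * x := by
      rcases le_total y (2 * h) with h5 | h5
      · have : 0 ≤ (1 - Real.exp (-y)) * x := mul_nonneg (by linarith) hx
        linarith
      · have h6 : (1 - Real.exp (-y)) * (y - 2 * h) ≤ (1 - Real.exp (-y)) * x := by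
          apply mul_le_mul_of_nonneg_left _ (by linarith)
          linarith
        have h7 : Real.exp (-y) * y ≤ 1 := by
          have h8 := Real.add_one_le_exp y
          have h9 : Real.exp (-y) * Real.exp y = 1 := by rw [← Real.exp_add]; simp
          have h10 := Real.exp_pos (-y)
          nlinarith
        have h11 : 0 ≤ Real.exp (-y) * (2 * h) := by positivity
        nlinarith
    have h5 : c₉ * (-1) ≤ c₉ * ((2 * h - y) + (1 - Real.exp (-y)) * x) := by gcongr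
    nlinarith

/-- **The trivial bound** with the clock `L`. -/
theorem H0_bound (he : EPath 0 (N * h) M a g b g₁) (h0 : 0 < h) (hM : 0 ≤ M) (hC₁ : 0 ≤ C₁)
    (hε0 : 0 ≤ ε) (hε1 : ε ≤ 1) (hB : ∫ u in (0:ℝ)..(N * h), Yp a g u ≤ B₀)
    (hd : ∀ u ∈ Icc 0 (N * h), HasDerivAt H₀ (H₀' u) u)
    (herr : ∀ u ∈ Icc 0 (N * h), H₀' u ≤ 2 * g u + ε * (g₁ u + C₁ * g u))
    (hκ : 0 ≤ κ) (hinit : H₀ 0 ≤ κ * Am a g 0) {I : ℕ} (hIN : I ≤ N)
    (hL : ∀ i ≤ I, 0 ≤ Lg L₀ h a g i) : ∀ i ≤ I,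
    H₀ (i * h) ≤ (κ * Real.exp (-Gb a g h i) + c9 h M C₁ B₀ * Lg L₀ h a g i
      + c10 h M C₁ B₀) * Abar a g h i := by
  have hC7 := C7_pos (B₀ := B₀) h0.le hM hC₁
  have hc9 : 0 ≤ c9 h M C₁ B₀ := by unfold c9; positivity
  have hexp : 0 < 1 - Real.exp (-h) := by
    have : Real.exp (-h) < 1 := by rw [Real.exp_lt_one_iff]; linarith
    linarith
  have hc10 : 0 ≤ c10 h M C₁ B₀ := by unfold c10; positivity
  intro i
  induction i with
  | zero =>
    intro _
    have hA0 : Abar a g h 0 = Am a g 0 := by unfold Abar Ag; simp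
    have h1 := Abar_pos he h0.le 0
    rw [Gb_zero, neg_zero, Real.exp_zero, mul_one, hA0]
    have h2 : 0 ≤ (c9 h M C₁ B₀ * Lg L₀ h a g 0 + c10 h M C₁ B₀) * Am a g 0 := by
      have := hL 0 (Nat.zero_le _)
      rw [hA0] at h1
      positivity
    simp only [Nat.cast_zero, zero_mul]
    nlinarith
  | succ i ih =>
    intro hi
    have ih' := ih (by omega)
    have hcast : ((i : ℕ) : ℝ) * h ≤ ((i + 1 : ℕ) : ℝ) * h :=
      mul_le_mul_of_nonneg_right (Nat.cast_le.2 (by omega)) h0.le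
    have hcast' : ((i + 1 : ℕ) : ℝ) * h ≤ N * h :=
      mul_le_mul_of_nonneg_right (Nat.cast_le.2 (by omega)) h0.le
    have hstep := height_le_sub (D := h) he hM hC₁ hε0 hε1 hB (by positivity) hcast hcast'
      (by push_cast; ring_nf; rfl) (fun u hu => hd u ⟨by
        have : (0:ℝ) ≤ i * h := by positivity
        linarith [hu.1], hu.2.trans hcast'⟩) (fun u hu => herr u ⟨by
        have : (0:ℝ) ≤ i * h := by positivity
        linarith [hu.1], hu.2.trans hcast'⟩)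
    have hc7 : (2 + C₁) * (2 * Real.exp (C2 M C₁ * B₀)) * h + 2 = C7 h M C₁ B₀ := rfl
    rw [hc7] at hstep
    have hAle : Am a g (((i + 1 : ℕ) : ℝ) * h) ≤ Abar a g h (i + 1) := le_Abar (i + 1)
    have hAb := Abar_pos he h0.le (i + 1)
    set y := Gb a g h (i + 1) - Gb a g h i with hy
    have hy0 : 0 ≤ y := by
      have := Gb_mono he h0.le (show i ≤ i + 1 by omega)
      linarith
    have hAi : Abar a g h i = Real.exp (-y) * Abar a g h (i + 1) := by
      have := Abar_exp he h0.le (i + 1) i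
      rw [this, hy, mul_comm]
      congr 2
      ring
    have hLs : Lg L₀ h a g (i + 1) = Lg L₀ h a g i + 2 * h - y := by
      rw [Lg_eq, Lg_eq, hy]; push_cast; ring
    have hx0 := hL i (by omega)
    have hx1 := hL (i + 1) hi
    rw [hLs] at hx1
    have hsi := step_ineq (c₉ := c9 h M C₁ B₀) (C₇ := C7 h M C₁ B₀) (c₁₀ := c10 h M C₁ B₀) h0
      (by unfold c9; field_simp) hc9 hy0 hx0 hx1 (by unfold c10; field_simp) hc10
    have hκe : κ * Real.exp (-Gb a g h (i + 1)) = Real.exp (-y) * (κ * Real.exp (-Gb a g h i)) := by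
      rw [hy, show -Gb a g h (i + 1) = -(Gb a g h (i + 1) - Gb a g h i) + -Gb a g h i by ring,
        Real.exp_add]
      ring
    calc H₀ (((i + 1 : ℕ) : ℝ) * h) ≤ H₀ (i * h) + C7 h M C₁ B₀ * Am a g ((i + 1 : ℕ) * h) :=
          hstep
      _ ≤ (κ * Real.exp (-Gb a g h i) + c9 h M C₁ B₀ * Lg L₀ h a g i
            + c10 h M C₁ B₀) * Abar a g h i + C7 h M C₁ B₀ * Abar a g h (i + 1) := by gcongr
      _ = (κ * Real.exp (-Gb a g h (i + 1)) + (Real.exp (-y) * (c9 h M C₁ B₀ * Lg L₀ h a g i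
            + c10 h M C₁ B₀) + C7 h M C₁ B₀)) * Abar a g h (i + 1) := by
          rw [hAi, hκe]; ring
      _ ≤ _ := by
          rw [hLs]
          apply mul_le_mul_of_nonneg_right _ hAb.le
          linarith

end Vale.Agent.P214.NG
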