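import Mathlib

/-!
# P214, block NG (1): the differential inequalities along a path

Everything is in the variable `u = log (t / s)` (log-distance to the bottom scale).
`A = max a (g/2)`, `Y = min 1 X₋` with `X₋ = max 0 ((g - a)/g)`.
-/

open Set Filter Topology MeasureTheory

set_option linter.all false

namespace Vale.Agent.P214.NG

/-! ### comparison lemmas -/

/-- a one-sided slope condition from a majorant touching at the point -/
lemma slope_cond {f φ : ℝ → ℝ} {x φ' : ℝ} (hφ : HasDerivAt φ φ' x)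
    (h : ∀ᶠ z in 𝓝[>] x, f z ≤ φ z) (hx : f x = φ x) :
    ∀ r, φ' < r → ∃ᶠ z in 𝓝[>] x, slope f x z < r := by
  intro r hr
  have h1 : Tendsto (slope φ x) (𝓝[>] x) (𝓝 φ') :=
    (hasDerivAt_iff_tendsto_slope.1 hφ).mono_left
      (nhdsWithin_mono _ (fun z (hz : x < z) => ne_of_gt hz))
  have h2 : ∀ᶠ z in 𝓝[>] x, slope φ x z < r := h1.eventually_lt_const hr
  have h3 : ∀ᶠ z in 𝓝[>] x, slope f x z < r := by
    filter_upwards [h2, h, self_mem_nhdsWithin] with z hz1 hz2 hz3
    refine lt_of_le_of_lt ?_ hz1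
    rw [slope_def_field, slope_def_field, hx]
    have : 0 < z - x := sub_pos.2 hz3
    gcongr
  exact h3.frequently

lemma hasDerivWithinAt_integral {α β : ℝ} {R : ℝ → ℝ} (hR : ContinuousOn R (Icc α β)) {x : ℝ}
    (hx : x ∈ Ico α β) :
    HasDerivWithinAt (fun u => ∫ v in α..u, R v) (R x) (Ici x) x := by
  have h1 : IntervalIntegrable R volume α x := by
    apply ContinuousOn.intervalIntegrable
    rw [uIcc_of_le hx.1]
    exact hR.mono (Icc_subset_Icc_right hx.2.le)
  refine intervalIntegral.integral_hasDerivWithinAt_right (s := Ici x) (t := Ioi x) h1 ?_ ?_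
  · refine ⟨Ioc x β, Ioc_mem_nhdsGT hx.2, ?_⟩
    exact (hR.mono (fun z hz => ⟨hx.1.trans hz.1.le, hz.2⟩)).aestronglyMeasurable
      measurableSet_Ioc
  · have h2 : ContinuousWithinAt R (Icc α β) x := hR x ⟨hx.1, hx.2.le⟩
    have h3 : ContinuousWithinAt R (Ioc x β) x :=
      h2.mono (fun z hz => ⟨hx.1.trans hz.1.le, hz.2⟩)
    exact (continuousWithinAt_Ioc_iff_Ioi hx.2).1 h3

lemma continuousOn_integral {α β : ℝ} (hαβ : α ≤ β) {R : ℝ → ℝ}
    (hR : ContinuousOn R (Icc α β)) : ContinuousOn (fun u => ∫ v in α..u, R v) (Icc α β) := by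
  have h := intervalIntegral.continuousOn_primitive_interval (f := R) (μ := volume) (a := α)
    (b := β) (by
      rw [uIcc_of_le hαβ]
      exact hR.integrableOn_Icc)
  rwa [uIcc_of_le hαβ] at h

/-- integration of a one-sided differential inequality -/
lemma gr1 {α β : ℝ} (hαβ : α ≤ β) {f f' R : ℝ → ℝ} (hf : ContinuousOn f (Icc α β))
    (hs : ∀ x ∈ Ico α β, ∀ r, f' x < r → ∃ᶠ z in 𝓝[>] x, slope f x z < r)
    (hR : ContinuousOn R (Icc α β)) (hb : ∀ x ∈ Ico α β, f' x ≤ R x) :
    ∀ u ∈ Icc α β, f u ≤ f α + ∫ v in α..u, R v := by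
  intro u hu
  have key : ∀ δ : ℝ, 0 < δ → f u ≤ f α + (∫ v in α..u, R v) + δ * (u - α) := by
    intro δ hδ
    have := image_le_of_liminf_slope_right_lt_deriv_boundary' (f := f) (f' := f') hf hs
      (B := fun u => f α + (∫ v in α..u, R v) + δ * (u - α)) (B' := fun u => R u + δ)
      (by simp) ?_ ?_ ?_ hu
    · exact this
    · exact (continuousOn_const.add (continuousOn_integral hαβ hR)).add
        (continuousOn_const.mul (continuousOn_id.sub continuousOn_const))
    · intro x hx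
      have h1 := hasDerivWithinAt_integral hR hx
      have h2 : HasDerivWithinAt (fun u => δ * (u - α)) δ (Ici x) x := by
        have := ((hasDerivAt_id x).sub_const α).const_mul δ
        simpa using this.hasDerivWithinAt
      exact (h1.const_add (f α)).add h2
    · intro x hx _
      have := hb x hx
      show f' x < R x + δ
      linarith
  refine le_of_forall_pos_le_add fun η hη => ?_
  rcases eq_or_lt_of_le hu.1 with h | h
  · subst h
    simpa using hη.le
  · have := key (η / (u - α)) (div_pos hη (sub_pos.2 h))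
    rwa [div_mul_cancel₀ _ (sub_pos.2 h).ne'] at this

/-- the same above a threshold -/
lemma gr2 {α β : ℝ} (hαβ : α ≤ β) {f f' R : ℝ → ℝ} {L : ℝ} (hf : ContinuousOn f (Icc α β))
    (hs : ∀ x ∈ Ico α β, ∀ r, f' x < r → ∃ᶠ z in 𝓝[>] x, slope f x z < r)
    (hR : ContinuousOn R (Icc α β)) (hR0 : ∀ x ∈ Icc α β, 0 ≤ R x)
    (hb : ∀ x ∈ Ico α β, L ≤ f x → f' x ≤ R x) :
    ∀ u ∈ Icc α β, f u ≤ max L (f α) + ∫ v in α..u, R v := by
  intro u hu
  have key : ∀ δ : ℝ, 0 < δ → f u ≤ max L (f α) + (∫ v in α..u, R v) + δ * (u - α) := by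
    intro δ hδ
    have := image_le_of_liminf_slope_right_lt_deriv_boundary' (f := f) (f' := f') hf hs
      (B := fun u => max L (f α) + (∫ v in α..u, R v) + δ * (u - α)) (B' := fun u => R u + δ)
      (by simp) ?_ ?_ ?_ hu
    · exact this
    · exact (continuousOn_const.add (continuousOn_integral hαβ hR)).add
        (continuousOn_const.mul (continuousOn_id.sub continuousOn_const))
    · intro x hx
      have h1 := hasDerivWithinAt_integral hR hx
      have h2 : HasDerivWithinAt (fun u => δ * (u - α)) δ (Ici x) x := by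
        have := ((hasDerivAt_id x).sub_const α).const_mul δ
        simpa using this.hasDerivWithinAt
      exact (h1.const_add (max L (f α))).add h2
    · intro x hx hfx
      have h0 : 0 ≤ ∫ v in α..x, R v :=
        intervalIntegral.integral_nonneg hx.1 fun v hv => hR0 v ⟨hv.1, hv.2.trans hx.2.le⟩
      have h1 : L ≤ f x := by
        rw [hfx]
        have h2 : 0 ≤ δ * (x - α) := mul_nonneg hδ.le (sub_nonneg.2 hx.1)
        have h3 := le_max_left L (f α)
        show L ≤ max L (f α) + (∫ v in α..x, R v) + δ * (x - α)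
        linarith
      have := hb x hx h1
      show f' x < R x + δ
      linarith
  refine le_of_forall_pos_le_add fun η hη => ?_
  rcases eq_or_lt_of_le hu.1 with h | h
  · subst h
    simpa using (le_max_right L (f α)).trans (by linarith)
  · have := key (η / (u - α)) (div_pos hη (sub_pos.2 h))
    rwa [div_mul_cancel₀ _ (sub_pos.2 h).ne'] at this

/-! ### the algebra -/

/-- `Y = min 1 X₋` -/
noncomputable def Yr (a g : ℝ) : ℝ := min 1 (max 0 ((g - a) / g))

lemma Yr_nonneg (a g : ℝ) : 0 ≤ Yr a g := le_min zero_le_one (le_max_left _ _)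

lemma Yr_le_one (a g : ℝ) : Yr a g ≤ 1 := min_le_left _ _

lemma Yr_half {a g : ℝ} (hg : 0 < g) (h : a < g / 2) : 1 / 2 ≤ Yr a g := by
  unfold Yr
  refine le_min (by norm_num) (le_max_of_le_right ?_)
  rw [le_div_iff₀ hg]; linarith

lemma Yr_ge {a g : ℝ} (hg : 0 < g) (h : g / 2 ≤ a) : g - a ≤ Yr a g * g := by
  unfold Yr
  rcases le_or_gt g a with h1 | h1
  · have : 0 ≤ min 1 (max 0 ((g - a) / g)) * g :=
      mul_nonneg (le_min zero_le_one (le_max_left _ _)) hg.le
    linarith
  · have h2 : (g - a) / g ≤ 1 := by rw [div_le_one hg]; linarith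
    have h3 : 0 ≤ (g - a) / g := div_nonneg (by linarith) hg.le
    rw [max_eq_right h3, min_eq_right h2, div_mul_cancel₀ _ hg.ne']

lemma alg1 {a g b H H₁ gS θ ε : ℝ} (hg : 0 < g) (hag : g / 2 ≤ a) (haH : a ≤ H)
    (hcs : gS ^ 2 ≤ H * b) (hb : 0 ≤ b) (hS : gS ≤ g) (hθ : g - gS ≤ θ * a) (hθ1 : θ ≤ 1 / 4)
    (hε : 0 ≤ ε) (hε1 : ε ≤ 1) (hH₁ : H₁ ≤ 2 * gS + ε * b) :
    H₁ / H - (2 * (a - g) + 2 * b) / a ≤ 4 * Yr a g + (2 * θ + 4 * ε) * (a / H) := by
  have ha : 0 < a := by linarith
  have hH : 0 < H := ha.trans_le haH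
  have hY := Yr_ge hg hag
  have hY0 := Yr_nonneg a g
  set Y := Yr a g with hYdef
  have hθ0 : 0 ≤ θ := by
    by_contra hcon
    push Not at hcon
    have := mul_neg_of_neg_of_pos hcon ha
    linarith
  -- |gS| ≤ 2 a
  have hgS1 : gS ≤ 2 * a := by linarith
  have hgS2 : -(2 * a) ≤ gS := by nlinarith
  have hsq : gS ^ 2 ≤ 4 * a ^ 2 := by nlinarith
  -- main inequality
  have main : 0 ≤ 2 * (a - g) * H + 4 * Y * H * a + 2 * gS * (gS - a) + 2 * θ * a ^ 2 := by
    rcases le_total g a with hga | hga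
    · have h1 : 2 * (a - g) * a ≤ 2 * (a - g) * H :=
        mul_le_mul_of_nonneg_left haH (by linarith)
      have h2 : 0 ≤ 4 * Y * H * a := by positivity
      rcases le_or_gt gS 0 with h3 | h3
      · have h4 : 0 ≤ gS * (gS - a) := mul_nonneg_of_nonpos_of_nonpos h3 (by linarith)
        have h5 : 0 ≤ 2 * (a - g) * a := by
          have : 0 ≤ a - g := by linarith
          positivity
        have h6 : 0 ≤ θ * a ^ 2 := by positivity
        nlinarith
      · -- gS (a - gS) ≤ a ((a-g) + (g - gS)) ≤ a (a - g) + θ a²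
        have h4 : gS * (a - gS) ≤ a * (a - gS) := by
          apply mul_le_mul_of_nonneg_right (by linarith) (by linarith)
        have h5 : a * (a - gS) ≤ a * (a - g) + θ * a ^ 2 := by nlinarith
        nlinarith
    · -- g > a
      have h1 : 0 ≤ 2 * (a - g) * H + 4 * Y * H * a := by
        have h2 : (g - a) ≤ 2 * Y * a := by
          calc g - a ≤ Y * g := hY
            _ ≤ Y * (2 * a) := by gcongr; linarith
            _ = 2 * Y * a := by ring
        nlinarith
      have h6 : 0 ≤ 2 * gS * (gS - a) + 2 * θ * a ^ 2 := by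
        rcases le_or_gt gS 0 with h3 | h3
        · have h4 : 0 ≤ gS * (gS - a) := mul_nonneg_of_nonpos_of_nonpos h3 (by linarith)
          have h6 : 0 ≤ θ * a ^ 2 := by positivity
          nlinarith
        · rcases le_or_gt a gS with h4 | h4
          · have h5 : 0 ≤ gS * (gS - a) := mul_nonneg h3.le (by linarith)
            have h6 : 0 ≤ θ * a ^ 2 := by positivity
            nlinarith
          · have h5 : a - gS ≤ θ * a := by linarith
            have h6 : gS * (a - gS) ≤ a * (θ * a) :=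
              mul_le_mul h4.le h5 (by linarith) ha.le
            nlinarith
      linarith
  -- b H / a lower bound
  have hbH : (2 - ε) * (gS ^ 2 / a) ≤ 2 * b * (H / a) - ε * b := by
    have h1 : gS ^ 2 / a ≤ b * (H / a) := by
      rw [div_le_iff₀ ha]
      calc gS ^ 2 ≤ H * b := hcs
        _ = b * (H / a) * a := by field_simp
    have h2 : b ≤ b * (H / a) := by
      have : 1 ≤ H / a := by rw [le_div_iff₀ ha]; linarith
      nlinarith
    nlinarith
  -- put together
  rw [sub_le_iff_le_add, div_le_iff₀ hH]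
  have hexp : (4 * Y + (2 * θ + 4 * ε) * (a / H) + (2 * (a - g) + 2 * b) / a) * H
      = 4 * Y * H + (2 * θ + 4 * ε) * a + 2 * (a - g) * (H / a) + 2 * b * (H / a) := by
    field_simp
    ring
  rw [hexp]
  have h7 : 2 * gS ≤ 4 * Y * H + (2 * θ + 4 * ε) * a + 2 * (a - g) * (H / a)
      + (2 - ε) * (gS ^ 2 / a) := by
    rw [← sub_nonneg]
    have : (4 * Y * H + (2 * θ + 4 * ε) * a + 2 * (a - g) * (H / a)
        + (2 - ε) * (gS ^ 2 / a) - 2 * gS) * a
        = 4 * Y * H * a + (2 * θ + 4 * ε) * a ^ 2 + 2 * (a - g) * H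
        + (2 - ε) * gS ^ 2 - 2 * gS * a := by
      field_simp
    have h8 : 0 ≤ (4 * Y * H + (2 * θ + 4 * ε) * a + 2 * (a - g) * (H / a)
        + (2 - ε) * (gS ^ 2 / a) - 2 * gS) * a := by
      rw [this]
      nlinarith
    exact nonneg_of_mul_nonneg_left h8 ha
  linarith

lemma alg2 {a g H H₁ g₁ gS M C₁ ε : ℝ} (hg : 0 < g) (hag : a < g / 2) (hH : 0 < H)
    (hn : g ≤ H) (hS : gS ≤ g) (hg₁ : -M * g ≤ g₁) (hε : 0 ≤ ε) (hε1 : ε ≤ 1)
    (hM : 0 ≤ M) (hC₁ : 0 ≤ C₁)
    (hH₁ : H₁ ≤ 2 * gS + ε * (g₁ + C₁ * g)) :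
    H₁ / H - g₁ / g ≤ 2 * (M + 2 + C₁) * Yr a g := by
  have hY := Yr_half hg hag
  have h1 : H₁ / H - g₁ / g ≤ M + 2 + C₁ := by
    have h2 : H₁ / H ≤ (2 * g + ε * (g₁ + C₁ * g)) / H := by
      gcongr; linarith
    have h3 : (2 * g + ε * (g₁ + C₁ * g)) / H - g₁ / g
        = (g₁ / g) * (ε * (g / H) - 1) + (2 + ε * C₁) * (g / H) := by
      field_simp
      ring
    have h4 : g / H ≤ 1 := by rw [div_le_one hH]; exact hn
    have h5 : 0 ≤ g / H := by positivity
    have h6 : -M ≤ g₁ / g := by rw [le_div_iff₀ hg]; exact hg₁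
    have h7 : ε * (g / H) - 1 ≤ 0 := by nlinarith
    have h8 : (g₁ / g) * (ε * (g / H) - 1) ≤ (-M) * (ε * (g / H) - 1) :=
      mul_le_mul_of_nonpos_right h6 h7
    have h9 : (-M) * (ε * (g / H) - 1) ≤ M := by
      have : 0 ≤ M * (ε * (g / H)) := by positivity
      linarith
    have h10 : (2 + ε * C₁) * (g / H) ≤ 2 + C₁ := by
      have : ε * C₁ ≤ C₁ := by nlinarith
      calc (2 + ε * C₁) * (g / H) ≤ (2 + ε * C₁) * 1 := by
            gcongr
        _ ≤ 2 + C₁ := by linarith
    linarith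
  nlinarith

lemma alg3 {a g b H gS θ : ℝ} (hg : 0 < g) (hag : g / 2 ≤ a) (hH : 0 < H)
    (hcs : gS ^ 2 ≤ H * b) (hb : 0 ≤ b) (hθ : g - gS ≤ θ * a) (hθ1 : θ ≤ 1 / 4) :
    -((2 * (a - g) + 2 * b) / a) ≤ 4 * Yr a g - min (a / H) 1 / 8 := by
  have ha : 0 < a := by linarith
  have hY := Yr_ge hg hag
  have hY0 := Yr_nonneg a g
  set Y := Yr a g with hYdef
  have hN : 0 < a / H := div_pos ha hH
  have hba : (gS / a) ^ 2 * (a / H) ≤ b / a := by
    rw [div_pow, le_div_iff₀ ha]
    have : gS ^ 2 / a ^ 2 * (a / H) * a = gS ^ 2 / H := by field_simp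
    rw [this, div_le_iff₀ hH]
    linarith
  have e1 : (2 * (a - g) + 2 * b) / a = 2 * (1 - g / a) + 2 * (b / a) := by
    field_simp
  rw [e1]
  have hmin : min (a / H) 1 ≤ a / H := min_le_left _ _
  have hmin1 : min (a / H) 1 ≤ 1 := min_le_right _ _
  have hba0 : 0 ≤ b / a := by positivity
  rcases le_or_gt (g / a) (1 / 2) with h1 | h1
  · linarith
  · have h2 : 1 / 4 ≤ gS / a := by
      have h3 : g / a - gS / a ≤ θ := by
        rw [← sub_div, div_le_iff₀ ha]; exact hθ
      linarith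
    have h3 : (1 / 16 : ℝ) ≤ (gS / a) ^ 2 := by nlinarith
    have h4 : (1 / 16 : ℝ) * (a / H) ≤ b / a := by
      refine le_trans ?_ hba
      gcongr
    have h5 : -(1 - g / a) ≤ 2 * Y := by
      have h6 : g / a - 1 ≤ Y * (g / a) := by
        have : (g - a) / a ≤ Y * g / a := by gcongr
        rw [sub_div, div_self ha.ne'] at this
        rw [← mul_div_assoc]; exact this
      have h7 : g / a ≤ 2 := by rw [div_le_iff₀ ha]; linarith
      have h8 : Y * (g / a) ≤ Y * 2 := by gcongr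
      linarith
    linarith

lemma alg4 {a g b : ℝ} (hg : 0 < g) (hag : g / 2 ≤ a) (hb : 0 ≤ b) :
    -((2 * (a - g) + 2 * b) / a) ≤ 4 * Yr a g := by
  have ha : 0 < a := by linarith
  have hY := Yr_ge hg hag
  have hY0 := Yr_nonneg a g
  set Y := Yr a g with hYdef
  have h6 : g - a ≤ 2 * Y * a := by
    have : Y * g ≤ Y * (2 * a) := mul_le_mul_of_nonneg_left (by linarith) hY0
    linarith
  have : 0 ≤ (4 * Y * a + (2 * (a - g) + 2 * b)) / a := by
    apply div_nonneg _ ha.le
    nlinarith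
  rw [add_div, mul_div_assoc, div_self ha.ne', mul_one] at this
  linarith

end Vale.Agent.P214.NG
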