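import Vale.Agent.P214.NG.Data

/-!
# P214, block NG-L (1): data and statement of the path lemma with the intrinsic clock

`Lg i = L₀ + 2 i h - log (Ā(i) / Ā(0))` (this is `log (t_i² / Ā(i))` if `L₀ = log (s² / A(0))`),
radii `radL j i = Lg(i)^{e j} Ā(i)`, events with a constant threshold `θ` and with the no-jump
condition `A(i+n) < 2 A(i)` (margin `n`), height functions of a subset `S` only from the time `i`
on at which `S` covers `S₀` at the radius `radL j i`.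
-/

open Set Filter Topology MeasureTheory

set_option linter.all false

namespace Vale.Agent.P214.NG

variable {X : Type*} [MetricSpace X]

/-- `L(i) = L₀ + 2 i h - log (Ā(i) / Ā(0))` -/
noncomputable def Lg (L₀ h : ℝ) (a g : ℝ → ℝ) (i : ℕ) : ℝ :=
  L₀ + 2 * (i * h) - (Real.log (Abar a g h i) - Real.log (Abar a g h 0))

/-- the square of the `j`-th radius at the `i`-th grid point: `L(i)^{e j} Ā(i)` -/
noncomputable def radL (e : ℕ → ℕ) (L₀ h : ℝ) (a g : ℝ → ℝ) (j i : ℕ) : ℝ :=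
  Lg L₀ h a g i ^ e j * Abar a g h i

/-- The data of one centre on `[0, N h]`. -/
structure NGDataL (N : ℕ) (h κ L₀ M C₁ ε B₀ C₈ : ℝ) (e : ℕ → ℕ) (M₀ : ℕ) (a g b g₁ : ℝ → ℝ)
    (S₀ : Finset X) (H₀ H₀' : ℝ → ℝ) (H H₁ gS : Finset X → ℝ → ℝ) : Prop where
  epath : EPath 0 (N * h) M a g b g₁
  budget : ∫ u in (0:ℝ)..(N * h), Yp a g u ≤ B₀
  dH₀ : ∀ u ∈ Icc 0 (N * h), HasDerivAt H₀ (H₀' u) u
  H₀err : ∀ u ∈ Icc 0 (N * h), H₀' u ≤ 2 * g u + ε * (g₁ u + C₁ * g u)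
  init : H₀ 0 ≤ κ * Am a g 0
  hpath : ∀ i ≤ N, ∀ j < M₀, ∀ S ⊆ S₀, S.Nonempty → Cov S S₀ (radL e L₀ h a g j i) →
    HPath (i * h) (N * h) C₁ ε g b g₁ (H S) (H₁ S) (gS S)
  comp : ∀ S ⊆ S₀, S.Nonempty → ∀ ρ : ℝ, 0 ≤ ρ → Cov S S₀ ρ → ∀ u ∈ Icc 0 (N * h),
    H S u ≤ 2 * H₀ u + C₈ * ρ

/-- no gap event before the `I`-th grid point, margin `n`, threshold `θ` -/
def NoEventL (I n : ℕ) (h L₀ : ℝ) (e : ℕ → ℕ) (M₀ : ℕ) (a g : ℝ → ℝ) (S₀ : Finset X)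
    (gS : Finset X → ℝ → ℝ) (θ : ℝ) : Prop :=
  ∀ i < I, ∀ j < M₀, ∀ S ⊆ S₀, S.Nonempty → Sep S (radL e L₀ h a g (j + 1) i) →
    Cov S S₀ (radL e L₀ h a g j i) →
    2 * Ag a g h i ≤ Ag a g h (i + n) ∨
      ∀ u ∈ Icc (i * h : ℝ) ((i + 1 : ℕ) * h), g u - gS S u ≤ θ * Am a g u

/-- **Target of the block** (`pathL`): unless the path is short, there is large growth, and `L` is
large on the last stretch of moderate growth. -/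
def PathLStatement (X : Type*) [MetricSpace X] : Prop :=
  ∀ (M₀ n : ℕ) (e : ℕ → ℕ) (h M C₁ B₀ C₈ K C' : ℝ), 1 ≤ M₀ → 1 ≤ n → Monotone e → 1 ≤ e 0 →
    0 < h → h ≤ 2 → 0 ≤ M → 0 ≤ C₁ → 0 ≤ B₀ → 0 ≤ C₈ → 0 < K → 0 < C' →
    ∃ (ε₀ κ₀ : ℝ) (P : ℕ), 0 < ε₀ ∧ ε₀ ≤ 1 ∧ 1 ≤ κ₀ ∧ 1 ≤ P ∧
      ∀ (I : ℕ) (κ L₀ ε θ : ℝ) (a g b g₁ : ℝ → ℝ) (S₀ : Finset X) (H₀ H₀' : ℝ → ℝ)
        (H H₁ gS : Finset X → ℝ → ℝ),
        κ₀ ≤ κ → (∀ i ≤ I, κ₀ ≤ Lg L₀ h a g i) → 0 ≤ ε → ε ≤ ε₀ → 0 ≤ θ → θ ≤ ε₀ →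
        S₀.Nonempty → S₀.card ≤ M₀ →
        NGDataL (I + n) h κ L₀ M C₁ ε B₀ C₈ e M₀ a g b g₁ S₀ H₀ H₀' H H₁ gS →
        NoEventL I n h L₀ e M₀ a g S₀ gS θ →
        (κ + L₀) ^ P < κ + L₀ + 2 * (I * h) →
        K * (Real.log (Lg L₀ h a g I) + Real.log (κ + L₀))
            ≤ Real.log (Abar a g h I) - Real.log (Abar a g h 0) ∧
          ∀ i ≤ I, Real.log (Abar a g h I) ≤ Real.log (Abar a g h i)
              + K * Real.log (Lg L₀ h a g I) →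
            C' * Real.log (Lg L₀ h a g I) ≤ Lg L₀ h a g i

end Vale.Agent.P214.NG
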