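import Vale.Agent.P214.NG.PathL

/-!
# P214, block NG-L (6): iteration over the stages from an arbitrary starting time
-/

open Set Filter Topology MeasureTheory

set_option linter.all false

namespace Vale.Agent.P214.NG

variable {X : Type*} [MetricSpace X]
variable {I n : ℕ} {h κ L₀ M C₁ ε B₀ C₈ : ℝ} {e : ℕ → ℕ} {M₀ : ℕ} {a g b g₁ : ℝ → ℝ}
  {S₀ : Finset X} {H₀ H₀' : ℝ → ℝ} {H H₁ gS : Finset X → ℝ → ℝ}

/-- the radii, frozen after `I` and after `M₀` -/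
noncomputable def rT (e : ℕ → ℕ) (L₀ h : ℝ) (a g : ℝ → ℝ) (M₀ I j i : ℕ) : ℝ :=
  radL e L₀ h a g (min j M₀) (min i I)

lemma rT_mono {N : ℕ} (he : EPath 0 (N * h) M a g b g₁) (h0 : 0 ≤ h) (hem : Monotone e)
    (hL1 : ∀ i ≤ I, 1 ≤ Lg L₀ h a g i) (hLe : ∀ i ≤ I, (e M₀ : ℝ) ≤ Lg L₀ h a g i)
    (j i i' : ℕ) (hi : i ≤ i') : rT e L₀ h a g M₀ I j i ≤ rT e L₀ h a g M₀ I j i' := by
  unfold rT
  have h1 := hL1 (min i I) (min_le_right _ _)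
  have h2 := hL1 (min i' I) (min_le_right _ _)
  have h3 := hLe (min i' I) (min_le_right _ _)
  refine radL_mono he h0 (min_le_min_right _ hi) (by linarith) h2 (le_trans ?_ h3)
  exact_mod_cast hem (min_le_right _ _)

lemma rT_nonneg {N : ℕ} (he : EPath 0 (N * h) M a g b g₁) (h0 : 0 ≤ h)
    (hL1 : ∀ i ≤ I, 1 ≤ Lg L₀ h a g i) (j i : ℕ) : 0 ≤ rT e L₀ h a g M₀ I j i := by
  unfold rT
  exact radL_nonneg he h0 (by linarith [hL1 (min i I) (min_le_right _ _)])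

lemma rT_mono_j {N : ℕ} (he : EPath 0 (N * h) M a g b g₁) (h0 : 0 ≤ h) (hem : Monotone e)
    (hL1 : ∀ i ≤ I, 1 ≤ Lg L₀ h a g i) (j i : ℕ) :
    rT e L₀ h a g M₀ I j i ≤ rT e L₀ h a g M₀ I (j + 1) i := by
  unfold rT
  rcases lt_or_ge j M₀ with hj | hj
  · rw [min_eq_left hj.le, min_eq_left (show j + 1 ≤ M₀ by omega)]
    exact radL_mono_j he h0 hem (hL1 _ (min_le_right _ _))
  · rw [min_eq_right hj, min_eq_right (show M₀ ≤ j + 1 by omega)]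

/-- the stage inequality in logarithmic form -/
lemma NGDataL.log_stage
    (hD : NGDataL (I + n) h κ L₀ M C₁ ε B₀ C₈ e M₀ a g b g₁ S₀ H₀ H₀' H H₁ gS)
    (hn1 : 1 ≤ n) (h0 : 0 < h) (h2 : h ≤ 2) (hM : 0 ≤ M) (hC₁ : 0 ≤ C₁) (hε0 : 0 ≤ ε)
    (hB0 : 0 ≤ B₀) (hC₈ : 0 ≤ C₈) (hκ : 0 ≤ κ) (hem : Monotone e) (he0 : 1 ≤ e 0)
    (hne : S₀.Nonempty) (hcard : S₀.card ≤ M₀)
    (hL1 : ∀ i ≤ I, 1 ≤ Lg L₀ h a g i) (hLe : ∀ i ≤ I, (e M₀ : ℝ) ≤ Lg L₀ h a g i) {θ : ℝ}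
    (hθ0 : 0 ≤ θ) (hθ1 : θ ≤ 1 / 4) (hεθ : ε + θ ≤ 1)
    (hNE : NoEventL I n h L₀ e M₀ a g S₀ gS θ)
    {Cg δ ℓ : ℝ} (hCg : 0 < Cg) (hδ : 0 < δ) (hεδ : 32 * (ε + θ) * Cg ≤ δ) (hℓ : 0 ≤ ℓ)
    {is : ℕ} (hgr : ∀ i₀ i₁, is ≤ i₀ → i₀ ≤ i₁ → i₁ ≤ I →
      Gl a g h i₁ - Gl a g h i₀ ≤ Cg * ℓ)
    {Λ : ℝ} (hΛ1 : 1 ≤ Λ) (hΛ : κ * Real.exp (-Gb a g h is) ≤ Λ) (hΛL : Lg L₀ h a g is ≤ Λ)
    {k₀ k : ℕ} (hk : k₀ ≤ k) (hkI : is + k ≤ I)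
    (heq : totNum S₀ M₀ (rT e L₀ h a g M₀ I) (is + k₀)
      = totNum S₀ M₀ (rT e L₀ h a g M₀ I) (is + k)) :
    Real.log (Λ + 2 * (k * h)) ≤ Real.log (1 + 4 * K6L n h M C₁ B₀ C₈ Cg δ) + 2 * δ * ℓ
      + e M₀ * Real.log (Λ + 2 * (k₀ * h)) := by
  have hE1 : 1 ≤ e M₀ := he0.trans (hem (Nat.zero_le _))
  have hC2 := C2_nonneg hM hC₁
  have hchp : 0 < ch h M C₁ B₀ := by unfold ch; positivity
  have hK6 : 0 ≤ K6L n h M C₁ B₀ C₈ Cg δ := by unfold K6L; positivity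
  have hK7' : 1 ≤ 1 + 4 * K6L n h M C₁ B₀ C₈ Cg δ := by linarith
  set W : ℝ := Λ + 2 * (k₀ * h) with hW
  have hW1 : 1 ≤ W := by
    have : 0 ≤ 2 * (k₀ * h) := by positivity
    linarith
  have hWE : 1 ≤ W ^ e M₀ := one_le_pow₀ hW1
  have hWle : W ≤ W ^ e M₀ := le_self_pow₀ hW1 (by omega)
  obtain ⟨j, hj, S, hS, hSne, hsep, hcov⟩ := exists_stage (M₀ := M₀) hne hcard
    (rT_nonneg hD.epath h0.le hL1) (rT_mono hD.epath h0.le hem hL1 hLe)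
    (rT_mono_j hD.epath h0.le hem hL1) (show is + k₀ ≤ is + k by omega) heq
  obtain ⟨m, rfl⟩ := Nat.exists_eq_add_of_le hk
  have hIr : ∀ j' ≤ M₀, ∀ i ≤ I, rT e L₀ h a g M₀ I j' i = radL e L₀ h a g j' i := by
    intro j' hj' i hi
    unfold rT
    rw [min_eq_left hj', min_eq_left hi]
  have hcov' : Cov S S₀ (radL e L₀ h a g j (is + k₀)) := by
    rwa [hIr j hj.le _ (by omega)] at hcov
  have halt : ∀ i, is + k₀ ≤ i → i < is + k₀ + m → (2 * Ag a g h i ≤ Ag a g h (i + n) ∨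
      ∀ u ∈ Icc (i * h : ℝ) ((i + 1 : ℕ) * h), g u - gS S u ≤ θ * Am a g u) := by
    intro i hi1 hi2
    refine hNE i (by omega) j hj S hS hSne ?_ ?_
    · rw [← hIr (j + 1) (by omega) i (by omega)]
      exact hsep.mono (rT_mono hD.epath h0.le hem hL1 hLe (j + 1) i _ (by omega))
    · rw [← hIr j hj.le i (by omega)]
      exact hcov.mono (rT_mono hD.epath h0.le hem hL1 hLe j _ i hi1)
  have hGb := Gb_mono hD.epath h0.le (show is ≤ is + k₀ by omega)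
  have hst := hD.stage_time hn1 h0 h2 hM hC₁ hε0 hB0 hC₈ hκ (E := e M₀) (i₀ := is + k₀) (m := m)
    (W := W) hj
    (he0.trans (hem (Nat.zero_le j))) (hem hj.le) (by omega) hL1 hS hSne hcov' hθ0 hθ1 hεθ
    (fun i h1 h2 => halt i h1 h2)
    hCg hδ hεδ hℓ (hgr _ _ (by omega) (by omega) (by omega)) hW1
    (by
      have h1 : κ * Real.exp (-Gb a g h (is + k₀)) ≤ κ * Real.exp (-Gb a g h is) := by
        gcongr
      have : 0 ≤ 2 * (k₀ * h) := by positivity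
      linarith)
    (by
      have h1 := Lg_le (L₀ := L₀) hD.epath h0.le (show is ≤ is + k₀ by omega)
      have h2 : (((is + k₀ : ℕ) : ℝ) - is) * h = k₀ * h := by push_cast; ring
      rw [h2] at h1
      linarith)
  have h9 : 1 ≤ Real.exp (2 * δ * ℓ) := Real.one_le_exp (by positivity)
  have h10 : W ^ e M₀ ≤ Real.exp (2 * δ * ℓ) * W ^ e M₀ :=
    le_mul_of_one_le_left (by positivity) h9
  have h7 : 2 * ((m : ℝ) * h) ≤ 4 * m := by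
    have : (0 : ℝ) ≤ m := Nat.cast_nonneg m
    nlinarith
  have h11 : Λ + 2 * (((k₀ + m : ℕ) : ℝ) * h)
      ≤ (1 + 4 * K6L n h M C₁ B₀ C₈ Cg δ) * Real.exp (2 * δ * ℓ) * W ^ e M₀ := by
    have h12 : Λ + 2 * (((k₀ + m : ℕ) : ℝ) * h) = W + 2 * (m * h) := by
      rw [hW]; push_cast; ring
    rw [h12]
    nlinarith
  have hpos : 0 < Λ + 2 * (((k₀ + m : ℕ) : ℝ) * h) := by positivity
  have h3 := Real.log_le_log hpos h11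
  rw [Real.log_mul (by positivity) (by positivity), Real.log_mul (by positivity)
    (Real.exp_pos _).ne', Real.log_exp, Real.log_pow] at h3
  exact h3

/-- **Iteration over the stages** from the time `is`. -/
theorem NGDataL.iter
    (hD : NGDataL (I + n) h κ L₀ M C₁ ε B₀ C₈ e M₀ a g b g₁ S₀ H₀ H₀' H H₁ gS)
    (hn1 : 1 ≤ n) (h0 : 0 < h) (h2 : h ≤ 2) (hM : 0 ≤ M) (hC₁ : 0 ≤ C₁) (hε0 : 0 ≤ ε)
    (hB0 : 0 ≤ B₀) (hC₈ : 0 ≤ C₈) (hκ : 0 ≤ κ) (hem : Monotone e) (he0 : 1 ≤ e 0)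
    (hne : S₀.Nonempty) (hcard : S₀.card ≤ M₀)
    (hL1 : ∀ i ≤ I, 1 ≤ Lg L₀ h a g i) (hLe : ∀ i ≤ I, (e M₀ : ℝ) ≤ Lg L₀ h a g i) {θ : ℝ}
    (hθ0 : 0 ≤ θ) (hθ1 : θ ≤ 1 / 4) (hεθ : ε + θ ≤ 1)
    (hNE : NoEventL I n h L₀ e M₀ a g S₀ gS θ)
    {Cg δ ℓ : ℝ} (hCg : 0 < Cg) (hδ : 0 < δ) (hεδ : 32 * (ε + θ) * Cg ≤ δ) (hℓ : 0 ≤ ℓ)
    {is : ℕ} (hisI : is ≤ I) (hgr : ∀ i₀ i₁, is ≤ i₀ → i₀ ≤ i₁ → i₁ ≤ I →
      Gl a g h i₁ - Gl a g h i₀ ≤ Cg * ℓ)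
    {Λ : ℝ} (hΛ1 : 1 ≤ Λ) (hΛ : κ * Real.exp (-Gb a g h is) ≤ Λ) (hΛL : Lg L₀ h a g is ≤ Λ) :
    Real.log (Λ + 2 * ((I - is : ℕ) * h)) ≤ Pex M₀ (e M₀) *
      (Real.log (1 + 4 * K6L n h M C₁ B₀ C₈ Cg δ) + e M₀ * Real.log 5 + 2 * δ * ℓ
        + Real.log Λ) := by
  have hchp : 0 < ch h M C₁ B₀ := by unfold ch; positivity
  have hC2 := C2_nonneg hM hC₁
  have hK6 : 0 ≤ K6L n h M C₁ B₀ C₈ Cg δ := by unfold K6L; positivity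
  have hlK7 : 0 ≤ Real.log (1 + 4 * K6L n h M C₁ B₀ C₈ Cg δ) := Real.log_nonneg (by linarith)
  have hlog5 : 0 ≤ Real.log 5 := Real.log_nonneg (by norm_num)
  have hlΛ : 0 ≤ Real.log Λ := Real.log_nonneg hΛ1
  have h2d : 0 ≤ 2 * δ * ℓ := by positivity
  have he5 : 0 ≤ (e M₀ : ℝ) * Real.log 5 := by positivity
  have hit := iterate (E := e M₀) (I := I - is) (lam := fun k => Real.log (Λ + 2 * (k * h)))
    (V := fun k => totNum S₀ M₀ (rT e L₀ h a g M₀ I) (is + k))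
    (K := Real.log (1 + 4 * K6L n h M C₁ B₀ C₈ Cg δ) + 2 * δ * ℓ)
    (w := Real.log (1 + 4 * K6L n h M C₁ B₀ C₈ Cg δ) + e M₀ * Real.log 5 + 2 * δ * ℓ
        + Real.log Λ) (c := Real.log 5)
    (fun i i' hi => totNum_anti (rT_mono hD.epath h0.le hem hL1 hLe) (by omega))
    (fun k₀ k hk hkI heq => hD.log_stage hn1 h0 h2 hM hC₁ hε0 hB0 hC₈ hκ hem he0 hne hcard hL1
      hLe hθ0 hθ1 hεθ hNE hCg hδ hεδ hℓ hgr hΛ1 hΛ hΛL hk (by omega) heq)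
    (fun k => by
      have h3 : 0 ≤ (k : ℝ) * h := by positivity
      rw [← Real.log_mul (by positivity) (by norm_num)]
      apply Real.log_le_log (by positivity)
      push_cast
      nlinarith)
    (by
      show Real.log (Λ + 2 * (((0 : ℕ) : ℝ) * h)) ≤ _
      rw [Nat.cast_zero, zero_mul, mul_zero, add_zero]
      linarith)
    (by linarith) hlog5 (by positivity) ((M₀ + 1) * M₀) (I - is) le_rfl
    (by
      have := totNum_le (S₀ := S₀) (M₀ := M₀) (r := rT e L₀ h a g M₀ I) hcard (is + 0)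
      show totNum S₀ M₀ (rT e L₀ h a g M₀ I) (is + 0) ≤ _
      omega)
  have hPe : ((e M₀ : ℝ) + 1) ^ ((M₀ + 1) * M₀ + 1) = (Pex M₀ (e M₀) : ℝ) := by
    unfold Pex; push_cast; rfl
  rw [hPe] at hit
  exact hit

end Vale.Agent.P214.NG
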