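import Vale.Agent.P214.NG.IterL

/-!
# P214, block NG-L (7): the path lemma with the intrinsic clock
-/

open Set Filter Topology MeasureTheory

set_option linter.all false

namespace Vale.Agent.P214.NG

variable {X : Type*} [MetricSpace X]

lemma log_lin {C' ℓ P₁ : ℝ} (hC : 0 < C') (hP : 0 < P₁) (hℓ : 0 < ℓ) :
    P₁ * Real.log (C' * ℓ) ≤ ℓ / 4 + P₁ * |Real.log (4 * P₁ * C')| := by
  have h1 := Real.add_one_le_exp (Real.log (ℓ / (4 * P₁)))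
  rw [Real.exp_log (by positivity)] at h1
  have h2 : Real.log (C' * ℓ) = Real.log (ℓ / (4 * P₁)) + Real.log (4 * P₁ * C') := by
    rw [← Real.log_mul (by positivity) (by positivity)]
    congr 1
    field_simp
  have h3 := le_abs_self (Real.log (4 * P₁ * C'))
  have h4 : Real.log (C' * ℓ) ≤ ℓ / (4 * P₁) + |Real.log (4 * P₁ * C')| := by linarith
  calc P₁ * Real.log (C' * ℓ) ≤ P₁ * (ℓ / (4 * P₁) + |Real.log (4 * P₁ * C')|) := by gcongr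
    _ = _ := by field_simp

/-- numerical end of the first claim, long case -/
lemma end1 {W x ℓ Kc : ℝ} {P₁ : ℕ} (hP : 1 ≤ P₁) (hW : 1 ≤ W) (hWx : 0 < W + x)
    (hK : Kc ≤ Real.log W) (h1 : Real.log (W + x) ≤ P₁ * Kc + ℓ / 4 + P₁ * Real.log W)
    (h2 : ℓ ≤ Real.log (W + x)) : W + x ≤ W ^ (3 * P₁ + 1) := by
  have hP' : (1:ℝ) ≤ P₁ := by exact_mod_cast hP
  have hlW : 0 ≤ Real.log W := Real.log_nonneg hW
  have h3 : (P₁:ℝ) * Kc ≤ P₁ * Real.log W := by gcongr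
  have h4 : Real.log (W + x) ≤ (3 * P₁ + 1 : ℕ) * Real.log W := by
    push_cast
    nlinarith [mul_nonneg (by linarith : (0:ℝ) ≤ P₁) hlW]
  rw [← Real.log_pow] at h4
  exact (Real.log_le_log_iff hWx (by positivity)).1 h4

lemma pow_big {W c : ℝ} {P : ℕ} (hW : 1 ≤ W) (hc : c ≤ W) (hP : 1 ≤ P) : c * W ≤ W ^ (P + 1) := by
  calc c * W ≤ W * W := by gcongr
    _ = W ^ 2 := by ring
    _ ≤ W ^ (P + 1) := pow_le_pow_right₀ hW (by omega)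

lemma log_le_self' {W : ℝ} (hW : 1 ≤ W) : Real.log W ≤ W := by
  have := Real.add_one_le_exp (Real.log W)
  rw [Real.exp_log (by linarith)] at this
  linarith

/-- first claim: large growth -/
lemma claim1 {W L₀ ℓ K Kc x G : ℝ} {P₁ : ℕ} (hP : 1 ≤ P₁) (hK : 0 < K) (hW1 : 1 ≤ W)
    (hWK : 2 + 2 * K ≤ W) (hKc : Kc ≤ Real.log W) (hx : 0 ≤ x) (hG : 0 ≤ G) (hL₀ : L₀ ≤ W)
    (hL : Real.exp ℓ = L₀ + x - G)
    (hiter : G ≤ 2 * K * ℓ → Real.log (W + x) ≤ P₁ * Kc + ℓ / 4 + P₁ * Real.log W)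
    (hlong : W ^ (3 * P₁ + 1) < W + x) (hWL : W - L₀ ≤ W) : K * (ℓ + Real.log W) ≤ G := by
  by_contra hcon
  rw [not_le] at hcon
  rcases le_total (Real.log W) ℓ with hcase | hcase
  · have h3 := hiter (by nlinarith)
    have h4 := end1 (P₁ := P₁) hP hW1 (by linarith) hKc h3 (by
      rw [Real.le_log_iff_exp_le (by linarith)]
      linarith)
    linarith
  · have h3 : Real.exp ℓ ≤ W := by
      rw [← Real.exp_log (show 0 < W by linarith)]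
      exact Real.exp_le_exp.2 hcase
    have h4 := log_le_self' hW1
    have h5 : K * (ℓ + Real.log W) ≤ K * (W + W) := by gcongr; linarith
    have h6 : W + x ≤ (2 + 2 * K) * W := by
      have h7 : x = Real.exp ℓ + G - L₀ := by linarith
      nlinarith
    have h7 := pow_big (P := 3 * P₁) hW1 hWK (by omega)
    linarith

/-- second claim: the clock is large on the last stretch -/
lemma claim2 {W κ L₀ ℓ K Kc C' x y Gi G Li : ℝ} {P₁ : ℕ} (hP : 1 ≤ P₁) (hK : 0 < K)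
    (hC' : 0 < C') (hW : W = κ + L₀) (hκ : 1 ≤ κ) (hL₀ : 0 ≤ L₀)
    (hWK : 3 + 3 * (K * P₁) ≤ W) (hKc0 : 0 ≤ Kc) (hKc : Kc ≤ Real.log W)
    (hx : 0 ≤ x) (hy : 0 ≤ y)
    (hGi : 0 ≤ Gi) (hL : Real.exp ℓ = L₀ + x - G) (hG : G ≤ Gi + K * ℓ) (hℓ1 : 1 ≤ ℓ)
    (hℓ0 : 2 * (P₁ * Kc + P₁ * |Real.log (4 * P₁ * C')|) < ℓ) (hC'ℓ : 1 ≤ C' * ℓ)
    (hLi : Li < C' * ℓ) (hLy : Real.exp ℓ ≤ Li + y)
    (hiter : ∀ Λ, 1 ≤ Λ → κ * Real.exp (-Gi) ≤ Λ → Li ≤ Λ →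
      Real.log (Λ + y) ≤ P₁ * Kc + ℓ / 4 + P₁ * Real.log Λ)
    (hlong : W ^ (3 * P₁ + 1) < W + x) : False := by
  have hP1 : (1:ℝ) ≤ P₁ := by exact_mod_cast hP
  have hP0 : (0:ℝ) < P₁ := by linarith
  have hW1 : 1 ≤ W := by linarith
  have hLle : ∀ Λ, 1 ≤ Λ → Li ≤ Λ → ℓ ≤ Real.log (Λ + y) := by
    intro Λ h1 hΛ
    rw [Real.le_log_iff_exp_le (by linarith)]
    linarith
  rcases le_total (κ * Real.exp (-Gi)) (C' * ℓ) with hcase | hcase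
  · have h3 := hiter (C' * ℓ) hC'ℓ hcase hLi.le
    have h4 := hLle (C' * ℓ) hC'ℓ hLi.le
    have h5 := log_lin (ℓ := ℓ) hC' hP0 (by linarith)
    linarith
  · obtain ⟨Λ, hΛ⟩ : ∃ Λ, Λ = κ * Real.exp (-Gi) := ⟨_, rfl⟩
    rw [← hΛ] at hcase
    have hΛ1 : 1 ≤ Λ := hC'ℓ.trans hcase
    have hκpos : 0 < κ := by linarith
    have hΛκ : Λ ≤ κ := by
      have : Real.exp (-Gi) ≤ 1 := by rw [Real.exp_le_one_iff]; linarith
      rw [hΛ]; nlinarith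
    have h3 := hiter Λ hΛ1 hΛ.ge (hLi.le.trans hcase)
    have h4 := hLle Λ hΛ1 (hLi.le.trans hcase)
    have hlΛ : Real.log Λ ≤ Real.log W := Real.log_le_log (by linarith) (by linarith)
    have h5 : (P₁:ℝ) * Real.log Λ ≤ P₁ * Real.log W := by gcongr
    have h5' : (P₁:ℝ) * Kc ≤ P₁ * Real.log W := by gcongr
    have hlW0 : 0 ≤ Real.log W := Real.log_nonneg hW1
    have hPW := mul_nonneg hP0.le hlW0
    have h6 : ℓ ≤ (3 * P₁ : ℕ) * Real.log W := by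
      push_cast
      linarith
    have h7 : Gi ≤ Real.log W := by
      have h8 : Real.log Λ = Real.log κ - Gi := by
        rw [hΛ, Real.log_mul hκpos.ne' (Real.exp_pos _).ne', Real.log_exp]; ring
      have h9 : 0 ≤ Real.log Λ := Real.log_nonneg hΛ1
      have h10 : Real.log κ ≤ Real.log W := Real.log_le_log hκpos (by linarith)
      linarith
    have h8 : Real.exp ℓ ≤ W ^ (3 * P₁) := by
      rw [← Real.exp_log (show 0 < W ^ (3 * P₁) by positivity), Real.log_pow]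
      exact Real.exp_le_exp.2 h6
    have h9 := log_le_self' hW1
    have hWP : W ≤ W ^ (3 * P₁) := le_self_pow₀ hW1 (by omega)
    have h10 : K * ℓ ≤ 3 * (K * P₁) * W := by
      calc K * ℓ ≤ K * ((3 * P₁ : ℕ) * Real.log W) := by gcongr
        _ ≤ K * ((3 * P₁ : ℕ) * W) := by gcongr
        _ = 3 * (K * P₁) * W := by push_cast; ring
    have h13 : 3 * (K * P₁) * W ≤ 3 * (K * P₁) * W ^ (3 * P₁) := by gcongr
    have h11 : W + x ≤ (3 + 3 * (K * P₁)) * W ^ (3 * P₁) := by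
      linarith
    have h12 : (3 + 3 * (K * P₁)) * W ^ (3 * P₁) ≤ W * W ^ (3 * P₁) := by
      apply mul_le_mul_of_nonneg_right hWK (by positivity)
    have h13 : W * W ^ (3 * P₁) = W ^ (3 * P₁ + 1) := by rw [pow_succ]; ring
    linarith

variable {I n : ℕ} {h κ L₀ M C₁ ε B₀ C₈ : ℝ} {e : ℕ → ℕ} {M₀ : ℕ} {a g b g₁ : ℝ → ℝ}
  {S₀ : Finset X} {H₀ H₀' : ℝ → ℝ} {H H₁ gS : Finset X → ℝ → ℝ}

/-- growth of `log A` in terms of the running maximum -/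
lemma NGDataL.grow
    (hD : NGDataL (I + n) h κ L₀ M C₁ ε B₀ C₈ e M₀ a g b g₁ S₀ H₀ H₀' H H₁ gS)
    (h0 : 0 < h) (hM : 0 ≤ M) (hC₁ : 0 ≤ C₁) (hc : 0 ≤ C2 M C₁ * B₀) {K ℓ : ℝ} (hℓ1 : 1 ≤ ℓ)
    {is : ℕ} (hG : Gb a g h I ≤ Gb a g h is + 2 * K * ℓ) (i₀ i₁ : ℕ) (h1 : is ≤ i₀)
    (h2 : i₀ ≤ i₁) (h3 : i₁ ≤ I) :
    Gl a g h i₁ - Gl a g h i₀ ≤ (2 * K + C2 M C₁ * B₀) * ℓ := by
  have a1 := Gb_mono hD.epath h0.le h1
  have a2 := Gb_mono hD.epath h0.le h3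
  have a3 : Gl a g h i₁ ≤ Gb a g h i₁ + Real.log (Abar a g h 0) := by
    unfold Gl Gb
    have := Real.log_le_log (Ag_pos hD.epath h0.le (show i₁ ≤ I + n by omega))
      (le_Abar (a := a) (g := g) (h := h) i₁)
    unfold Ag at this
    linarith
  have a4 : Gb a g h i₀ + Real.log (Abar a g h 0) ≤ Gl a g h i₀ + C2 M C₁ * B₀ := by
    unfold Gl Gb
    have h5 := Abar_le hD.epath h0.le hM hC₁ hD.budget (show i₀ ≤ I + n by omega)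
    have h6 := Real.log_le_log (Abar_pos hD.epath h0.le i₀) h5
    have hA := Ag_pos hD.epath h0.le (show i₀ ≤ I + n by omega)
    rw [Real.log_mul (Real.exp_pos _).ne' hA.ne', Real.log_exp] at h6
    unfold Ag at h6
    linarith
  have a5 : C2 M C₁ * B₀ ≤ C2 M C₁ * B₀ * ℓ := le_mul_of_one_le_right hc hℓ1
  linarith

/-- the core of the path lemma, with all constants as parameters -/
theorem NGDataL.core
    (hD : NGDataL (I + n) h κ L₀ M C₁ ε B₀ C₈ e M₀ a g b g₁ S₀ H₀ H₀' H H₁ gS)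
    (hn1 : 1 ≤ n) (h0 : 0 < h) (h2 : h ≤ 2) (hM : 0 ≤ M) (hC₁ : 0 ≤ C₁) (hε0 : 0 ≤ ε)
    (hB0 : 0 ≤ B₀) (hC₈ : 0 ≤ C₈) (hem : Monotone e) (he0 : 1 ≤ e 0)
    (hne : S₀.Nonempty) (hcard : S₀.card ≤ M₀) {θ : ℝ}
    (hθ0 : 0 ≤ θ) (hθ1 : θ ≤ 1 / 4) (hεθ : ε + θ ≤ 1)
    (hNE : NoEventL I n h L₀ e M₀ a g S₀ gS θ) {K C' δ Kc κ₀ : ℝ} (hK : 0 < K) (hC' : 0 < C')
    {P₁ : ℕ} (hP₁ : P₁ = Pex M₀ (e M₀)) (hPpos : 0 < P₁) (hδ : δ = 1 / (8 * P₁))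
    (hεδ : 32 * (ε + θ) * (2 * K + C2 M C₁ * B₀) ≤ δ)
    (hKc : Kc = Real.log (1 + 4 * K6L n h M C₁ B₀ C₈ (2 * K + C2 M C₁ * B₀) δ)
      + e M₀ * Real.log 5) (hKc0 : 0 ≤ Kc)
    (hκb : (e M₀ : ℝ) ≤ κ₀) (hκc : 4 + 4 * K + 4 * (K * P₁) ≤ κ₀)
    (hlog : ∀ x, κ₀ ≤ x → 1 ≤ Real.log x ∧ Kc ≤ Real.log x ∧
      2 * (P₁ * Kc + P₁ * |Real.log (4 * P₁ * C')|) < Real.log x ∧ 1 ≤ C' * Real.log x)
    (hκ : κ₀ ≤ κ) (hLg : ∀ i ≤ I, κ₀ ≤ Lg L₀ h a g i)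
    (hlong : (κ + L₀) ^ (3 * P₁ + 1) < κ + L₀ + 2 * (I * h)) :
    K * (Real.log (Lg L₀ h a g I) + Real.log (κ + L₀))
        ≤ Real.log (Abar a g h I) - Real.log (Abar a g h 0) ∧
      ∀ i ≤ I, Real.log (Abar a g h I) ≤ Real.log (Abar a g h i)
          + K * Real.log (Lg L₀ h a g I) →
        C' * Real.log (Lg L₀ h a g I) ≤ Lg L₀ h a g i := by
  have hC2 := C2_nonneg hM hC₁
  have hc : 0 ≤ C2 M C₁ * B₀ := by positivity
  have hP1 : (1:ℝ) ≤ P₁ := by exact_mod_cast hPpos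
  have hP0 : (0:ℝ) < P₁ := by linarith
  have hδpos : 0 < δ := by rw [hδ]; positivity
  have hKP : 0 ≤ K * P₁ := by positivity
  have hκ1 : 1 ≤ κ₀ := by linarith
  have hL1 : ∀ i ≤ I, 1 ≤ Lg L₀ h a g i := fun i hi => hκ1.trans (hLg i hi)
  have hLe : ∀ i ≤ I, (e M₀ : ℝ) ≤ Lg L₀ h a g i := fun i hi => hκb.trans (hLg i hi)
  have hL₀ : κ₀ ≤ L₀ := by
    have := hLg 0 (Nat.zero_le _)
    rwa [Lg_zero] at this
  obtain ⟨W, hW⟩ : ∃ W, W = κ + L₀ := ⟨_, rfl⟩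
  rw [← hW] at hlong ⊢
  obtain ⟨-, hKcW, -, -⟩ := hlog W (by linarith)
  obtain ⟨ℓ, hℓ⟩ : ∃ ℓ, ℓ = Real.log (Lg L₀ h a g I) := ⟨_, rfl⟩
  rw [← hℓ]
  obtain ⟨hℓ1, -, hℓ2, hℓ3⟩ := hlog _ (hLg I le_rfl)
  rw [← hℓ] at hℓ1 hℓ2 hℓ3
  have hexpℓ : Real.exp ℓ = L₀ + 2 * (I * h) - Gb a g h I := by
    rw [hℓ, Real.exp_log (by linarith [hL1 I le_rfl])]; rfl
  have hGb0 := Gb_nonneg hD.epath h0.le I
  have hIh : 0 ≤ 2 * ((I:ℝ) * h) := by positivity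
  have hδP : ∀ x : ℝ, Pex M₀ (e M₀) *
      (Real.log (1 + 4 * K6L n h M C₁ B₀ C₈ (2 * K + C2 M C₁ * B₀) δ)
      + e M₀ * Real.log 5 + 2 * δ * ℓ + x) = P₁ * Kc + ℓ / 4 + P₁ * x := by
    intro x
    rw [← hP₁, ← hKc, hδ]
    field_simp
    ring
  have hiter := fun (is : ℕ) (hisI : is ≤ I) (hG : Gb a g h I ≤ Gb a g h is + 2 * K * ℓ)
      (Λ : ℝ) (hΛ1 : 1 ≤ Λ) (hΛ : κ * Real.exp (-Gb a g h is) ≤ Λ)
      (hΛL : Lg L₀ h a g is ≤ Λ) =>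
    (hD.iter hn1 h0 h2 hM hC₁ hε0 hB0 hC₈ (by linarith) hem he0 hne hcard hL1 hLe hθ0 hθ1
      hεθ hNE (by positivity) hδpos hεδ (by linarith) hisI
      (hD.grow h0 hM hC₁ hc hℓ1 hG) hΛ1 hΛ hΛL).trans_eq (hδP (Real.log Λ))
  constructor
  · show K * (ℓ + Real.log W) ≤ Gb a g h I
    refine claim1 (P₁ := P₁) (x := 2 * (I * h)) hPpos hK (by linarith) (by linarith) hKcW hIh
      hGb0 (by linarith) hexpℓ (fun hG => ?_) hlong (by linarith)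
    have h3 := hiter 0 (Nat.zero_le _) (by rw [Gb_zero]; linarith) W (by linarith)
      (by rw [Gb_zero, neg_zero, Real.exp_zero, mul_one]; linarith)
      (by rw [Lg_zero]; linarith)
    rwa [Nat.sub_zero] at h3
  · intro i hiI hgi
    by_contra hcon
    rw [not_le] at hcon
    have hKℓ : 0 ≤ K * ℓ := by positivity
    have hG : Gb a g h I ≤ Gb a g h i + K * ℓ := by unfold Gb; linarith
    have hLgle := Lg_le (L₀ := L₀) hD.epath h0.le hiI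
    rw [← Nat.cast_sub hiI] at hLgle
    refine claim2 (P₁ := P₁) (x := 2 * (I * h)) (y := 2 * ((I - i : ℕ) * h)) hPpos hK hC' hW
      (by linarith) (by linarith) (by linarith) hKc0 hKcW hIh (by positivity)
      (Gb_nonneg hD.epath h0.le i) hexpℓ hG hℓ1 hℓ2 hℓ3 hcon ?_
      (fun Λ h1 h2 h3 => hiter i hiI (by linarith) Λ h1 h2 h3) hlong
    rw [hexpℓ]
    exact hLgle

/-- **The path lemma with the intrinsic clock.** -/
theorem pathL (X : Type*) [MetricSpace X] : PathLStatement X := by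
  intro M₀ n e h M C₁ B₀ C₈ K C' hM₀ hn1 hem he0 h0 h2 hM hC₁ hB0 hC₈ hK hC'
  obtain ⟨P₁, hP₁⟩ : ∃ P : ℕ, P = Pex M₀ (e M₀) := ⟨_, rfl⟩
  have hPpos : 0 < P₁ := by rw [hP₁]; unfold Pex; positivity
  have hP1 : (1:ℝ) ≤ P₁ := by exact_mod_cast hPpos
  have hP0 : (0:ℝ) < P₁ := by linarith
  obtain ⟨δ, hδ⟩ : ∃ δ : ℝ, δ = 1 / (8 * P₁) := ⟨_, rfl⟩
  have hδpos : 0 < δ := by rw [hδ]; positivity
  have hC2 := C2_nonneg hM hC₁
  have hc : 0 ≤ C2 M C₁ * B₀ := by positivity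
  have hchp : 0 < ch h M C₁ B₀ := by unfold ch; positivity
  have hK6 : 0 ≤ K6L n h M C₁ B₀ C₈ (2 * K + C2 M C₁ * B₀) δ := by unfold K6L; positivity
  obtain ⟨Kc, hKc⟩ : ∃ Kc : ℝ, Kc = Real.log (1 + 4 * K6L n h M C₁ B₀ C₈
    (2 * K + C2 M C₁ * B₀) δ) + e M₀ * Real.log 5 := ⟨_, rfl⟩
  have hKc0 : 0 ≤ Kc := by
    have h1 : 0 ≤ Real.log (1 + 4 * K6L n h M C₁ B₀ C₈ (2 * K + C2 M C₁ * B₀) δ) :=
      Real.log_nonneg (by linarith)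
    have h2 : 0 ≤ Real.log 5 := Real.log_nonneg (by norm_num)
    rw [hKc]; positivity
  have habs := abs_nonneg (Real.log (4 * P₁ * C'))
  have hPK : 0 ≤ P₁ * Kc := by positivity
  have hPa : 0 ≤ P₁ * |Real.log (4 * P₁ * C')| := by positivity
  have hC'' : 0 ≤ 1 / C' := by positivity
  obtain ⟨ℓ₀, hℓ₀⟩ : ∃ ℓ₀ : ℝ, ℓ₀ = 2 * (P₁ * Kc + P₁ * |Real.log (4 * P₁ * C')|) + 1 / C'
    + 1 + Kc := ⟨_, rfl⟩
  have hKP : 0 ≤ K * P₁ := by positivity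
  obtain ⟨κ₀, hκ₀⟩ : ∃ κ₀ : ℝ, κ₀ = Real.exp ℓ₀ + e M₀ + (4 + 4 * K + 4 * (K * P₁)) := ⟨_, rfl⟩
  have hexp0 := Real.exp_pos ℓ₀
  have heM : (0:ℝ) ≤ e M₀ := Nat.cast_nonneg _
  have hlog : ∀ x, κ₀ ≤ x → 1 ≤ Real.log x ∧ Kc ≤ Real.log x ∧
      2 * (P₁ * Kc + P₁ * |Real.log (4 * P₁ * C')|) < Real.log x ∧ 1 ≤ C' * Real.log x := by
    intro x hx
    have h1 : ℓ₀ ≤ Real.log x := by
      rw [Real.le_log_iff_exp_le (by linarith)]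
      linarith
    refine ⟨by linarith, by linarith, by linarith, ?_⟩
    have h3 : 1 / C' ≤ Real.log x := by linarith
    rw [div_le_iff₀ hC'] at h3
    linarith
  refine ⟨min (1 / 4) (δ / (64 * (2 * K + C2 M C₁ * B₀))), κ₀, 3 * P₁ + 1, by positivity,
    (min_le_left _ _).trans (by norm_num), by linarith, by omega, ?_⟩
  intro I κ L₀ ε θ a g b g₁ S₀ H₀ H₀' H H₁ gS hκ hLg hε0 hε1 hθ0 hθ1 hne hcard hD hNE hlong
  have hεa : ε ≤ 1 / 4 := hε1.trans (min_le_left _ _)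
  have hθa : θ ≤ 1 / 4 := hθ1.trans (min_le_left _ _)
  have hεδ : 32 * (ε + θ) * (2 * K + C2 M C₁ * B₀) ≤ δ := by
    have h1 := hε1.trans (min_le_right _ _)
    have h2 := hθ1.trans (min_le_right _ _)
    rw [le_div_iff₀ (by positivity)] at h1 h2
    linarith
  exact hD.core hn1 h0 h2 hM hC₁ hε0 hB0 hC₈ hem he0 hne hcard hθ0 hθa (by linarith) hNE hK hC'
    hP₁ hPpos hδ hεδ hKc hKc0 (by linarith) (by linarith) hlog hκ hLg hlong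

end Vale.Agent.P214.NG
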