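import Vale.Agent.P214.NG.Stage

/-!
# P214, block NG (6): one stage, many steps
-/

open Set Filter Topology MeasureTheory

set_option linter.all false

namespace Vale.Agent.P214.NG

variable {I : ℕ} {h M C₁ ε B₀ : ℝ} {a g b g₁ H H₁ gS H₀ H₀' : ℝ → ℝ}

/-- `log A` at the grid points -/
noncomputable def Gl (a g : ℝ → ℝ) (h : ℝ) (i : ℕ) : ℝ := Real.log (Am a g (i * h))

/-- **All steps of a stage.** -/
theorem steps (he : EPath 0 (I * h) M a g b g₁) (hh : HPath 0 (I * h) C₁ ε g b g₁ H H₁ gS)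
    (h0 : 0 < h) (h2 : h ≤ 2) (hM : 0 ≤ M) (hC₁ : 0 ≤ C₁) (hε0 : 0 ≤ ε) (hε1 : ε ≤ 1)
    (hB : ∫ u in (0:ℝ)..(I * h), Yp a g u ≤ B₀) {i₀ i₁ : ℕ} (hi : i₁ ≤ I) {θ : ℕ → ℝ}
    (hθ0 : ∀ i, 0 ≤ θ i) (hθ1 : ∀ i, θ i ≤ 1 / 4)
    (halt : ∀ i, i₀ ≤ i → i < i₁ → (2 * Am a g (i * h) ≤ Am a g ((i + 1 : ℕ) * h) ∨
      ∀ u ∈ Icc (i * h : ℝ) ((i + 1 : ℕ) * h), g u - gS u ≤ θ i * Am a g u)) (n : ℕ)
    (hn : i₀ + n ≤ i₁) :
    ell h M C₁ B₀ a g H (i₀ + n) ≤ ell h M C₁ B₀ a g H i₀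
        + 33 * C2 M C₁ * (∫ u in (i₀ * h : ℝ)..((i₀ + n : ℕ) * h), Yp a g u)
        + 2 * h * (∑ k ∈ Finset.range n, θ (i₀ + k))
        + 32 * ε * (Gl a g h (i₀ + n) - Gl a g h i₀) ∧
      (∑ k ∈ Finset.range n, ch h M C₁ B₀ * Real.exp (-ell h M C₁ B₀ a g H (i₀ + k)))
        - C2 M C₁ * (∫ u in (i₀ * h : ℝ)..((i₀ + n : ℕ) * h), Yp a g u)
        ≤ Gl a g h (i₀ + n) - Gl a g h i₀ := by
  induction n with
  | zero => simp
  | succ n ih =>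
    obtain ⟨ih1, ih2⟩ := ih (by omega)
    have hlt : i₀ + n < I := by omega
    obtain ⟨s1, s2⟩ := step he hh h0 h2 hM hC₁ hε0 hε1 hB hlt (hθ0 (i₀ + n)) (hθ1 (i₀ + n))
      (halt (i₀ + n) (by omega) (by omega))
    have hm0 := grid_mem h0.le (show i₀ ≤ I by omega)
    have hm1 := grid_mem h0.le hlt.le
    have hm2 := grid_mem h0.le (show i₀ + n + 1 ≤ I by omega)
    have hle1 : ((i₀ : ℕ) : ℝ) * h ≤ ((i₀ + n : ℕ) : ℝ) * h := by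
      gcongr; omega
    have hle2 : ((i₀ + n : ℕ) : ℝ) * h ≤ ((i₀ + n + 1 : ℕ) : ℝ) * h :=
      mul_le_mul_of_nonneg_right (Nat.cast_le.2 (by omega)) h0.le
    have hii : ∀ x y, 0 ≤ x → x ≤ y → y ≤ I * h → IntervalIntegrable (Yp a g) volume x y := by
      intro x y hx hxy hy
      apply ContinuousOn.intervalIntegrable
      rw [uIcc_of_le hxy]
      exact he.cont_Y.mono (Icc_subset_Icc hx hy)
    have hadd := intervalIntegral.integral_add_adjacent_intervals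
      (hii _ _ hm0.1 hle1 hm1.2) (hii _ _ hm1.1 hle2 hm2.2)
    rw [Finset.sum_range_succ, Finset.sum_range_succ]
    rw [show i₀ + (n + 1) = i₀ + n + 1 by ring]
    rw [← hadd]
    constructor
    · unfold Gl at ih1 ⊢
      linarith
    · unfold Gl at ih2 ⊢
      linarith

lemma sum_theta_le {θ : ℕ → ℝ} (hθ0 : ∀ i, 0 ≤ θ i) {i₀ n : ℕ} (hn : i₀ + n ≤ I)
    (hs : ∑ i ∈ Finset.range I, θ i ≤ 1) : ∑ k ∈ Finset.range n, θ (i₀ + k) ≤ 1 := by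
  refine le_trans ?_ hs
  calc ∑ k ∈ Finset.range n, θ (i₀ + k) = ∑ k ∈ Finset.Ico i₀ (i₀ + n), θ k := by
        rw [Finset.sum_Ico_eq_sum_range]; simp
    _ ≤ ∑ k ∈ Finset.range I, θ k := by
        apply Finset.sum_le_sum_of_subset_of_nonneg
        · intro k hk
          rw [Finset.mem_Ico] at hk
          rw [Finset.mem_range]; omega
        · intro k _ _; exact hθ0 k

/-- constant of the stage inequality -/
noncomputable def K1 (h M C₁ B₀ : ℝ) : ℝ := 65 * (C2 M C₁ * B₀) + 2 * h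

/-- **The stage inequality.** -/
theorem stage_bound (he : EPath 0 (I * h) M a g b g₁)
    (hh : HPath 0 (I * h) C₁ ε g b g₁ H H₁ gS)
    (h0 : 0 < h) (h2 : h ≤ 2) (hM : 0 ≤ M) (hC₁ : 0 ≤ C₁) (hε0 : 0 ≤ ε) (hε1 : ε ≤ 1)
    (hB : ∫ u in (0:ℝ)..(I * h), Yp a g u ≤ B₀) (hB0 : 0 ≤ B₀) {i₀ n : ℕ} (hi : i₀ + n ≤ I)
    {θ : ℕ → ℝ}
    (hθ0 : ∀ i, 0 ≤ θ i) (hθ1 : ∀ i, θ i ≤ 1 / 4) (hθs : ∑ i ∈ Finset.range I, θ i ≤ 1)
    (halt : ∀ i, i₀ ≤ i → i < i₀ + n → (2 * Am a g (i * h) ≤ Am a g ((i + 1 : ℕ) * h) ∨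
      ∀ u ∈ Icc (i * h : ℝ) ((i + 1 : ℕ) * h), g u - gS u ≤ θ i * Am a g u)) :
    n * (ch h M C₁ B₀ * Real.exp (-(ell h M C₁ B₀ a g H i₀ + K1 h M C₁ B₀
        + 32 * ε * (Gl a g h (i₀ + n) - Gl a g h i₀))))
      ≤ (Gl a g h (i₀ + n) - Gl a g h i₀) + C2 M C₁ * B₀ := by
  have hC2 := C2_nonneg hM hC₁
  have hst := fun k (hk : i₀ + k ≤ i₀ + n) =>
    steps he hh h0 h2 hM hC₁ hε0 hε1 hB hi hθ0 hθ1 halt k hk
  have hYk : ∀ k, k ≤ n → (∫ u in (i₀ * h : ℝ)..((i₀ + k : ℕ) * h), Yp a g u) ≤ B₀ := by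
    intro k hk
    have hm0 := grid_mem h0.le (show i₀ ≤ I by omega)
    have hm2 := grid_mem h0.le (show i₀ + k ≤ I by omega)
    exact int_Y_le he hB hm0.1 (by gcongr; omega) hm2.2
  have hell : ∀ k, k ≤ n → ell h M C₁ B₀ a g H (i₀ + k) ≤ ell h M C₁ B₀ a g H i₀
      + K1 h M C₁ B₀ + 32 * ε * (Gl a g h (i₀ + n) - Gl a g h i₀) := by
    intro k hk
    have h3 := (hst k (by omega)).1
    have h4 := hYk k hk
    have h5 := sum_theta_le (I := I) hθ0 (i₀ := i₀) (n := k) (by omega) hθs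
    have h6 : Gl a g h (i₀ + k) ≤ Gl a g h (i₀ + n) + C2 M C₁ * B₀ := by
      have hm1 := grid_mem h0.le (show i₀ + k ≤ I by omega)
      have hm2 := grid_mem h0.le (show i₀ + n ≤ I by omega)
      exact A_quasi he hM hC₁ hB hm1.1 (by gcongr) hm2.2
    have h7 : 33 * C2 M C₁ * (∫ u in (i₀ * h : ℝ)..((i₀ + k : ℕ) * h), Yp a g u)
        ≤ 33 * C2 M C₁ * B₀ := by gcongr
    have h8 : 2 * h * (∑ k ∈ Finset.range k, θ (i₀ + k)) ≤ 2 * h * 1 := by gcongr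
    have h9 : 32 * ε * (Gl a g h (i₀ + k) - Gl a g h i₀)
        ≤ 32 * ε * (Gl a g h (i₀ + n) - Gl a g h i₀ + C2 M C₁ * B₀) := by
      apply mul_le_mul_of_nonneg_left _ (by positivity)
      linarith
    have h10 : ε * (C2 M C₁ * B₀) ≤ 1 * (C2 M C₁ * B₀) := by gcongr
    unfold K1
    linarith
  have h3 := (hst n le_rfl).2
  have h4 := hYk n le_rfl
  have h5 : C2 M C₁ * (∫ u in (i₀ * h : ℝ)..((i₀ + n : ℕ) * h), Yp a g u) ≤ C2 M C₁ * B₀ := by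
    gcongr
  have hch : 0 ≤ ch h M C₁ B₀ := by unfold ch; positivity
  have h6 : n * (ch h M C₁ B₀ * Real.exp (-(ell h M C₁ B₀ a g H i₀ + K1 h M C₁ B₀
        + 32 * ε * (Gl a g h (i₀ + n) - Gl a g h i₀))))
      ≤ ∑ k ∈ Finset.range n, ch h M C₁ B₀ * Real.exp (-ell h M C₁ B₀ a g H (i₀ + k)) := by
    have h7 : ∀ k ∈ Finset.range n, ch h M C₁ B₀ * Real.exp (-(ell h M C₁ B₀ a g H i₀
        + K1 h M C₁ B₀ + 32 * ε * (Gl a g h (i₀ + n) - Gl a g h i₀)))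
        ≤ ch h M C₁ B₀ * Real.exp (-ell h M C₁ B₀ a g H (i₀ + k)) := by
      intro k hk
      rw [Finset.mem_range] at hk
      have := hell k hk.le
      gcongr
    have h8 := Finset.sum_le_sum h7
    rw [Finset.sum_const, Finset.card_range, nsmul_eq_mul] at h8
    exact h8
  linarith

/-- constant of the trivial bound -/
noncomputable def K2 (M C₁ B₀ : ℝ) : ℝ := (5 + C₁) * Real.exp (C2 M C₁ * B₀)

/-- **The trivial bound**: `H₀ ≤ K₂ Λ A` at every time. -/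
theorem trivial_bound {U κ : ℝ} (he : EPath 0 U M a g b g₁) (hM : 0 ≤ M) (hC₁ : 0 ≤ C₁)
    (hε0 : 0 ≤ ε) (hε1 : ε ≤ 1) (hB0 : 0 ≤ B₀) (hB : ∫ u in (0:ℝ)..U, Yp a g u ≤ B₀)
    (hd : ∀ u ∈ Icc 0 U, HasDerivAt H₀ (H₀' u) u)
    (herr : ∀ u ∈ Icc 0 U, H₀' u ≤ 2 * g u + ε * (g₁ u + C₁ * g u))
    (hκ : 1 ≤ κ) (hinit : H₀ 0 ≤ κ * Am a g 0) {u : ℝ} (hu : u ∈ Icc 0 U) :
    H₀ u ≤ K2 M C₁ B₀ * (κ + 2 * u) * Am a g u := by
  have h1 := height_le he hM hC₁ hε0 hε1 hB hd herr le_rfl hu.1 hu.2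
  have h2 := A_quasi' he hM hC₁ hB le_rfl hu.1 hu.2
  have hA := he.Apos hu
  have hu0 := hu.1
  have hC2 := C2_nonneg hM hC₁
  have hexp : 1 ≤ Real.exp (C2 M C₁ * B₀) := Real.one_le_exp (by positivity)
  set Ex := Real.exp (C2 M C₁ * B₀) with hEx
  rw [sub_zero] at h1
  have h3 : κ * Am a g 0 ≤ κ * (Ex * Am a g u) := by gcongr
  have h4 : H₀ u ≤ (κ * Ex + (2 + C₁) * (2 * Ex) * u + 2) * Am a g u := by
    nlinarith
  refine h4.trans ?_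
  apply mul_le_mul_of_nonneg_right _ hA.le
  unfold K2
  have h5 : (5 + C₁) * Ex * (κ + 2 * u)
      = κ * Ex + (2 + C₁) * (2 * Ex) * u + (4 + C₁) * (Ex * κ) + 6 * Ex * u := by ring
  rw [h5]
  have h6 : 1 ≤ Ex * κ := by nlinarith
  have h7 : 0 ≤ 6 * Ex * u := by positivity
  have h8 : 0 ≤ C₁ * (Ex * κ) := by positivity
  linarith

end Vale.Agent.P214.NG
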