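import Vale.Agent.P214.NG.StageL
import Vale.Agent.P214.NG.Path

/-!
# P214, block NG-L (3): all steps of a stage
-/

open Set Filter Topology MeasureTheory

set_option linter.all false

namespace Vale.Agent.P214.NG

variable {N : ℕ} {h M C₁ ε B₀ : ℝ} {a g b g₁ H H₁ gS H₀ H₀' : ℝ → ℝ}

lemma Yp_int (he : EPath 0 (N * h) M a g b g₁) {x y : ℝ} (hx : 0 ≤ x) (hxy : x ≤ y)
    (hy : y ≤ N * h) : IntervalIntegrable (Yp a g) volume x y := by
  apply ContinuousOn.intervalIntegrable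
  rw [uIcc_of_le hxy]
  exact he.cont_Y.mono (Icc_subset_Icc hx hy)

lemma HPath.mono {α β α' β' : ℝ} (h : HPath α β C₁ ε g b g₁ H H₁ gS) (h1 : α ≤ α')
    (h2 : β' ≤ β) : HPath α' β' C₁ ε g b g₁ H H₁ gS :=
  ⟨fun u hu => h.dH u ⟨h1.trans hu.1, hu.2.trans h2⟩,
   fun u hu => h.Hpos u ⟨h1.trans hu.1, hu.2.trans h2⟩,
   fun u hu => h.err1 u ⟨h1.trans hu.1, hu.2.trans h2⟩,
   fun u hu => h.err2 u ⟨h1.trans hu.1, hu.2.trans h2⟩,
   fun u hu => h.cs u ⟨h1.trans hu.1, hu.2.trans h2⟩,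
   fun u hu => h.le u ⟨h1.trans hu.1, hu.2.trans h2⟩⟩

lemma ch_le (h0 : 0 ≤ h) (h2 : h ≤ 2) (hM : 0 ≤ M) (hC₁ : 0 ≤ C₁) (hB0 : 0 ≤ B₀) :
    ch h M C₁ B₀ ≤ 1 / 4 := by
  have hC2 := C2_nonneg hM hC₁
  unfold ch
  have e1 : Real.exp (-(C2 M C₁ * B₀ + 5 * h)) ≤ 1 := by
    rw [Real.exp_le_one_iff]
    have : 0 ≤ C2 M C₁ * B₀ := by positivity
    linarith
  calc h / 8 * Real.exp (-(C2 M C₁ * B₀ + 5 * h)) ≤ 2 / 8 * 1 := by gcongr
    _ = 1 / 4 := by norm_num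

/-- the invariant of the induction over the steps of a stage -/
theorem stage_inv (he : EPath 0 (N * h) M a g b g₁) {i₀ i₁ n : ℕ} (hn1 : 1 ≤ n)
    (hiN : i₁ + n ≤ N) (hh : HPath (i₀ * h) (N * h) C₁ ε g b g₁ H H₁ gS)
    (h0 : 0 < h) (h2 : h ≤ 2) (hM : 0 ≤ M) (hC₁ : 0 ≤ C₁) (hB0 : 0 ≤ B₀)
    (hB : ∫ u in (0:ℝ)..(N * h), Yp a g u ≤ B₀) {θ L : ℝ} (hθ0 : 0 ≤ θ) (hθ1 : θ ≤ 1 / 4)
    (hε0 : 0 ≤ ε) (hεθ : ε + θ ≤ 1) (hL2 : Real.log 2 ≤ L)
    (hL7 : Real.log (2 * C7L n h M C₁ B₀) ≤ L)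
    (halt : ∀ i, i₀ ≤ i → i < i₁ → (2 * Ag a g h i ≤ Ag a g h (i + n) ∨
      ∀ u ∈ Icc (i * h : ℝ) ((i + 1 : ℕ) * h), g u - gS u ≤ θ * Am a g u)) (m : ℕ)
    (hm : i₀ + m ≤ i₁) :
    ∃ c ≤ m, m < c + n ∧ (c < m → 2 * Ag a g h (i₀ + c) ≤ Ag a g h (i₀ + c + n)) ∧
      elU L a g H ((i₀ + c : ℕ) * h) ≤ elU L a g H (i₀ * h)
        + 33 * C2 M C₁ * (∫ u in (i₀ * h : ℝ)..((i₀ + c : ℕ) * h), Yp a g u)
        + 32 * (ε + θ) * (Gl a g h (i₀ + c) - Gl a g h i₀) ∧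
      (∑ k ∈ Finset.range c, ch h M C₁ B₀ / n * Real.exp (-elU L a g H ((i₀ + k : ℕ) * h)))
        - C2 M C₁ * (∫ u in (i₀ * h : ℝ)..((i₀ + c : ℕ) * h), Yp a g u)
        ≤ Gl a g h (i₀ + c) - Gl a g h i₀ := by
  have hC2 := C2_nonneg hM hC₁
  have hch := ch_le (h := h) h0.le h2 hM hC₁ hB0
  have hch0 : 0 ≤ ch h M C₁ B₀ := by unfold ch; positivity
  have hn0 : (0 : ℝ) < n := by exact_mod_cast hn1
  have hn1' : (1 : ℝ) ≤ n := by exact_mod_cast hn1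
  have hlog2 : (0.6931471803:ℝ) < Real.log 2 := Real.log_two_gt_d9
  have hε1 : ε ≤ 1 := by linarith
  have hcast : ∀ {x y : ℕ}, x ≤ y → (x : ℝ) * h ≤ (y : ℝ) * h := fun hxy =>
    mul_le_mul_of_nonneg_right (Nat.cast_le.2 hxy) h0.le
  have hnn : ∀ x : ℕ, (0 : ℝ) ≤ x * h := fun x => by positivity
  have hexp1 : ∀ u, Real.exp (-elU L a g H u) ≤ 1 := by
    intro u
    rw [Real.exp_le_one_iff]
    have : L ≤ elU L a g H u := le_max_left _ _
    linarith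
  -- the jump from `c` to `c + n`
  have hjump : ∀ c, i₀ + c < i₁ → 2 * Ag a g h (i₀ + c) ≤ Ag a g h (i₀ + c + n) →
      elU L a g H ((i₀ + c : ℕ) * h) ≤ elU L a g H (i₀ * h)
        + 33 * C2 M C₁ * (∫ u in (i₀ * h : ℝ)..((i₀ + c : ℕ) * h), Yp a g u)
        + 32 * (ε + θ) * (Gl a g h (i₀ + c) - Gl a g h i₀) →
      (∑ k ∈ Finset.range c, ch h M C₁ B₀ / n * Real.exp (-elU L a g H ((i₀ + k : ℕ) * h)))
        - C2 M C₁ * (∫ u in (i₀ * h : ℝ)..((i₀ + c : ℕ) * h), Yp a g u)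
        ≤ Gl a g h (i₀ + c) - Gl a g h i₀ →
      elU L a g H ((i₀ + (c + n) : ℕ) * h) ≤ elU L a g H (i₀ * h)
        + 33 * C2 M C₁ * (∫ u in (i₀ * h : ℝ)..((i₀ + (c + n) : ℕ) * h), Yp a g u)
        + 32 * (ε + θ) * (Gl a g h (i₀ + (c + n)) - Gl a g h i₀) ∧
      (∑ k ∈ Finset.range (c + n),
          ch h M C₁ B₀ / n * Real.exp (-elU L a g H ((i₀ + k : ℕ) * h)))
        - C2 M C₁ * (∫ u in (i₀ * h : ℝ)..((i₀ + (c + n) : ℕ) * h), Yp a g u)
        ≤ Gl a g h (i₀ + (c + n)) - Gl a g h i₀ := by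
    intro c hc hj h1 h3
    have hle1 : (i₀ : ℝ) * h ≤ ((i₀ + c : ℕ) : ℝ) * h := hcast (by omega)
    have hle2 : ((i₀ + c : ℕ) : ℝ) * h ≤ ((i₀ + (c + n) : ℕ) : ℝ) * h := hcast (by omega)
    have hle3 : ((i₀ + (c + n) : ℕ) : ℝ) * h ≤ N * h := hcast (by omega)
    obtain ⟨s1, s2⟩ := jump_step (n := n) he (hh.mono hle1 hle3) h0.le hle2
      (by push_cast; ring_nf; rfl) hM hC₁ (hnn _) hle3 hB hε0 hε1 hL7
      (by
        have : i₀ + (c + n) = i₀ + c + n := by omega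
        rw [this]; exact hj)
    have hadd := intervalIntegral.integral_add_adjacent_intervals
      (Yp_int he (hnn _) hle1 (hle2.trans hle3)) (Yp_int he (hnn _) hle2 hle3)
    have hY0 : 0 ≤ ∫ u in (((i₀ + c : ℕ) : ℝ) * h)..(((i₀ + (c + n) : ℕ) : ℝ) * h), Yp a g u :=
      int_Y_nonneg hle2
    have hCY : 0 ≤ C2 M C₁ *
        ∫ u in (((i₀ + c : ℕ) : ℝ) * h)..(((i₀ + (c + n) : ℕ) : ℝ) * h), Yp a g u := by
      positivity
    rw [← hadd]
    have hG : Gl a g h (i₀ + c) + Real.log 2 ≤ Gl a g h (i₀ + (c + n)) := by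
      unfold Gl; linarith
    constructor
    · have h5 : 0 ≤ (ε + θ) * (Gl a g h (i₀ + (c + n)) - Gl a g h (i₀ + c)) :=
        mul_nonneg (by linarith) (by linarith)
      linarith
    · rw [Finset.sum_range_add]
      have h5 : ∑ k ∈ Finset.range n,
          ch h M C₁ B₀ / n * Real.exp (-elU L a g H ((i₀ + (c + k) : ℕ) * h)) ≤ 1 / 4 := by
        calc _ ≤ ∑ k ∈ Finset.range n, ch h M C₁ B₀ / n * 1 := by
              refine Finset.sum_le_sum fun k _ => ?_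
              exact mul_le_mul_of_nonneg_left (hexp1 _) (by positivity)
          _ = ch h M C₁ B₀ := by
              rw [Finset.sum_const, Finset.card_range, nsmul_eq_mul, mul_one]
              field_simp
          _ ≤ 1 / 4 := hch
      linarith
  induction m with
  | zero => exact ⟨0, le_rfl, by omega, fun h => absurd h (lt_irrefl _), by simp, by simp⟩
  | succ m ih =>
    obtain ⟨c, hcm, hmc, hcj, h1, h3⟩ := ih (by omega)
    by_cases hj : 2 * Ag a g h (i₀ + c) ≤ Ag a g h (i₀ + c + n)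
    · -- a jump starts at `c`
      by_cases hlast : m + 1 < c + n
      · exact ⟨c, by omega, hlast, fun _ => hj, h1, h3⟩
      · have hmn : m + 1 = c + n := by omega
        obtain ⟨k1, k2⟩ := hjump c (by omega) hj h1 h3
        refine ⟨c + n, by omega, by omega, fun h => absurd h (by omega), k1, k2⟩
    · -- no jump: then `c = m` and the step is good
      have hcm' : c = m := by
        by_contra hne
        exact hj (hcj (by omega))
      subst hcm'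
      have hgood := (halt (i₀ + c) (by omega) (by omega)).resolve_left hj
      have hle1 : (i₀ : ℝ) * h ≤ ((i₀ + c : ℕ) : ℝ) * h := hcast (by omega)
      have hle2 : ((i₀ + c : ℕ) : ℝ) * h ≤ ((i₀ + (c + 1) : ℕ) : ℝ) * h := hcast (by omega)
      have hle3 : ((i₀ + (c + 1) : ℕ) : ℝ) * h ≤ N * h := hcast (by omega)
      obtain ⟨s1, s2⟩ := good_step he (hh.mono hle1 hle3) (by push_cast; ring) h0 h2 hM hC₁
        (hnn _) hle3 hB hθ0 hθ1 hε0 hεθ hL2 hgood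
      have hadd := intervalIntegral.integral_add_adjacent_intervals
        (Yp_int he (hnn _) hle1 (hle2.trans hle3)) (Yp_int he (hnn _) hle2 hle3)
      refine ⟨c + 1, le_rfl, by omega, fun h => absurd h (lt_irrefl _), ?_, ?_⟩
      · rw [← hadd]
        unfold Gl at h1 ⊢
        linarith
      · rw [← hadd, Finset.sum_range_succ]
        have h5 : ch h M C₁ B₀ / n * Real.exp (-elU L a g H ((i₀ + c : ℕ) * h))
            ≤ ch h M C₁ B₀ * Real.exp (-elU L a g H ((i₀ + c : ℕ) * h)) := by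
          apply mul_le_mul_of_nonneg_right _ (Real.exp_pos _).le
          exact div_le_self hch0 hn1'
        unfold Gl at h3 ⊢
        linarith

/-- constant of the stage inequality -/
noncomputable def K1L (M C₁ B₀ : ℝ) : ℝ := 66 * (C2 M C₁ * B₀) + 1

/-- the threshold -/
noncomputable def LcL (n : ℕ) (h M C₁ B₀ : ℝ) : ℝ :=
  max (Real.log 2) (Real.log (2 * C7L n h M C₁ B₀))

/-- **The stage inequality.** -/
theorem stage_boundL (he : EPath 0 (N * h) M a g b g₁) {i₀ i₁ n : ℕ} (hn1 : 1 ≤ n)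
    (hiN : i₁ + n ≤ N) (hh : HPath (i₀ * h) (N * h) C₁ ε g b g₁ H H₁ gS)
    (h0 : 0 < h) (h2 : h ≤ 2) (hM : 0 ≤ M) (hC₁ : 0 ≤ C₁) (hB0 : 0 ≤ B₀)
    (hB : ∫ u in (0:ℝ)..(N * h), Yp a g u ≤ B₀) {θ : ℝ} (hθ0 : 0 ≤ θ) (hθ1 : θ ≤ 1 / 4)
    (hε0 : 0 ≤ ε) (hεθ : ε + θ ≤ 1)
    (halt : ∀ i, i₀ ≤ i → i < i₁ → (2 * Ag a g h i ≤ Ag a g h (i + n) ∨
      ∀ u ∈ Icc (i * h : ℝ) ((i + 1 : ℕ) * h), g u - gS u ≤ θ * Am a g u)) {m : ℕ}
    (hm : i₀ + m ≤ i₁) :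
    m * (ch h M C₁ B₀ / n * Real.exp (-(elU (LcL n h M C₁ B₀) a g H (i₀ * h) + K1L M C₁ B₀
        + 32 * (ε + θ) * (Gl a g h (i₀ + m) - Gl a g h i₀))))
      ≤ (Gl a g h (i₀ + m) - Gl a g h i₀) + C2 M C₁ * B₀ + 1 / 4 := by
  have hC2 := C2_nonneg hM hC₁
  have hch := ch_le (h := h) h0.le h2 hM hC₁ hB0
  have hch0 : 0 ≤ ch h M C₁ B₀ := by unfold ch; positivity
  have hn0 : (0 : ℝ) < n := by exact_mod_cast hn1
  have hlog2 : (0.6931471803:ℝ) < Real.log 2 := Real.log_two_gt_d9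
  have hlog2' : Real.log 2 < (0.6931471808 : ℝ) := Real.log_two_lt_d9
  have hε1 : ε ≤ 1 := by linarith
  set L := LcL n h M C₁ B₀ with hL
  have hL2 : Real.log 2 ≤ L := le_max_left _ _
  have hL7 : Real.log (2 * C7L n h M C₁ B₀) ≤ L := le_max_right _ _
  have hcast : ∀ {x y : ℕ}, x ≤ y → (x : ℝ) * h ≤ (y : ℝ) * h := fun hxy =>
    mul_le_mul_of_nonneg_right (Nat.cast_le.2 hxy) h0.le
  have hnn : ∀ x : ℕ, (0 : ℝ) ≤ x * h := fun x => by positivity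
  have hinv := fun k (hk : k ≤ m) => stage_inv he hn1 hiN hh h0 h2 hM hC₁ hB0 hB hθ0 hθ1 hε0
    hεθ hL2 hL7 halt k (by omega)
  set gs := Gl a g h (i₀ + m) - Gl a g h i₀ with hgs
  have hC2B : 0 ≤ C2 M C₁ * B₀ := by positivity
  -- bound of the frequency at all indices
  have hel : ∀ k, k ≤ m → elU L a g H ((i₀ + k : ℕ) * h)
      ≤ elU L a g H (i₀ * h) + K1L M C₁ B₀ + 32 * (ε + θ) * gs := by
    intro k hk
    obtain ⟨c, hck, hkc, -, h1, -⟩ := hinv k hk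
    have hle1 : (i₀ : ℝ) * h ≤ ((i₀ + c : ℕ) : ℝ) * h := hcast (by omega)
    have hle2 : ((i₀ + c : ℕ) : ℝ) * h ≤ ((i₀ + k : ℕ) : ℝ) * h := hcast (by omega)
    have hle2' : ((i₀ + c : ℕ) : ℝ) * h ≤ ((i₀ + m : ℕ) : ℝ) * h := hcast (by omega)
    have hle3 : ((i₀ + k : ℕ) : ℝ) * h ≤ N * h := hcast (by omega)
    have hle3' : ((i₀ + m : ℕ) : ℝ) * h ≤ N * h := hcast (by omega)
    have hmid := mid_step (n := n) he (hh.mono hle1 hle3) h0.le hle2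
      (by
        have : ((i₀ + k : ℕ) : ℝ) ≤ ((i₀ + c : ℕ) : ℝ) + n := by
          exact_mod_cast (show i₀ + k ≤ i₀ + c + n by omega)
        nlinarith) hM hC₁ (hnn _) hle3 hB hε0 hε1 hL7
    have hYa := int_Y_le he hB (hnn i₀) hle1 (hle2.trans hle3)
    have hYb := int_Y_le he hB (hnn (i₀ + c)) hle2 hle3
    have hG := A_quasi he hM hC₁ hB (hnn (i₀ + c)) hle2' hle3'
    have h5 : C2 M C₁ * (∫ u in (i₀ * h : ℝ)..((i₀ + c : ℕ) * h), Yp a g u) ≤ C2 M C₁ * B₀ := by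
      gcongr
    have h6 : C2 M C₁ * (∫ u in (((i₀ + c : ℕ) : ℝ) * h)..((i₀ + k : ℕ) * h), Yp a g u)
        ≤ C2 M C₁ * B₀ := by gcongr
    have h7 : (ε + θ) * (Gl a g h (i₀ + c) - Gl a g h i₀) ≤ (ε + θ) * (gs + C2 M C₁ * B₀) := by
      apply mul_le_mul_of_nonneg_left _ (by linarith)
      rw [hgs]; unfold Gl; linarith
    have h8 : (ε + θ) * (C2 M C₁ * B₀) ≤ 1 * (C2 M C₁ * B₀) := by gcongr
    unfold K1L
    linarith
  -- the sum
  obtain ⟨c, hcm, hmc, -, -, h3⟩ := hinv m le_rfl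
  have hsum : ∑ k ∈ Finset.range m,
      ch h M C₁ B₀ / n * Real.exp (-elU L a g H ((i₀ + k : ℕ) * h))
      ≤ gs + C2 M C₁ * B₀ + 1 / 4 := by
    obtain ⟨r, rfl⟩ := Nat.exists_eq_add_of_le hcm
    rw [Finset.sum_range_add]
    have h5 : ∑ k ∈ Finset.range r,
        ch h M C₁ B₀ / n * Real.exp (-elU L a g H ((i₀ + (c + k) : ℕ) * h)) ≤ 1 / 4 := by
      calc _ ≤ ∑ k ∈ Finset.range r, ch h M C₁ B₀ / n * 1 := by
            refine Finset.sum_le_sum fun k _ => ?_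
            refine mul_le_mul_of_nonneg_left ?_ (by positivity)
            rw [Real.exp_le_one_iff]
            have : L ≤ elU L a g H ((i₀ + (c + k) : ℕ) * h) := le_max_left _ _
            linarith
        _ = r * (ch h M C₁ B₀ / n) := by
            rw [Finset.sum_const, Finset.card_range, nsmul_eq_mul, mul_one]
        _ ≤ n * (ch h M C₁ B₀ / n) := by
            apply mul_le_mul_of_nonneg_right _ (by positivity)
            exact_mod_cast (show r ≤ n by omega)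
        _ = ch h M C₁ B₀ := by field_simp
        _ ≤ 1 / 4 := hch
    have hle1 : (i₀ : ℝ) * h ≤ ((i₀ + c : ℕ) : ℝ) * h := hcast (by omega)
    have hle2 : ((i₀ + c : ℕ) : ℝ) * h ≤ ((i₀ + (c + r) : ℕ) : ℝ) * h := hcast (by omega)
    have hle3 : ((i₀ + (c + r) : ℕ) : ℝ) * h ≤ N * h := hcast (by omega)
    have hadd := intervalIntegral.integral_add_adjacent_intervals
      (Yp_int he (hnn _) hle1 (hle2.trans hle3)) (Yp_int he (hnn _) hle2 hle3)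
    have hAm := (he.mono (hnn (i₀ + c)) hle3).A_mono hle2 hM hC₁
    have hY := int_Y_le he hB (hnn i₀) (hle1.trans hle2) hle3
    have h6 : C2 M C₁ * (∫ u in (i₀ * h : ℝ)..((i₀ + (c + r) : ℕ) * h), Yp a g u)
        ≤ C2 M C₁ * B₀ := by gcongr
    rw [← hadd, mul_add] at h6
    rw [hgs]
    unfold Gl at h3 ⊢
    linarith
  have h7 : ∀ k ∈ Finset.range m, ch h M C₁ B₀ / n * Real.exp (-(elU L a g H (i₀ * h)
      + K1L M C₁ B₀ + 32 * (ε + θ) * gs))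
      ≤ ch h M C₁ B₀ / n * Real.exp (-elU L a g H ((i₀ + k : ℕ) * h)) := by
    intro k hk
    rw [Finset.mem_range] at hk
    have := hel k hk.le
    apply mul_le_mul_of_nonneg_left _ (by positivity)
    apply Real.exp_le_exp.2
    linarith
  have h8 := Finset.sum_le_sum h7
  rw [Finset.sum_const, Finset.card_range, nsmul_eq_mul] at h8
  linarith

end Vale.Agent.P214.NG
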