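import Vale.Agent.P214.NG.StageKB

/-!
# P214, block NG (PathK, 3): the path lemma with margin
-/

open Set Filter Topology MeasureTheory

set_option linter.all false

namespace Vale.Agent.P214.NG

variable {X : Type*} [MetricSpace X]

/-- `NoEvent` with a margin of `k` steps in the jump condition -/
def NoEvK (I k : ℕ) (h κ : ℝ) (e : ℕ → ℕ) (M₀ : ℕ) (a g : ℝ → ℝ)
    (S₀ : Finset X) (gS : Finset X → ℝ → ℝ) (θ : ℕ → ℝ) : Prop :=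
  ∀ i < I, ∀ j < M₀, ∀ S ⊆ S₀, S.Nonempty → Sep S (rad2 e κ h a g (j + 1) i) →
    Cov S S₀ (rad2 e κ h a g j i) →
    2 * Ag a g h i ≤ Ag a g h (i + k) ∨
      ∀ u ∈ Icc (i * h : ℝ) ((i + 1 : ℕ) * h), g u - gS S u ≤ θ i * Am a g u

variable {I k : ℕ} {h κ M C₁ ε B₀ C₈ : ℝ} {a g b g₁ : ℝ → ℝ} {S₀ : Finset X}
  {H₀ H₀' : ℝ → ℝ} {H H₁ gS : Finset X → ℝ → ℝ}

/-- constant of the stage time bound -/
noncomputable def K6K (k : ℕ) (h M C₁ B₀ C₈ Cg δ : ℝ) : ℝ :=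
  (ch h M C₁ B₀ / k)⁻¹ * Real.exp (LcL k h M C₁ B₀ + K1K h M C₁ B₀
    + Real.log (K3 M C₁ B₀ C₈)) * (Cg / δ + (C2 M C₁ * B₀ + 1 / 4))

lemma K6K_nonneg (h0 : 0 < h) (hM : 0 ≤ M) (hC₁ : 0 ≤ C₁) (hB0 : 0 ≤ B₀) {Cg δ : ℝ}
    (hCg : 0 ≤ Cg) (hδ : 0 < δ) : 0 ≤ K6K k h M C₁ B₀ C₈ Cg δ := by
  have hC2 := C2_nonneg hM hC₁
  have hch0 : 0 ≤ ch h M C₁ B₀ := by unfold ch; positivity
  unfold K6K
  positivity

/-- the initial frequency -/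
theorem NGData.ell_leK (hD : NGData I h κ M C₁ ε B₀ C₈ a g b g₁ S₀ H₀ H₀' H H₁ gS)
    (h0 : 0 < h) (hM : 0 ≤ M) (hC₁ : 0 ≤ C₁) (hε0 : 0 ≤ ε) (hε1 : ε ≤ 1)
    (hB0 : 0 ≤ B₀) (hC₈ : 0 ≤ C₈) (hκ : 1 ≤ κ) {e : ℕ → ℕ} {j i₀ E : ℕ} (hej : 1 ≤ e j)
    (heE : e j ≤ E) (hi0 : i₀ ≤ I) {S : Finset X} (hS : S ⊆ S₀) (hSne : S.Nonempty)
    (hcov : Cov S S₀ (rad2 e κ h a g j i₀)) :
    elU (LcL k h M C₁ B₀) a g (H S) (i₀ * h)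
      ≤ LcL k h M C₁ B₀ + Real.log (K3 M C₁ B₀ C₈) + Real.log (Lam κ h i₀ ^ E) := by
  have hL := one_le_Lam h0.le hκ i₀
  have hK3 := K3_ge hM hC₁ hB0 hC₈
  have hA := Ag_pos hD.epath h0.le hi0
  have hHpos := (hD.hpath S hS hSne).Hpos _ (grid_mem h0.le hi0)
  have hLE : 1 ≤ Lam κ h i₀ ^ E := one_le_pow₀ hL
  have hLj : Lam κ h i₀ ^ e j ≤ Lam κ h i₀ ^ E := pow_le_pow_right₀ hL heE
  have hlK : 0 ≤ Real.log (K3 M C₁ B₀ C₈) := Real.log_nonneg hK3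
  have hlL : 0 ≤ Real.log (Lam κ h i₀ ^ E) := Real.log_nonneg hLE
  have hLc : 0 ≤ LcL k h M C₁ B₀ := (Real.log_nonneg one_le_two).trans (le_max_left _ _)
  unfold elU
  refine max_le (by linarith) ?_
  have h3 := hD.height_le' h0.le hM hC₁ hε0 hε1 hB0 hC₈ hκ hej hi0 hS hSne hcov
  have h4 : H S (i₀ * h) ≤ K3 M C₁ B₀ C₈ * Lam κ h i₀ ^ E * Ag a g h i₀ := by
    refine h3.trans ?_
    gcongr
  have h5 := Real.log_le_log hHpos h4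
  rw [Real.log_mul (by positivity) hA.ne', Real.log_mul (by positivity) (by positivity)] at h5
  have h6 : Real.log (Am a g (i₀ * h)) = Real.log (Ag a g h i₀) := rfl
  rw [h6]
  linarith

/-- **Duration of a stage with small growth.** -/
theorem NGData.stage_timeK
    (hD : NGData (I + k) h κ M C₁ ε B₀ C₈ a g b g₁ S₀ H₀ H₀' H H₁ gS) (hk : 1 ≤ k)
    (h0 : 0 < h) (h2 : h ≤ 2) (hM : 0 ≤ M) (hC₁ : 0 ≤ C₁) (hε0 : 0 ≤ ε) (hε1 : ε ≤ 3 / 4)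
    (hB0 : 0 ≤ B₀) (hC₈ : 0 ≤ C₈) (hκ : 1 ≤ κ) {e : ℕ → ℕ} {j i₀ m E : ℕ} (hej : 1 ≤ e j)
    (heE : e j ≤ E)
    (hi : i₀ + m ≤ I) {S : Finset X} (hS : S ⊆ S₀) (hSne : S.Nonempty)
    (hcov : Cov S S₀ (rad2 e κ h a g j i₀)) {θ : ℕ → ℝ}
    (hθ0 : ∀ i, 0 ≤ θ i) (hθ1 : ∀ i, θ i ≤ 1 / 4) (hθs : ∑ i ∈ Finset.range I, θ i ≤ 1)
    (halt : ∀ i, i₀ ≤ i → i < i₀ + m → (2 * Ag a g h i ≤ Ag a g h (i + k) ∨
      ∀ u ∈ Icc (i * h : ℝ) ((i + 1 : ℕ) * h), g u - gS S u ≤ θ i * Am a g u))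
    {Cg δ ℓ : ℝ} (hCg : 0 < Cg) (hδ : 0 < δ) (hεδ : 32 * ε * Cg ≤ δ) (hℓ : 0 ≤ ℓ)
    (hg : Gl a g h (i₀ + m) - Gl a g h i₀ ≤ Cg * ℓ) :
    Lam κ h (i₀ + m) ≤ (1 + 4 * K6K k h M C₁ B₀ C₈ Cg δ) * Real.exp (2 * δ * ℓ)
      * Lam κ h i₀ ^ E := by
  have hkr : (0:ℝ) < k := by exact_mod_cast hk
  have hsb := stage_boundK hD.epath hk (i₀ := i₀) (i₁ := i₀ + m) (by omega)
    ((hD.hpath S hS hSne).mono (by positivity) le_rfl) h0 h2 hM hC₁ hB0 hD.budget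
    hθ0 hθ1 hi hθs hε0 hε1 halt (m := m) le_rfl
  have hell := hD.ell_leK (k := k) h0 hM hC₁ hε0 (by linarith) hB0 hC₈ hκ hej heE
    (show i₀ ≤ I + k by omega) hS hSne hcov
  have hC2 := C2_nonneg hM hC₁
  have hL := one_le_Lam h0.le hκ i₀
  have hK3 := K3_ge hM hC₁ hB0 hC₈
  obtain ⟨gs, hgs⟩ : ∃ gs, gs = Gl a g h (i₀ + m) - Gl a g h i₀ := ⟨_, rfl⟩
  rw [← hgs] at hsb hg
  have hLE : 1 ≤ Lam κ h i₀ ^ E := one_le_pow₀ hL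
  have hchp : 0 < ch h M C₁ B₀ / k := by unfold ch; positivity
  obtain ⟨Z, hZ⟩ : ∃ Z, Z = Real.exp (LcL k h M C₁ B₀ + K1K h M C₁ B₀
    + Real.log (K3 M C₁ B₀ C₈)) := ⟨_, rfl⟩
  have hZ0 : 0 < Z := by rw [hZ]; positivity
  have hexp : (Z * Real.exp (δ * ℓ) * Lam κ h i₀ ^ E)⁻¹
      ≤ Real.exp (-(elU (LcL k h M C₁ B₀) a g (H S) (i₀ * h) + K1K h M C₁ B₀
        + 32 * ε * gs)) := by
    rw [hZ, ← Real.exp_log (show 0 < Lam κ h i₀ ^ E by positivity), ← Real.exp_add,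
      ← Real.exp_add, ← Real.exp_neg]
    apply Real.exp_le_exp.2
    have h3 : 32 * ε * gs ≤ δ * ℓ := by
      calc 32 * ε * gs ≤ 32 * ε * (Cg * ℓ) := by gcongr
        _ = (32 * ε * Cg) * ℓ := by ring
        _ ≤ δ * ℓ := by gcongr
    linarith
  have h3 : (m : ℝ) * (ch h M C₁ B₀ / k * (Z * Real.exp (δ * ℓ) * Lam κ h i₀ ^ E)⁻¹)
      ≤ Cg * ℓ + (C2 M C₁ * B₀ + 1 / 4) := by
    refine le_trans ?_ (hsb.trans (by linarith))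
    gcongr
  have h4 : Cg * ℓ + (C2 M C₁ * B₀ + 1 / 4)
      ≤ (Cg / δ + (C2 M C₁ * B₀ + 1 / 4)) * Real.exp (δ * ℓ) := by
    have h5 : δ * ℓ ≤ Real.exp (δ * ℓ) := by
      have := Real.add_one_le_exp (δ * ℓ); linarith
    have h6 : 1 ≤ Real.exp (δ * ℓ) := Real.one_le_exp (by positivity)
    have h7 : Cg * ℓ = Cg / δ * (δ * ℓ) := by field_simp
    have h8 : 0 ≤ C2 M C₁ * B₀ + 1 / 4 := by positivity
    have h9 : 0 ≤ Cg / δ := by positivity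
    rw [h7]
    nlinarith
  have hpos : 0 < Z * Real.exp (δ * ℓ) * Lam κ h i₀ ^ E := by positivity
  have h5 : (m : ℝ) ≤ K6K k h M C₁ B₀ C₈ Cg δ * Real.exp (2 * δ * ℓ) * Lam κ h i₀ ^ E := by
    have h6 := h3.trans h4
    rw [show (m : ℝ) * (ch h M C₁ B₀ / k * (Z * Real.exp (δ * ℓ) * Lam κ h i₀ ^ E)⁻¹)
        = (m : ℝ) * (ch h M C₁ B₀ / k) / (Z * Real.exp (δ * ℓ) * Lam κ h i₀ ^ E) by
          rw [div_eq_mul_inv _ (Z * Real.exp (δ * ℓ) * Lam κ h i₀ ^ E)]; ring,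
          div_le_iff₀ hpos] at h6
    have h7 : (m : ℝ) ≤ (Cg / δ + (C2 M C₁ * B₀ + 1 / 4)) * Real.exp (δ * ℓ)
        * (Z * Real.exp (δ * ℓ) * Lam κ h i₀ ^ E) / (ch h M C₁ B₀ / k) := by
      rw [le_div_iff₀ hchp]; exact h6
    refine h7.trans (le_of_eq ?_)
    rw [show 2 * δ * ℓ = δ * ℓ + δ * ℓ by ring, Real.exp_add]
    unfold K6K
    rw [← hZ, div_eq_mul_inv _ (ch h M C₁ B₀ / k)]
    ring
  have h6 : Lam κ h (i₀ + m) = Lam κ h i₀ + 2 * (m * h) := by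
    unfold Lam; push_cast; ring
  have h7 : 2 * ((m : ℝ) * h) ≤ 4 * m := by
    have : (0 : ℝ) ≤ m := Nat.cast_nonneg m
    nlinarith
  have h8 : Lam κ h i₀ ≤ Lam κ h i₀ ^ E := le_self_pow₀ hL (by omega)
  have h9 : 1 ≤ Real.exp (2 * δ * ℓ) := Real.one_le_exp (by positivity)
  have h10 : Lam κ h i₀ ^ E ≤ Real.exp (2 * δ * ℓ) * Lam κ h i₀ ^ E :=
    le_mul_of_one_le_left (by positivity) h9
  rw [h6]
  linarith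

/-- the stage inequality in logarithmic form, assuming that no stage has large growth -/
lemma NGData.log_stageK
    (hD : NGData (I + k) h κ M C₁ ε B₀ C₈ a g b g₁ S₀ H₀ H₀' H H₁ gS) (hk : 1 ≤ k)
    (h0 : 0 < h) (h2 : h ≤ 2) (hM : 0 ≤ M) (hC₁ : 0 ≤ C₁) (hε0 : 0 ≤ ε) (hε1 : ε ≤ 3 / 4)
    (hB0 : 0 ≤ B₀) (hC₈ : 0 ≤ C₈) (hκ : 1 ≤ κ) {e : ℕ → ℕ} {M₀ : ℕ} (hem : Monotone e)
    (he0 : 1 ≤ e 0) (hne : S₀.Nonempty) (hcard : S₀.card ≤ M₀)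
    {θ : ℕ → ℝ}
    (hθ0 : ∀ i, 0 ≤ θ i) (hθ1 : ∀ i, θ i ≤ 1 / 4) (hθs : ∑ i ∈ Finset.range I, θ i ≤ 1)
    (hNE : NoEvK I k h κ e M₀ a g S₀ gS θ)
    {Cg δ ℓ : ℝ} (hCg : 0 < Cg) (hδ : 0 < δ) (hεδ : 32 * ε * Cg ≤ δ) (hℓ : 0 ≤ ℓ)
    (hcon : ∀ i₀ i₁ : ℕ, i₀ ≤ i₁ → i₁ ≤ I → Gl a g h i₁ - Gl a g h i₀ ≤ Cg * ℓ)
    {i₀ i : ℕ} (hi0 : i₀ ≤ i) (hiI : i ≤ I)
    (heq : totNum S₀ M₀ (rad2 e κ h a g) i₀ = totNum S₀ M₀ (rad2 e κ h a g) i) :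
    Real.log (Lam κ h i) ≤ Real.log (1 + 4 * K6K k h M C₁ B₀ C₈ Cg δ) + 2 * δ * ℓ
      + e M₀ * Real.log (Lam κ h i₀) := by
  have hE1 : 1 ≤ e M₀ := he0.trans (hem (Nat.zero_le _))
  have hK6 : 0 ≤ K6K k h M C₁ B₀ C₈ Cg δ := K6K_nonneg h0 hM hC₁ hB0 hCg.le hδ
  have hK7' : 1 ≤ 1 + 4 * K6K k h M C₁ B₀ C₈ Cg δ := by linarith
  have hL0 := one_le_Lam h0.le hκ i₀
  obtain ⟨m, rfl⟩ := Nat.exists_eq_add_of_le hi0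
  obtain ⟨j, hj, S, hS, hSne, hsep, hcov⟩ := exists_stage (M₀ := M₀) hne hcard
    (fun j i => rad2_nonneg hD.epath h0.le hκ e j i)
    (fun j i i' hi => rad2_mono hD.epath h0.le hκ e j hi)
    (fun j i => rad2_mono_j hD.epath h0.le hκ hem j i) hi0 heq
  have halt : ∀ i, i₀ ≤ i → i < i₀ + m → (2 * Ag a g h i ≤ Ag a g h (i + k) ∨
      ∀ u ∈ Icc (i * h : ℝ) ((i + 1 : ℕ) * h), g u - gS S u ≤ θ i * Am a g u) := by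
    intro i hi1 hi2
    exact hNE i (by omega) j hj S hS hSne
      (hsep.mono (rad2_mono hD.epath h0.le hκ e (j + 1) hi2.le))
      (hcov.mono (rad2_mono hD.epath h0.le hκ e j hi1))
  have hst := hD.stage_timeK hk h0 h2 hM hC₁ hε0 hε1 hB0 hC₈ hκ (E := e M₀)
    (he0.trans (hem (Nat.zero_le j))) (hem hj.le) hiI hS hSne hcov hθ0 hθ1 hθs halt
    hCg hδ hεδ hℓ (hcon i₀ (i₀ + m) hi0 hiI)
  have h3 := Real.log_le_log (by linarith [one_le_Lam h0.le hκ (i₀ + m)]) hst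
  rw [Real.log_mul (by positivity) (by positivity), Real.log_mul (by positivity)
    (Real.exp_pos _).ne', Real.log_exp, Real.log_pow] at h3
  exact h3

/-- **The path lemma with margin.** -/
theorem pathK (X : Type*) [MetricSpace X] :
    ∀ (M₀ k : ℕ) (e : ℕ → ℕ) (h M C₁ B₀ C₈ Cg : ℝ), 1 ≤ M₀ → 1 ≤ k → Monotone e → 1 ≤ e 0 →
    0 < h → h ≤ 2 → 0 ≤ M → 0 ≤ C₁ → 0 ≤ B₀ → 0 ≤ C₈ → 0 < Cg →
    ∃ ε₀ κ₀ : ℝ, 0 < ε₀ ∧ ε₀ ≤ 1 ∧ 1 ≤ κ₀ ∧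
      ∀ (I : ℕ) (κ ε : ℝ) (a g b g₁ : ℝ → ℝ) (S₀ : Finset X) (H₀ H₀' : ℝ → ℝ)
        (H H₁ gS : Finset X → ℝ → ℝ) (θ : ℕ → ℝ),
        κ₀ ≤ κ → 0 ≤ ε → ε ≤ ε₀ → S₀.Nonempty → S₀.card ≤ M₀ →
        NGData (I + k) h κ M C₁ ε B₀ C₈ a g b g₁ S₀ H₀ H₀' H H₁ gS →
        (∀ i, 0 ≤ θ i) → (∀ i, θ i ≤ 1 / 4) → (∑ i ∈ Finset.range I, θ i ≤ 1) →
        NoEvK I k h κ e M₀ a g S₀ gS θ →
        Real.exp (κ / 8) ≤ Lam κ h I →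
        Cg * Real.log (Lam κ h I)
          ≤ Real.log (Ag a g h (I + k)) - Real.log (Ag a g h 0) := by
  intro M₀ k e h M C₁ B₀ C₈ Cg₀ hM₀ hk hem he0 h0 h2 hM hC₁ hB0 hC₈ hCg₀
  have hC2 := C2_nonneg hM hC₁
  have hC2B : 0 ≤ C2 M C₁ * B₀ := by positivity
  obtain ⟨Cg, hCgd⟩ : ∃ Cg, Cg = Cg₀ + 2 * (C2 M C₁ * B₀) := ⟨_, rfl⟩
  have hCg : 0 < Cg := by linarith
  obtain ⟨P, hP⟩ : ∃ P : ℕ, P = Pex M₀ (e M₀) := ⟨_, rfl⟩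
  have hPpos : 0 < P := by rw [hP]; unfold Pex; positivity
  have hP1 : (1:ℝ) ≤ P := by exact_mod_cast hPpos
  obtain ⟨δ, hδ⟩ : ∃ δ : ℝ, δ = 1 / (8 * P) := ⟨_, rfl⟩
  have hδpos : 0 < δ := by rw [hδ]; positivity
  have hK6 : 0 ≤ K6K k h M C₁ B₀ C₈ Cg δ := K6K_nonneg h0 hM hC₁ hB0 hCg.le hδpos
  obtain ⟨K7, hK7⟩ : ∃ K7 : ℝ, K7 = 1 + 4 * K6K k h M C₁ B₀ C₈ Cg δ := ⟨_, rfl⟩
  have hK7' : 1 ≤ K7 := by linarith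
  have hlK7 : 0 ≤ Real.log K7 := Real.log_nonneg hK7'
  have hlog5 : 0 ≤ Real.log 5 := Real.log_nonneg (by norm_num)
  obtain ⟨Kc, hKc⟩ : ∃ Kc : ℝ, Kc = Real.log K7 + e M₀ * Real.log 5 := ⟨_, rfl⟩
  have hKc0 : 0 ≤ Kc := by rw [hKc]; positivity
  have hl32 : 0 ≤ Real.log (32 * P) := Real.log_nonneg (by nlinarith)
  have hpos0 : 0 ≤ 16 * (P * Real.log (32 * P) + P * Kc) := by positivity
  refine ⟨min (3 / 4) (δ / (32 * Cg)), 8 + 16 * (P * Real.log (32 * P) + P * Kc),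
    lt_min (by norm_num) (by positivity), (min_le_left _ _).trans (by norm_num), ?_, ?_⟩
  · linarith
  intro I κ ε a g b g₁ S₀ H₀ H₀' H H₁ gS θ hκ₀ hε0 hεε hne hcard hD hθ0 hθ1 hθs hNE hLam
  have hε1 : ε ≤ 3 / 4 := hεε.trans (min_le_left _ _)
  have hεδ : 32 * ε * Cg ≤ δ := by
    have h1 : ε ≤ δ / (32 * Cg) := hεε.trans (min_le_right _ _)
    rw [le_div_iff₀ (by positivity)] at h1
    linarith
  have hκ : 1 ≤ κ := by linarith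
  have hκ8 : 8 ≤ κ := by linarith
  have hLI := one_le_Lam h0.le hκ I
  obtain ⟨ℓ, hℓd⟩ : ∃ ℓ, ℓ = Real.log (Lam κ h I) := ⟨_, rfl⟩
  have hκℓ : κ ≤ 8 * ℓ := by
    have h1 := Real.log_le_log (Real.exp_pos _) hLam
    rw [Real.log_exp] at h1
    linarith
  have hℓ1 : 1 ≤ ℓ := by linarith
  have hℓ0 : 0 ≤ ℓ := by linarith
  by_contra hcon
  push Not at hcon
  rw [← hℓd] at hcon
  have hcast : ∀ {x y : ℕ}, x ≤ y → (x : ℝ) * h ≤ (y : ℝ) * h := fun hxy =>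
    mul_le_mul_of_nonneg_right (Nat.cast_le.2 hxy) h0.le
  have hcon' : ∀ i₀ i₁ : ℕ, i₀ ≤ i₁ → i₁ ≤ I → Gl a g h i₁ - Gl a g h i₀ ≤ Cg * ℓ := by
    intro i₀ i₁ h01 h1I
    have k1 := A_quasi hD.epath hM hC₁ hD.budget (α := ((0 : ℕ) : ℝ) * h) (β := i₀ * h)
      (by simp) (hcast (Nat.zero_le _)) (hcast (by omega))
    have k2 := A_quasi hD.epath hM hC₁ hD.budget (α := i₁ * h) (β := ((I + k : ℕ) : ℝ) * h)
      (by positivity) (hcast (by omega)) le_rfl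
    have k3 : 2 * (C2 M C₁ * B₀) * 1 ≤ 2 * (C2 M C₁ * B₀) * ℓ := by gcongr
    have k4 : Cg * ℓ = Cg₀ * ℓ + 2 * (C2 M C₁ * B₀) * ℓ := by rw [hCgd]; ring
    unfold Ag at hcon
    unfold Gl
    linarith
  have hlκ : 0 ≤ Real.log κ := Real.log_nonneg hκ
  have h2d : 0 ≤ 2 * δ * ℓ := by positivity
  have hit := iterate (E := e M₀) (I := I) (lam := fun i => Real.log (Lam κ h i))
    (V := totNum S₀ M₀ (rad2 e κ h a g)) (K := Real.log K7 + 2 * δ * ℓ)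
    (w := Kc + 2 * δ * ℓ + Real.log κ) (c := Real.log 5)
    (fun i i' hi => totNum_anti (fun j i i' hi => rad2_mono hD.epath h0.le hκ e j hi) hi)
    (fun i₀ i hi0 hiI heq => by
      rw [hK7]
      exact hD.log_stageK hk h0 h2 hM hC₁ hε0 hε1 hB0 hC₈ hκ hem he0 hne hcard hθ0 hθ1 hθs hNE
        hCg hδpos hεδ hℓ0 hcon' hi0 hiI heq)
    (fun i => log_Lam_succ h0 h2 hκ i)
    (by
      have hLam0 : Real.log (Lam κ h 0) = Real.log κ := by unfold Lam; simp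
      show Real.log (Lam κ h 0) ≤ _
      rw [hLam0]; linarith)
    (by rw [hKc]; linarith) hlog5 (by positivity) ((M₀ + 1) * M₀) I le_rfl
    (by
      have := totNum_le (S₀ := S₀) (M₀ := M₀) (r := rad2 e κ h a g) hcard 0
      omega)
  have hPe : ((e M₀ : ℝ) + 1) ^ ((M₀ + 1) * M₀ + 1) = (P : ℝ) := by
    rw [hP]; unfold Pex; push_cast; rfl
  rw [hPe] at hit
  have hit' : ℓ ≤ P * (Kc + 2 * δ * ℓ + Real.log κ) := by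
    rw [hℓd] at hit ⊢
    exact hit
  exact final_contra hPpos hδ hKc0 rfl hκ hκℓ (by linarith) hit'

end Vale.Agent.P214.NG
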