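import Vale.Agent.P214.NG.ClockL

/-!
# P214, block NG-L (5): the path lemma with the intrinsic clock
-/

open Set Filter Topology MeasureTheory

set_option linter.all false

namespace Vale.Agent.P214.NG

variable {X : Type*} [MetricSpace X]

/-- constant of the trivial bound -/
noncomputable def K9 (h M C₁ B₀ : ℝ) : ℝ := c9 h M C₁ B₀ + c10 h M C₁ B₀

/-- constant of the initial bound of a stage -/
noncomputable def K3L (h M C₁ B₀ C₈ : ℝ) : ℝ :=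
  (2 + 2 * K9 h M C₁ B₀ + C₈) * Real.exp (C2 M C₁ * B₀)

/-- constant of the stage time bound -/
noncomputable def K6L (n : ℕ) (h M C₁ B₀ C₈ Cg δ : ℝ) : ℝ :=
  n * (ch h M C₁ B₀)⁻¹ * Real.exp (LcL n h M C₁ B₀ + K1L M C₁ B₀ + Real.log (K3L h M C₁ B₀ C₈))
    * (Cg / δ + C2 M C₁ * B₀ + 1)

lemma c9_c10_nonneg {h M C₁ B₀ : ℝ} (h0 : 0 < h) (hM : 0 ≤ M) (hC₁ : 0 ≤ C₁) :
    0 ≤ c9 h M C₁ B₀ ∧ 0 ≤ c10 h M C₁ B₀ := by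
  have hC7 := C7_pos (B₀ := B₀) h0.le hM hC₁
  have hc9 : 0 ≤ c9 h M C₁ B₀ := by unfold c9; positivity
  have hexp : 0 < 1 - Real.exp (-h) := by
    have : Real.exp (-h) < 1 := by rw [Real.exp_lt_one_iff]; linarith
    linarith
  exact ⟨hc9, by unfold c10; positivity⟩

lemma K3L_ge {h M C₁ B₀ C₈ : ℝ} (h0 : 0 < h) (hM : 0 ≤ M) (hC₁ : 0 ≤ C₁) (hB0 : 0 ≤ B₀)
    (hC₈ : 0 ≤ C₈) : 1 ≤ K3L h M C₁ B₀ C₈ := by
  unfold K3L K9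
  obtain ⟨h9, h10⟩ := c9_c10_nonneg (B₀ := B₀) h0 hM hC₁
  have h1 := C2_nonneg hM hC₁
  have h2 : 1 ≤ Real.exp (C2 M C₁ * B₀) := Real.one_le_exp (by positivity)
  have h3 : 1 ≤ 2 + 2 * (c9 h M C₁ B₀ + c10 h M C₁ B₀) + C₈ := by linarith
  calc (1:ℝ) = 1 * 1 := by ring
    _ ≤ _ := by gcongr

lemma time_alg {x c n D Z : ℝ} (hc : 0 < c) (hn : 0 < n) (hZ : 0 < Z)
    (h : x * (c / n * Z⁻¹) ≤ D) : x ≤ D * Z * (n / c) := by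
  have h1 : x = x * (c / n * Z⁻¹) * Z * (n / c) := by
    field_simp
  rw [h1]
  gcongr

variable {I n : ℕ} {h κ L₀ M C₁ ε B₀ C₈ : ℝ} {e : ℕ → ℕ} {M₀ : ℕ} {a g b g₁ : ℝ → ℝ}
  {S₀ : Finset X} {H₀ H₀' : ℝ → ℝ} {H H₁ gS : Finset X → ℝ → ℝ}

/-- **Initial height of a stage.** -/
theorem NGDataL.init_height
    (hD : NGDataL (I + n) h κ L₀ M C₁ ε B₀ C₈ e M₀ a g b g₁ S₀ H₀ H₀' H H₁ gS)
    (h0 : 0 < h) (hM : 0 ≤ M) (hC₁ : 0 ≤ C₁) (hε0 : 0 ≤ ε) (hε1 : ε ≤ 1)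
    (hC₈ : 0 ≤ C₈) (hκ : 0 ≤ κ) {j i₀ E : ℕ}
    (hej : 1 ≤ e j) (heE : e j ≤ E) (hi0 : i₀ ≤ I)
    (hL1 : ∀ i ≤ I, 1 ≤ Lg L₀ h a g i) {S : Finset X} (hS : S ⊆ S₀) (hSne : S.Nonempty)
    (hcov : Cov S S₀ (radL e L₀ h a g j i₀)) {W : ℝ} (hW1 : 1 ≤ W)
    (hW : κ * Real.exp (-Gb a g h i₀) ≤ W) (hWL : Lg L₀ h a g i₀ ≤ W) :
    H S (i₀ * h) ≤ K3L h M C₁ B₀ C₈ * W ^ E * Ag a g h i₀ := by
  obtain ⟨h9, h10⟩ := c9_c10_nonneg (B₀ := B₀) h0 hM hC₁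
  have hcastN : ((i₀ : ℕ) : ℝ) * h ≤ ((I + n : ℕ) : ℝ) * h :=
    mul_le_mul_of_nonneg_right (Nat.cast_le.2 (by omega)) h0.le
  have hm : (i₀ * h : ℝ) ∈ Icc (0:ℝ) ((I + n : ℕ) * h) := ⟨by positivity, hcastN⟩
  have hWE : 1 ≤ W ^ E := one_le_pow₀ hW1
  have hE1 : 1 ≤ E := hej.trans heE
  have hWleE : W ≤ W ^ E := le_self_pow₀ hW1 (by omega)
  have hLi := hL1 i₀ hi0
  have hAb := Abar_pos hD.epath h0.le i₀
  have h1 := hD.comp S hS hSne _ (radL_nonneg hD.epath h0.le (by linarith)) hcov _ hm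
  have h3 := H0_bound hD.epath h0 hM hC₁ hε0 hε1 hD.budget hD.dH₀ hD.H₀err hκ hD.init
    (show I ≤ I + n by omega) (fun i hi => by linarith [hL1 i hi]) i₀ hi0
  have h4 := Abar_le hD.epath h0.le hM hC₁ hD.budget (show i₀ ≤ I + n by omega)
  have h5 : κ * Real.exp (-Gb a g h i₀) + c9 h M C₁ B₀ * Lg L₀ h a g i₀ + c10 h M C₁ B₀
      ≤ (1 + K9 h M C₁ B₀) * W ^ E := by
    unfold K9
    have e1 : c9 h M C₁ B₀ * Lg L₀ h a g i₀ ≤ c9 h M C₁ B₀ * W ^ E := by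
      gcongr; linarith
    have e2 : c10 h M C₁ B₀ * 1 ≤ c10 h M C₁ B₀ * W ^ E := by gcongr
    linarith
  have h6 : H₀ (i₀ * h) ≤ (1 + K9 h M C₁ B₀) * W ^ E * Abar a g h i₀ :=
    h3.trans (mul_le_mul_of_nonneg_right h5 hAb.le)
  have h7 : radL e L₀ h a g j i₀ ≤ W ^ E * Abar a g h i₀ := by
    unfold radL
    apply mul_le_mul_of_nonneg_right _ hAb.le
    calc Lg L₀ h a g i₀ ^ e j ≤ W ^ e j := by gcongr
      _ ≤ W ^ E := pow_le_pow_right₀ hW1 heE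
  have h8 : C₈ * radL e L₀ h a g j i₀ ≤ C₈ * (W ^ E * Abar a g h i₀) := by gcongr
  have h9' : H S (i₀ * h) ≤ (2 + 2 * K9 h M C₁ B₀ + C₈) * W ^ E * Abar a g h i₀ := by
    linarith
  have hK9 : 0 ≤ K9 h M C₁ B₀ := by unfold K9; linarith
  refine h9'.trans ?_
  unfold K3L
  calc (2 + 2 * K9 h M C₁ B₀ + C₈) * W ^ E * Abar a g h i₀
      ≤ (2 + 2 * K9 h M C₁ B₀ + C₈) * W ^ E * (Real.exp (C2 M C₁ * B₀) * Ag a g h i₀) := by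
        gcongr
    _ = _ := by ring

/-- **Initial frequency of a stage.** -/
theorem NGDataL.init_freq
    (hD : NGDataL (I + n) h κ L₀ M C₁ ε B₀ C₈ e M₀ a g b g₁ S₀ H₀ H₀' H H₁ gS)
    (h0 : 0 < h) (hM : 0 ≤ M) (hC₁ : 0 ≤ C₁) (hε0 : 0 ≤ ε) (hε1 : ε ≤ 1) (hB0 : 0 ≤ B₀)
    (hC₈ : 0 ≤ C₈) (hκ : 0 ≤ κ) {j i₀ E : ℕ} (hj : j < M₀)
    (hej : 1 ≤ e j) (heE : e j ≤ E) (hi0 : i₀ ≤ I)
    (hL1 : ∀ i ≤ I, 1 ≤ Lg L₀ h a g i) {S : Finset X} (hS : S ⊆ S₀) (hSne : S.Nonempty)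
    (hcov : Cov S S₀ (radL e L₀ h a g j i₀)) {W : ℝ} (hW1 : 1 ≤ W)
    (hW : κ * Real.exp (-Gb a g h i₀) ≤ W) (hWL : Lg L₀ h a g i₀ ≤ W) :
    elU (LcL n h M C₁ B₀) a g (H S) (i₀ * h)
      ≤ LcL n h M C₁ B₀ + Real.log (K3L h M C₁ B₀ C₈) + Real.log (W ^ E) := by
  have hHb := hD.init_height h0 hM hC₁ hε0 hε1 hC₈ hκ hej heE hi0 hL1 hS hSne hcov hW1 hW hWL
  have hcastN : ((i₀ : ℕ) : ℝ) * h ≤ ((I + n : ℕ) : ℝ) * h :=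
    mul_le_mul_of_nonneg_right (Nat.cast_le.2 (by omega)) h0.le
  have hHpos := (hD.hpath i₀ (by omega) j hj S hS hSne hcov).Hpos (i₀ * h) ⟨le_rfl, hcastN⟩
  have hK3 := K3L_ge (h := h) h0 hM hC₁ hB0 hC₈
  have hA := Ag_pos hD.epath h0.le (show i₀ ≤ I + n by omega)
  have hWE : 1 ≤ W ^ E := one_le_pow₀ hW1
  have hlK : 0 ≤ Real.log (K3L h M C₁ B₀ C₈) := Real.log_nonneg hK3
  have hlL : 0 ≤ Real.log (W ^ E) := Real.log_nonneg hWE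
  have hLc : 0 ≤ LcL n h M C₁ B₀ := (Real.log_nonneg one_le_two).trans (le_max_left _ _)
  unfold elU
  refine max_le (by linarith) ?_
  have h5 := Real.log_le_log hHpos hHb
  rw [Real.log_mul (by positivity) hA.ne', Real.log_mul (by positivity) (by positivity)] at h5
  have h6 : Real.log (Am a g (i₀ * h)) = Real.log (Ag a g h i₀) := rfl
  rw [h6]
  linarith

/-- **Duration of a stage with small growth.** -/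
theorem NGDataL.stage_time
    (hD : NGDataL (I + n) h κ L₀ M C₁ ε B₀ C₈ e M₀ a g b g₁ S₀ H₀ H₀' H H₁ gS)
    (hn1 : 1 ≤ n) (h0 : 0 < h) (h2 : h ≤ 2) (hM : 0 ≤ M) (hC₁ : 0 ≤ C₁) (hε0 : 0 ≤ ε)
    (hB0 : 0 ≤ B₀) (hC₈ : 0 ≤ C₈) (hκ : 0 ≤ κ) {j i₀ m E : ℕ} (hj : j < M₀)
    (hej : 1 ≤ e j) (heE : e j ≤ E) (hi : i₀ + m ≤ I)
    (hL1 : ∀ i ≤ I, 1 ≤ Lg L₀ h a g i) {S : Finset X} (hS : S ⊆ S₀) (hSne : S.Nonempty)
    (hcov : Cov S S₀ (radL e L₀ h a g j i₀)) {θ : ℝ}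
    (hθ0 : 0 ≤ θ) (hθ1 : θ ≤ 1 / 4) (hεθ : ε + θ ≤ 1)
    (halt : ∀ i, i₀ ≤ i → i < i₀ + m → (2 * Ag a g h i ≤ Ag a g h (i + n) ∨
      ∀ u ∈ Icc (i * h : ℝ) ((i + 1 : ℕ) * h), g u - gS S u ≤ θ * Am a g u))
    {Cg δ ℓ W : ℝ} (hCg : 0 < Cg) (hδ : 0 < δ) (hεδ : 32 * (ε + θ) * Cg ≤ δ) (hℓ : 0 ≤ ℓ)
    (hg : Gl a g h (i₀ + m) - Gl a g h i₀ ≤ Cg * ℓ) (hW1 : 1 ≤ W)
    (hW : κ * Real.exp (-Gb a g h i₀) ≤ W) (hWL : Lg L₀ h a g i₀ ≤ W) :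
    (m : ℝ) ≤ K6L n h M C₁ B₀ C₈ Cg δ * Real.exp (2 * δ * ℓ) * W ^ E := by
  have hε1 : ε ≤ 1 := by linarith
  have hh := hD.hpath i₀ (by omega) j hj S hS hSne hcov
  have hsb := stage_boundL hD.epath hn1 (show i₀ + m + n ≤ I + n by omega) hh h0 h2 hM hC₁ hB0
    hD.budget hθ0 hθ1 hε0 hεθ halt le_rfl
  have hC2 := C2_nonneg hM hC₁
  have hK3 := K3L_ge (h := h) h0 hM hC₁ hB0 hC₈
  obtain ⟨h9, h10⟩ := c9_c10_nonneg (B₀ := B₀) h0 hM hC₁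
  set gs := Gl a g h (i₀ + m) - Gl a g h i₀ with hgs
  have hi0 : i₀ ≤ I := by omega
  have hcastN : ((i₀ : ℕ) : ℝ) * h ≤ ((I + n : ℕ) : ℝ) * h :=
    mul_le_mul_of_nonneg_right (Nat.cast_le.2 (by omega)) h0.le
  have hm : (i₀ * h : ℝ) ∈ Icc (0:ℝ) ((I + n : ℕ) * h) := ⟨by positivity, hcastN⟩
  have hA := Ag_pos hD.epath h0.le (show i₀ ≤ I + n by omega)
  have hHpos := hh.Hpos (i₀ * h) ⟨le_rfl, hcastN⟩
  have hWE : 1 ≤ W ^ E := one_le_pow₀ hW1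
  have hE1 : 1 ≤ E := hej.trans heE
  have hWleE : W ≤ W ^ E := le_self_pow₀ hW1 (by omega)
  have hLi := hL1 i₀ hi0
  have hAb := Abar_pos hD.epath h0.le i₀
  have hell := hD.init_freq h0 hM hC₁ hε0 hε1 hB0 hC₈ hκ hj hej heE hi0 hL1 hS hSne hcov hW1
    hW hWL
  -- lower bound of the exponential
  have hchp : 0 < ch h M C₁ B₀ := by unfold ch; positivity
  have hn0 : (0:ℝ) < n := by exact_mod_cast hn1
  set Z := Real.exp (LcL n h M C₁ B₀ + K1L M C₁ B₀ + Real.log (K3L h M C₁ B₀ C₈)) with hZ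
  have hexp : (Z * Real.exp (δ * ℓ) * W ^ E)⁻¹
      ≤ Real.exp (-(elU (LcL n h M C₁ B₀) a g (H S) (i₀ * h) + K1L M C₁ B₀
        + 32 * (ε + θ) * gs)) := by
    rw [hZ, ← Real.exp_log (show 0 < W ^ E by positivity), ← Real.exp_add,
      ← Real.exp_add, ← Real.exp_neg]
    apply Real.exp_le_exp.2
    have h3 : 32 * (ε + θ) * gs ≤ δ * ℓ := by
      calc 32 * (ε + θ) * gs ≤ 32 * (ε + θ) * (Cg * ℓ) := by gcongr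
        _ = (32 * (ε + θ) * Cg) * ℓ := by ring
        _ ≤ δ * ℓ := by gcongr
    linarith
  have h3 : (m : ℝ) * (ch h M C₁ B₀ / n * (Z * Real.exp (δ * ℓ) * W ^ E)⁻¹)
      ≤ Cg * ℓ + C2 M C₁ * B₀ + 1 / 4 := by
    refine le_trans ?_ (hsb.trans (by linarith))
    gcongr
  have h4 : Cg * ℓ + C2 M C₁ * B₀ + 1 / 4 ≤ (Cg / δ + C2 M C₁ * B₀ + 1) * Real.exp (δ * ℓ) := by
    have h5 : δ * ℓ ≤ Real.exp (δ * ℓ) := by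
      have := Real.add_one_le_exp (δ * ℓ); linarith
    have h6 : 1 ≤ Real.exp (δ * ℓ) := Real.one_le_exp (by positivity)
    have h7 : Cg * ℓ = Cg / δ * (δ * ℓ) := by field_simp
    have h8 : 0 ≤ C2 M C₁ * B₀ := by positivity
    have h9 : 0 ≤ Cg / δ := by positivity
    rw [h7]
    nlinarith
  have hpos : 0 < Z * Real.exp (δ * ℓ) * W ^ E := by positivity
  have h6 := h3.trans h4
  have h7 := time_alg hchp hn0 hpos h6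
  refine h7.trans (le_of_eq ?_)
  rw [show 2 * δ * ℓ = δ * ℓ + δ * ℓ by ring, Real.exp_add]
  unfold K6L
  rw [← hZ, div_eq_mul_inv]
  ring

end Vale.Agent.P214.NG
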