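import Vale.Agent.P214.NG.Data

/-!
# P214, block NG (4): separated subsets and the choice of stages
-/

open Set Filter Topology MeasureTheory

set_option linter.all false

namespace Vale.Agent.P214.NG

variable {X : Type*} [MetricSpace X] {S₀ : Finset X}

lemma Sep.mono {S : Finset X} {ρ ρ' : ℝ} (h : Sep S ρ') (hρ : ρ ≤ ρ') : Sep S ρ :=
  fun c hc c' hc' hne => hρ.trans_lt (h c hc c' hc' hne)

lemma Cov.mono {S : Finset X} {ρ ρ' : ℝ} (h : Cov S S₀ ρ) (hρ : ρ ≤ ρ') : Cov S S₀ ρ' := by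
  intro c hc
  obtain ⟨c', h1, h2⟩ := h c hc
  exact ⟨c', h1, h2.trans hρ⟩

open Classical in
/-- maximal number of points of `S₀` with squared distances `> ρ` -/
noncomputable def sepNum (S₀ : Finset X) (ρ : ℝ) : ℕ :=
  (S₀.powerset.filter (fun S => Sep S ρ)).sup Finset.card

lemma exists_max (S₀ : Finset X) (ρ : ℝ) : ∃ S ⊆ S₀, Sep S ρ ∧ S.card = sepNum S₀ ρ := by
  classical
  obtain ⟨S, hS, hS2⟩ := Finset.exists_mem_eq_sup (S₀.powerset.filter (fun S => Sep S ρ))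
    ⟨∅, by
      rw [Finset.mem_filter]
      exact ⟨Finset.empty_mem_powerset _, fun c hc => absurd hc (Finset.notMem_empty c)⟩⟩
    Finset.card
  rw [Finset.mem_filter, Finset.mem_powerset] at hS
  refine ⟨S, hS.1, hS.2, ?_⟩
  rw [← hS2]
  unfold sepNum
  congr

lemma le_sepNum {S : Finset X} {ρ : ℝ} (hS : S ⊆ S₀) (h : Sep S ρ) : S.card ≤ sepNum S₀ ρ := by
  classical
  unfold sepNum
  refine Finset.le_sup (f := Finset.card) ?_
  rw [Finset.mem_filter, Finset.mem_powerset]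
  exact ⟨hS, h⟩

lemma sepNum_anti {ρ ρ' : ℝ} (h : ρ ≤ ρ') : sepNum S₀ ρ' ≤ sepNum S₀ ρ := by
  obtain ⟨S, h1, h2, h3⟩ := exists_max S₀ ρ'
  rw [← h3]
  exact le_sepNum h1 (h2.mono h)

lemma one_le_sepNum (hS : S₀.Nonempty) (ρ : ℝ) : 1 ≤ sepNum S₀ ρ := by
  obtain ⟨c, hc⟩ := hS
  have := le_sepNum (S₀ := S₀) (S := {c}) (ρ := ρ) (by simpa using hc) (by
    intro a ha b hb hne
    rw [Finset.mem_singleton] at ha hb
    exact absurd (ha.trans hb.symm) hne)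
  simpa using this

lemma sepNum_le_card (ρ : ℝ) : sepNum S₀ ρ ≤ S₀.card := by
  obtain ⟨S, h1, h2, h3⟩ := exists_max S₀ ρ
  rw [← h3]
  exact Finset.card_le_card h1

/-- a maximiser at the larger level covers at the smaller level if the numbers agree -/
lemma exists_stage_set (hne : S₀.Nonempty) {ρ ρ' : ℝ} (hρ0 : 0 ≤ ρ) (hρ : ρ ≤ ρ')
    (heq : sepNum S₀ ρ = sepNum S₀ ρ') :
    ∃ S ⊆ S₀, S.Nonempty ∧ Sep S ρ' ∧ Cov S S₀ ρ := by
  classical
  obtain ⟨S, h1, h2, h3⟩ := exists_max S₀ ρ'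
  have hSne : S.Nonempty := by
    rw [← Finset.card_pos, h3]
    exact one_le_sepNum hne ρ'
  refine ⟨S, h1, hSne, h2, ?_⟩
  intro c hc
  by_contra hcon
  push Not at hcon
  have hcS : c ∉ S := by
    intro hcS
    have h5 := hcon c hcS
    rw [dist_self] at h5
    have h6 : ρ < 0 := by simpa using h5
    linarith
  have h5 : Sep (insert c S) ρ := by
    intro a ha b hb hab
    rw [Finset.mem_insert] at ha hb
    rcases ha with rfl | ha <;> rcases hb with rfl | hb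
    · exact absurd rfl hab
    · exact hcon b hb
    · rw [dist_comm]; exact hcon a ha
    · exact (h2.mono hρ) a ha b hb hab
  have h6 := le_sepNum (S₀ := S₀) (S := insert c S) (ρ := ρ)
    (Finset.insert_subset hc h1) h5
  rw [Finset.card_insert_of_notMem hcS, heq, ← h3] at h6
  omega

/-- pigeonhole on the levels -/
lemma exists_level {N : ℕ → ℕ} {M₀ : ℕ} (hanti : ∀ j < M₀, N (j + 1) ≤ N j)
    (h1 : 1 ≤ N M₀) (h2 : N 0 ≤ M₀) : ∃ j < M₀, N j = N (j + 1) := by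
  by_contra hcon
  push Not at hcon
  have h3 : ∀ j ≤ M₀, N j + j ≤ N 0 := by
    intro j
    induction j with
    | zero => intro _; simp
    | succ j ih =>
      intro hj
      have h4 := ih (by omega)
      have h5 := hanti j (by omega)
      have h6 := hcon j (by omega)
      omega
  have := h3 M₀ le_rfl
  omega

/-- total separation number over the levels `0..M₀` -/
noncomputable def totNum (S₀ : Finset X) (M₀ : ℕ) (r : ℕ → ℕ → ℝ) (i : ℕ) : ℕ :=
  ∑ j ∈ Finset.range (M₀ + 1), sepNum S₀ (r j i)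

lemma totNum_anti {M₀ : ℕ} {r : ℕ → ℕ → ℝ} (hr : ∀ j i i', i ≤ i' → r j i ≤ r j i') {i i' : ℕ}
    (h : i ≤ i') : totNum S₀ M₀ r i' ≤ totNum S₀ M₀ r i :=
  Finset.sum_le_sum fun j _ => sepNum_anti (hr j i i' h)

lemma totNum_le {M₀ : ℕ} {r : ℕ → ℕ → ℝ} (hc : S₀.card ≤ M₀) (i : ℕ) :
    totNum S₀ M₀ r i ≤ (M₀ + 1) * M₀ := by
  unfold totNum
  calc ∑ j ∈ Finset.range (M₀ + 1), sepNum S₀ (r j i)
      ≤ ∑ j ∈ Finset.range (M₀ + 1), M₀ :=
        Finset.sum_le_sum fun j _ => (sepNum_le_card _).trans hc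
    _ = (M₀ + 1) * M₀ := by simp

/-- **Choice of a stage set** on an interval of constancy -/
lemma exists_stage {M₀ : ℕ} (hne : S₀.Nonempty) (hc : S₀.card ≤ M₀) {r : ℕ → ℕ → ℝ}
    (hr0 : ∀ j i, 0 ≤ r j i)
    (hr : ∀ j i i', i ≤ i' → r j i ≤ r j i') (hrj : ∀ j i, r j i ≤ r (j + 1) i)
    {i₀ i₁ : ℕ} (h01 : i₀ ≤ i₁) (heq : totNum S₀ M₀ r i₀ = totNum S₀ M₀ r i₁) :
    ∃ j < M₀, ∃ S ⊆ S₀, S.Nonempty ∧ Sep S (r (j + 1) i₁) ∧ Cov S S₀ (r j i₀) := by
  have hall : ∀ j ∈ Finset.range (M₀ + 1), sepNum S₀ (r j i₁) = sepNum S₀ (r j i₀) := by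
    intro j hj
    have h1 : ∀ j ∈ Finset.range (M₀ + 1), sepNum S₀ (r j i₁) ≤ sepNum S₀ (r j i₀) :=
      fun j _ => sepNum_anti (hr j i₀ i₁ h01)
    exact (Finset.sum_eq_sum_iff_of_le h1).1 heq.symm j hj
  obtain ⟨j, hj, hj2⟩ := exists_level (N := fun j => sepNum S₀ (r j i₁)) (M₀ := M₀)
    (fun j _ => sepNum_anti (hrj j i₁)) (one_le_sepNum hne _) ((sepNum_le_card _).trans hc)
  refine ⟨j, hj, ?_⟩
  have h3 : sepNum S₀ (r j i₀) = sepNum S₀ (r (j + 1) i₁) := by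
    rw [← hall j (by simp; omega)]
    exact hj2
  exact exists_stage_set hne (hr0 _ _) ((hrj j i₀).trans (hr (j + 1) i₀ i₁ h01)) h3

end Vale.Agent.P214.NG
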