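import Vale.Agent.P214.NG.Sep

/-!
# P214, block NG (5): the analysis of one stage on the grid
-/

open Set Filter Topology MeasureTheory

set_option linter.all false

namespace Vale.Agent.P214.NG

/-- mean value inequality for functions with derivative bounded above -/
lemma mvt_le {f f' : ℝ → ℝ} {α β K : ℝ} (hαβ : α ≤ β) (h : ∀ u ∈ Icc α β, HasDerivAt f (f' u) u)
    (hb : ∀ u ∈ Icc α β, f' u ≤ K) : f β ≤ f α + K * (β - α) := by
  have h1 := gr1 hαβ (f := f) (f' := f') (R := fun _ => K)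
    (fun u hu => (h u hu).continuousAt.continuousWithinAt)
    (fun x hx => slope_cond (h x ⟨hx.1, hx.2.le⟩) (Eventually.of_forall fun _ => le_rfl) rfl)
    continuousOn_const (fun x hx => hb x ⟨hx.1, hx.2.le⟩) β ⟨hαβ, le_rfl⟩
  rw [intervalIntegral.integral_const, smul_eq_mul] at h1
  linarith

variable {I : ℕ} {h M C₁ ε B₀ : ℝ} {a g b g₁ H H₁ gS H₀ H₀' : ℝ → ℝ}

lemma C2_nonneg (hM : 0 ≤ M) (hC₁ : 0 ≤ C₁) : 0 ≤ C2 M C₁ := by unfold C2; positivity

lemma grid_mem {h : ℝ} (hh : 0 ≤ h) {i I : ℕ} (hi : i ≤ I) : (i * h : ℝ) ∈ Icc (0:ℝ) (I * h) :=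
  ⟨by positivity, by gcongr⟩

lemma int_Y_nonneg {α β : ℝ} (hαβ : α ≤ β) : 0 ≤ ∫ u in α..β, Yp a g u :=
  intervalIntegral.integral_nonneg hαβ fun u _ => Yr_nonneg _ _

lemma int_Y_le {U : ℝ} (he : EPath 0 U M a g b g₁) (hB : ∫ u in (0:ℝ)..U, Yp a g u ≤ B₀)
    {α β : ℝ} (h0 : 0 ≤ α) (hαβ : α ≤ β) (hβ : β ≤ U) : ∫ u in α..β, Yp a g u ≤ B₀ := by
  have hi : ∀ x y, 0 ≤ x → x ≤ y → y ≤ U → IntervalIntegrable (Yp a g) volume x y := by
    intro x y hx hxy hy
    apply ContinuousOn.intervalIntegrable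
    rw [uIcc_of_le hxy]
    exact he.cont_Y.mono (Icc_subset_Icc hx hy)
  have h1 := intervalIntegral.integral_add_adjacent_intervals (hi 0 α le_rfl h0 (hαβ.trans hβ))
    (hi α β h0 hαβ hβ)
  have h2 := intervalIntegral.integral_add_adjacent_intervals (hi 0 β le_rfl (h0.trans hαβ) hβ)
    (hi β U (h0.trans hαβ) hβ le_rfl)
  have h3 : 0 ≤ ∫ u in (0:ℝ)..α, Yp a g u := int_Y_nonneg h0
  have h4 : 0 ≤ ∫ u in β..U, Yp a g u := int_Y_nonneg hβ
  linarith

lemma A_quasi {U : ℝ} (he : EPath 0 U M a g b g₁) (hM : 0 ≤ M) (hC₁ : 0 ≤ C₁)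
    (hB : ∫ u in (0:ℝ)..U, Yp a g u ≤ B₀)
    {α β : ℝ} (h0 : 0 ≤ α) (hαβ : α ≤ β) (hβ : β ≤ U) :
    Real.log (Am a g α) ≤ Real.log (Am a g β) + C2 M C₁ * B₀ := by
  have h1 := (he.mono h0 hβ).A_mono hαβ hM hC₁
  have h2 := int_Y_le he hB h0 hαβ hβ
  have h3 := C2_nonneg hM hC₁
  have h4 : C2 M C₁ * (∫ v in α..β, Yp a g v) ≤ C2 M C₁ * B₀ := by gcongr
  linarith

lemma A_quasi' {U : ℝ} (he : EPath 0 U M a g b g₁) (hM : 0 ≤ M) (hC₁ : 0 ≤ C₁)
    (hB : ∫ u in (0:ℝ)..U, Yp a g u ≤ B₀)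
    {α β : ℝ} (h0 : 0 ≤ α) (hαβ : α ≤ β) (hβ : β ≤ U) :
    Am a g α ≤ Real.exp (C2 M C₁ * B₀) * Am a g β := by
  have h1 := A_quasi he hM hC₁ hB h0 hαβ hβ
  have hα : 0 < Am a g α := he.Apos ⟨h0, hαβ.trans hβ⟩
  have hβ' : 0 < Am a g β := he.Apos ⟨h0.trans hαβ, hβ⟩
  rw [← Real.log_le_log_iff hα (by positivity), Real.log_mul (Real.exp_pos _).ne' hβ'.ne',
    Real.log_exp]
  linarith

/-- growth of a height function over an interval -/
lemma height_le {U : ℝ} (he : EPath 0 U M a g b g₁) (hM : 0 ≤ M) (hC₁ : 0 ≤ C₁)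
    (hε0 : 0 ≤ ε) (hε1 : ε ≤ 1) (hB : ∫ u in (0:ℝ)..U, Yp a g u ≤ B₀)
    (hd : ∀ u ∈ Icc 0 U, HasDerivAt H₀ (H₀' u) u)
    (herr : ∀ u ∈ Icc 0 U, H₀' u ≤ 2 * g u + ε * (g₁ u + C₁ * g u))
    {α β : ℝ} (h0 : 0 ≤ α) (hαβ : α ≤ β) (hβ : β ≤ U) :
    H₀ β ≤ H₀ α + ((2 + C₁) * (2 * Real.exp (C2 M C₁ * B₀)) * (β - α) + 2) * Am a g β := by
  have hβ' : 0 < Am a g β := he.Apos ⟨h0.trans hαβ, hβ⟩
  have hsub : ∀ u ∈ Icc α β, u ∈ Icc 0 U := fun u hu => ⟨h0.trans hu.1, hu.2.trans hβ⟩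
  have h1 := mvt_le (f := fun u => H₀ u - ε * g u) (f' := fun u => H₀' u - ε * g₁ u)
    (K := (2 + C₁) * (2 * Real.exp (C2 M C₁ * B₀)) * Am a g β) hαβ
    (fun u hu => (hd u (hsub u hu)).sub ((he.dg u (hsub u hu)).const_mul ε)) (by
      intro u hu
      have h2 := herr u (hsub u hu)
      have h3 := he.gpos u (hsub u hu)
      have h4 := he.g_le u
      have h5 := A_quasi' he hM hC₁ hB (h0.trans hu.1) hu.2 hβ
      have h6 : H₀' u - ε * g₁ u ≤ (2 + C₁) * g u := by
        have : ε * (C₁ * g u) ≤ 1 * (C₁ * g u) := by gcongr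
        linarith
      have h7 : (2 + C₁) * g u ≤ (2 + C₁) * (2 * (Real.exp (C2 M C₁ * B₀) * Am a g β)) := by
        gcongr; linarith
      calc H₀' u - ε * g₁ u ≤ (2 + C₁) * g u := h6
        _ ≤ _ := h7
        _ = _ := by ring)
  have h2 : 0 < g α := he.gpos α ⟨h0, hαβ.trans hβ⟩
  have h3 : g β ≤ 2 * Am a g β := he.g_le β
  have h5 : ε * g β ≤ 2 * Am a g β := by
    have : 0 < g β := he.gpos β ⟨h0.trans hαβ, hβ⟩
    nlinarith
  have h6 : 0 ≤ ε * g α := by positivity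
  nlinarith

/-- constants of a step -/
noncomputable def C7 (h M C₁ B₀ : ℝ) : ℝ :=
  (2 + C₁) * (2 * Real.exp (C2 M C₁ * B₀)) * h + 2

/-- the threshold -/
noncomputable def Lc (h M C₁ B₀ : ℝ) : ℝ := max (Real.log 2) (Real.log (2 * C7 h M C₁ B₀))

/-- `max L (log (H/A))` at the grid points -/
noncomputable def ell (h M C₁ B₀ : ℝ) (a g H : ℝ → ℝ) (i : ℕ) : ℝ :=
  max (Lc h M C₁ B₀) (Real.log (H (i * h)) - Real.log (Am a g (i * h)))

/-- growth constant of a step -/
noncomputable def ch (h M C₁ B₀ : ℝ) : ℝ := h / 8 * Real.exp (-(C2 M C₁ * B₀ + 5 * h))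

lemma C7_pos (hh : 0 ≤ h) (hM : 0 ≤ M) (hC₁ : 0 ≤ C₁) : 2 ≤ C7 h M C₁ B₀ := by
  unfold C7
  have : 0 ≤ (2 + C₁) * (2 * Real.exp (C2 M C₁ * B₀)) * h := by positivity
  linarith

lemma ell_nonneg : 0 ≤ ell h M C₁ B₀ a g H I :=
  (Real.log_nonneg one_le_two).trans ((le_max_left _ _).trans (le_max_left _ _))

/-- **One step.** -/
theorem step (he : EPath 0 (I * h) M a g b g₁) (hh : HPath 0 (I * h) C₁ ε g b g₁ H H₁ gS)
    (h0 : 0 < h) (h2 : h ≤ 2) (hM : 0 ≤ M) (hC₁ : 0 ≤ C₁) (hε0 : 0 ≤ ε) (hε1 : ε ≤ 1)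
    (hB : ∫ u in (0:ℝ)..(I * h), Yp a g u ≤ B₀) {i : ℕ} (hi : i < I) {θ : ℝ} (hθ0 : 0 ≤ θ)
    (hθ1 : θ ≤ 1 / 4)
    (halt : 2 * Am a g (i * h) ≤ Am a g ((i + 1 : ℕ) * h) ∨
      ∀ u ∈ Icc (i * h : ℝ) ((i + 1 : ℕ) * h), g u - gS u ≤ θ * Am a g u) :
    ell h M C₁ B₀ a g H (i + 1) ≤ ell h M C₁ B₀ a g H i
        + 33 * C2 M C₁ * (∫ u in (i * h : ℝ)..((i + 1 : ℕ) * h), Yp a g u) + 2 * h * θ
        + 32 * ε * (Real.log (Am a g ((i + 1 : ℕ) * h)) - Real.log (Am a g (i * h))) ∧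
      ch h M C₁ B₀ * Real.exp (-ell h M C₁ B₀ a g H i)
        - C2 M C₁ * (∫ u in (i * h : ℝ)..((i + 1 : ℕ) * h), Yp a g u)
        ≤ Real.log (Am a g ((i + 1 : ℕ) * h)) - Real.log (Am a g (i * h)) := by
  set α : ℝ := i * h with hα
  set β : ℝ := ((i + 1 : ℕ) : ℝ) * h with hβ
  have hαβ' : β = α + h := by rw [hα, hβ]; push_cast; ring
  have hα0 : 0 ≤ α := by positivity
  have hαβ : α ≤ β := by linarith
  have hβI : β ≤ I * h := by
    rw [hβ]
    have : ((i + 1 : ℕ) : ℝ) ≤ I := by exact_mod_cast hi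
    gcongr
  have hαm : α ∈ Icc (0:ℝ) (I * h) := ⟨hα0, hαβ.trans hβI⟩
  have hβm : β ∈ Icc (0:ℝ) (I * h) := ⟨hα0.trans hαβ, hβI⟩
  have hC2 := C2_nonneg hM hC₁
  have hAα := he.Apos hαm
  have hAβ := he.Apos hβm
  have hHα := hh.Hpos α hαm
  have hHβ := hh.Hpos β hβm
  have hY0 : 0 ≤ ∫ u in α..β, Yp a g u := int_Y_nonneg hαβ
  have hYB := int_Y_le he hB hα0 hαβ hβI
  have hB0 : 0 ≤ B₀ := hY0.trans hYB
  have hL2 : Real.log 2 ≤ Lc h M C₁ B₀ := le_max_left _ _
  have hlog2 : (0.6931471803:ℝ) < Real.log 2 := Real.log_two_gt_d9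
  have hell : Lc h M C₁ B₀ ≤ ell h M C₁ B₀ a g H i := le_max_left _ _
  have hell0 : 0 ≤ ell h M C₁ B₀ a g H i := by linarith
  rcases halt with hj | hgood
  · -- jump
    have hlogj : Real.log 2 + Real.log (Am a g α) ≤ Real.log (Am a g β) := by
      rw [← Real.log_mul (by norm_num) hAα.ne']
      exact Real.log_le_log (by positivity) hj
    constructor
    · have h3 : ell h M C₁ B₀ a g H (i + 1) ≤ ell h M C₁ B₀ a g H i := by
        unfold ell
        refine max_le (le_max_left _ _) ?_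
        have hHle := height_le he hM hC₁ hε0 hε1 hB hh.dH (fun u hu => by
          have h5 := hh.err2 u hu
          have h6 := hh.le u hu
          linarith) hα0 hαβ hβI
        have hc7 : (2 + C₁) * (2 * Real.exp (C2 M C₁ * B₀)) * (β - α) + 2 = C7 h M C₁ B₀ := by
          unfold C7; rw [hαβ']; ring
        rw [hc7] at hHle
        have hC7 := C7_pos (B₀ := B₀) h0.le hM hC₁
        rcases le_total (H α) (C7 h M C₁ B₀ * Am a g β) with h7 | h7
        · refine le_max_of_le_left (le_trans ?_ (le_max_right _ _))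
          have h8 : H β ≤ 2 * C7 h M C₁ B₀ * Am a g β := by linarith
          have h9 : Real.log (H β) ≤ Real.log (2 * C7 h M C₁ B₀) + Real.log (Am a g β) := by
            rw [← Real.log_mul (by positivity) hAβ.ne']
            exact Real.log_le_log hHβ h8
          linarith
        · refine le_max_of_le_right ?_
          have h8 : H β ≤ 2 * H α := by linarith
          have h9 : Real.log (H β) ≤ Real.log 2 + Real.log (H α) := by
            rw [← Real.log_mul (by norm_num) hHα.ne']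
            exact Real.log_le_log hHβ h8
          show Real.log (H β) - Real.log (Am a g β) ≤ Real.log (H α) - Real.log (Am a g α)
          linarith
      have h4 : 0 ≤ 33 * C2 M C₁ * (∫ u in α..β, Yp a g u) := by positivity
      have h5 : 0 ≤ 2 * h * θ := by positivity
      have h6 : 0 ≤ 32 * ε * (Real.log (Am a g β) - Real.log (Am a g α)) := by
        apply mul_nonneg (by positivity)
        linarith
      linarith
    · have h3 : ch h M C₁ B₀ * Real.exp (-ell h M C₁ B₀ a g H i) ≤ 1 / 4 := by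
        unfold ch
        have e1 : Real.exp (-(C2 M C₁ * B₀ + 5 * h)) ≤ 1 := by
          rw [Real.exp_le_one_iff]
          have : 0 ≤ C2 M C₁ * B₀ := by positivity
          linarith
        have e2 : Real.exp (-ell h M C₁ B₀ a g H i) ≤ 1 := by
          rw [Real.exp_le_one_iff]; linarith
        calc h / 8 * Real.exp (-(C2 M C₁ * B₀ + 5 * h)) * Real.exp (-ell h M C₁ B₀ a g H i)
            ≤ (2 / 8) * 1 * 1 := by gcongr
          _ = 1 / 4 := by norm_num
      have h4 : 0 ≤ C2 M C₁ * (∫ u in α..β, Yp a g u) := by positivity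
      linarith
  · -- good step
    have heI := he.mono hα0 hβI
    have hhI : HPath α β C₁ ε g b g₁ H H₁ gS := by
      have hs : ∀ u ∈ Icc α β, u ∈ Icc (0:ℝ) (I * h) :=
        fun u hu => ⟨hα0.trans hu.1, hu.2.trans hβI⟩
      exact ⟨fun u hu => hh.dH u (hs u hu), fun u hu => hh.Hpos u (hs u hu),
        fun u hu => hh.err1 u (hs u hu), fun u hu => hh.err2 u (hs u hu),
        fun u hu => hh.cs u (hs u hu), fun u hu => hh.le u (hs u hu)⟩
    have hcH : ContinuousOn H (Icc α β) :=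
      fun u hu => (hhI.dH u hu).continuousAt.continuousWithinAt
    have hcn : ContinuousOn (nn a g H) (Icc α β) := by
      unfold nn
      exact (heI.cont_A.div hcH fun u hu => (hhI.Hpos u hu).ne').inf continuousOn_const
    have hgrow := heI.A_growth hhI hαβ hM hC₁ hθ1 hgood hcH
    have hnstep := fun u (hu : u ∈ Icc α β) =>
      heI.n_step hhI hαβ hM hC₁ hθ0 hθ1 hε0 hε1 hgood hL2 hu
    have hnn1 : ∀ u, nn a g H u ≤ 1 := fun u => min_le_right _ _
    have hnn0 : ∀ u ∈ Icc α β, 0 ≤ nn a g H u := fun u hu =>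
      le_min (div_nonneg (heI.Apos hu).le (hhI.Hpos u hu).le) zero_le_one
    have hin : ∀ u ∈ Icc α β, IntervalIntegrable (nn a g H) volume α u := by
      intro u hu
      apply ContinuousOn.intervalIntegrable
      rw [uIcc_of_le hu.1]
      exact hcn.mono (Icc_subset_Icc_right hu.2)
    have hiu : ∀ u ∈ Icc α β, (∫ v in α..u, nn a g H v) ≤ h := by
      intro u hu
      calc (∫ v in α..u, nn a g H v) ≤ ∫ v in α..u, (1:ℝ) :=
            intervalIntegral.integral_mono_on hu.1 (hin u hu)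
              intervalIntegrable_const (fun v _ => hnn1 v)
        _ = u - α := by simp
        _ ≤ h := by linarith [hu.2]
    have hi0 : ∀ u ∈ Icc α β, 0 ≤ (∫ v in α..u, nn a g H v) := fun u hu =>
      intervalIntegral.integral_nonneg hu.1 fun v hv => hnn0 v ⟨hv.1, hv.2.trans hu.2⟩
    have hβI' : β ∈ Icc α β := ⟨hαβ, le_rfl⟩
    constructor
    · have h3 := hnstep β hβI'
      have h4 : max (Lc h M C₁ B₀) (Real.log (H α) - Real.log (Am a g α))
          = ell h M C₁ B₀ a g H i := rfl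
      rw [h4] at h3
      have h5 : (2 * θ + 4 * ε) * (∫ v in α..β, nn a g H v)
          ≤ 2 * h * θ + 32 * ε * ((Real.log (Am a g β) - Real.log (Am a g α))
            + C2 M C₁ * (∫ v in α..β, Yp a g v)) := by
        have h6 : θ * (∫ v in α..β, nn a g H v) ≤ θ * h := by
          gcongr; exact hiu β hβI'
        have h7 : (∫ v in α..β, nn a g H v) ≤ 8 * ((Real.log (Am a g β) - Real.log (Am a g α))
            + C2 M C₁ * (∫ v in α..β, Yp a g v)) := by linarith
        have h8 : ε * (∫ v in α..β, nn a g H v) ≤ ε * (8 * ((Real.log (Am a g β)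
            - Real.log (Am a g α)) + C2 M C₁ * (∫ v in α..β, Yp a g v))) := by gcongr
        linarith
      have h6 : ε * (C2 M C₁ * (∫ v in α..β, Yp a g v))
          ≤ 1 * (C2 M C₁ * (∫ v in α..β, Yp a g v)) := by gcongr
      have h9 : 0 ≤ C2 M C₁ * (∫ v in α..β, Yp a g v) := by positivity
      have h10 : Real.log (H β) - Real.log (Am a g β) ≤ ell h M C₁ B₀ a g H i
        + 33 * C2 M C₁ * (∫ u in α..β, Yp a g u) + 2 * h * θ
        + 32 * ε * (Real.log (Am a g β) - Real.log (Am a g α)) := by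
        linarith
      have h11 : Lc h M C₁ B₀ ≤ ell h M C₁ B₀ a g H i
        + 33 * C2 M C₁ * (∫ u in α..β, Yp a g u) + 2 * h * θ
        + 32 * ε * (Real.log (Am a g β) - Real.log (Am a g α)) := by
        have h12 : 0 ≤ (∫ v in α..β, nn a g H v) := hi0 β hβI'
        have h13 : -(C2 M C₁ * (∫ v in α..β, Yp a g v))
            ≤ Real.log (Am a g β) - Real.log (Am a g α) := by linarith
        have h14 : ε * (-(C2 M C₁ * (∫ v in α..β, Yp a g v)))
            ≤ ε * (Real.log (Am a g β) - Real.log (Am a g α)) := by gcongr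
        have h15 : 0 ≤ h * θ := by positivity
        linarith
      exact max_le h11 h10
    · -- growth
      set ℓ := ell h M C₁ B₀ a g H i with hℓ
      have hlow : ∀ u ∈ Icc α β,
          Real.exp (-(ℓ + (C2 M C₁ * B₀ + 5 * h))) ≤ nn a g H u := by
        intro u hu
        have h3 := hnstep u hu
        have h4 : max (Lc h M C₁ B₀) (Real.log (H α) - Real.log (Am a g α)) = ℓ := rfl
        rw [h4] at h3
        have hAu := heI.Apos hu
        have hHu := hhI.Hpos u hu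
        have h5 : C2 M C₁ * (∫ v in α..u, Yp a g v) ≤ C2 M C₁ * B₀ := by
          gcongr
          exact int_Y_le he hB hα0 hu.1 (hu.2.trans hβI)
        have h6 : (2 * θ + 4 * ε) * (∫ v in α..u, nn a g H v) ≤ 5 * h := by
          have := hiu u hu
          calc (2 * θ + 4 * ε) * (∫ v in α..u, nn a g H v)
              ≤ (2 * (1 / 4) + 4 * 1) * h := by
                gcongr
                exact hi0 u hu
            _ ≤ 5 * h := by linarith
        unfold nn
        refine le_min ?_ ?_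
        · rw [← Real.exp_log (div_pos hAu hHu), Real.log_div hAu.ne' hHu.ne']
          apply Real.exp_le_exp.2
          linarith
        · rw [Real.exp_le_one_iff]
          have : 0 ≤ C2 M C₁ * B₀ := by positivity
          linarith
      have h3 : h * Real.exp (-(ℓ + (C2 M C₁ * B₀ + 5 * h))) ≤ ∫ v in α..β, nn a g H v := by
        calc h * Real.exp (-(ℓ + (C2 M C₁ * B₀ + 5 * h)))
            = ∫ v in α..β, Real.exp (-(ℓ + (C2 M C₁ * B₀ + 5 * h))) := by
              rw [intervalIntegral.integral_const, smul_eq_mul, hαβ']; ring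
          _ ≤ _ := intervalIntegral.integral_mono_on hαβ intervalIntegrable_const
              (hin β hβI') (fun v hv => hlow v hv)
      have h4 : ch h M C₁ B₀ * Real.exp (-ℓ)
          = 1 / 8 * (h * Real.exp (-(ℓ + (C2 M C₁ * B₀ + 5 * h)))) := by
        unfold ch
        rw [show -(ℓ + (C2 M C₁ * B₀ + 5 * h)) = -(C2 M C₁ * B₀ + 5 * h) + -ℓ by ring,
          Real.exp_add]
        ring
      rw [h4]
      linarith

end Vale.Agent.P214.NG
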