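import Vale.Agent.P214.NG.MultiL

/-!
# P214, block NG (PathK, 1): a stage with jumps over `n` steps and summable gap costs
-/

open Set Filter Topology MeasureTheory

set_option linter.all false

namespace Vale.Agent.P214.NG

variable {N : ℕ} {U h M C₁ ε B₀ : ℝ} {a g b g₁ H H₁ gS H₀ H₀' : ℝ → ℝ}

/-- **A good step**, with the cost `2 h θ` of the gap. -/
theorem good_stepK (he : EPath 0 U M a g b g₁) {α β : ℝ}
    (hh : HPath α β C₁ ε g b g₁ H H₁ gS) (hβα : β = α + h) (h0 : 0 < h) (h2 : h ≤ 2)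
    (hM : 0 ≤ M) (hC₁ : 0 ≤ C₁) (hα0 : 0 ≤ α) (hβU : β ≤ U)
    (hB : ∫ u in (0:ℝ)..U, Yp a g u ≤ B₀) {θ L : ℝ} (hθ0 : 0 ≤ θ) (hθ1 : θ ≤ 1 / 4)
    (hε0 : 0 ≤ ε) (hε1 : ε ≤ 1) (hL2 : Real.log 2 ≤ L)
    (hgood : ∀ u ∈ Icc α β, g u - gS u ≤ θ * Am a g u) :
    elU L a g H β ≤ elU L a g H α + 33 * C2 M C₁ * (∫ u in α..β, Yp a g u) + 2 * h * θ
        + 32 * ε * (Real.log (Am a g β) - Real.log (Am a g α)) := by
  have hαβ : α ≤ β := by linarith
  have hC2 := C2_nonneg hM hC₁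
  have hY0 : 0 ≤ ∫ u in α..β, Yp a g u := int_Y_nonneg hαβ
  have heI := he.mono hα0 hβU
  have hcH : ContinuousOn H (Icc α β) :=
    fun u hu => (hh.dH u hu).continuousAt.continuousWithinAt
  have hcn : ContinuousOn (nn a g H) (Icc α β) := by
    unfold nn
    exact (heI.cont_A.div hcH fun u hu => (hh.Hpos u hu).ne').inf continuousOn_const
  have hgrow := heI.A_growth hh hαβ hM hC₁ hθ1 hgood hcH
  have hβI' : β ∈ Icc α β := ⟨hαβ, le_rfl⟩
  have h3 := heI.n_step hh hαβ hM hC₁ hθ0 hθ1 hε0 hε1 hgood hL2 hβI'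
  have hnn1 : ∀ u, nn a g H u ≤ 1 := fun u => min_le_right _ _
  have hnn0 : ∀ u ∈ Icc α β, 0 ≤ nn a g H u := fun u hu =>
    le_min (div_nonneg (heI.Apos hu).le (hh.Hpos u hu).le) zero_le_one
  have hin : IntervalIntegrable (nn a g H) volume α β := by
    apply ContinuousOn.intervalIntegrable
    rw [uIcc_of_le hαβ]
    exact hcn
  have hiu : (∫ v in α..β, nn a g H v) ≤ h := by
    calc (∫ v in α..β, nn a g H v) ≤ ∫ v in α..β, (1:ℝ) :=
          intervalIntegral.integral_mono_on hαβ hin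
            intervalIntegrable_const (fun v _ => hnn1 v)
      _ = β - α := by simp
      _ ≤ h := by linarith
  have hi0 : 0 ≤ (∫ v in α..β, nn a g H v) :=
    intervalIntegral.integral_nonneg hαβ fun v hv => hnn0 v hv
  have h4 : max L (Real.log (H α) - Real.log (Am a g α)) = elU L a g H α := rfl
  rw [h4] at h3
  have h5 : (2 * θ + 4 * ε) * (∫ v in α..β, nn a g H v)
      ≤ 2 * h * θ + 32 * ε * ((Real.log (Am a g β) - Real.log (Am a g α))
        + C2 M C₁ * (∫ v in α..β, Yp a g v)) := by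
    have h6 : θ * (∫ v in α..β, nn a g H v) ≤ θ * h := by gcongr
    have h7 : (∫ v in α..β, nn a g H v) ≤ 8 * ((Real.log (Am a g β) - Real.log (Am a g α))
        + C2 M C₁ * (∫ v in α..β, Yp a g v)) := by linarith
    have h8 : ε * (∫ v in α..β, nn a g H v) ≤ ε * (8 * ((Real.log (Am a g β)
        - Real.log (Am a g α)) + C2 M C₁ * (∫ v in α..β, Yp a g v))) := by gcongr
    linarith
  have h6 : ε * (C2 M C₁ * (∫ v in α..β, Yp a g v))
      ≤ 1 * (C2 M C₁ * (∫ v in α..β, Yp a g v)) := by gcongr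
  have h9 : 0 ≤ C2 M C₁ * (∫ v in α..β, Yp a g v) := by positivity
  have h13 : -(C2 M C₁ * (∫ v in α..β, Yp a g v))
      ≤ Real.log (Am a g β) - Real.log (Am a g α) := by linarith
  have h14 : ε * (-(C2 M C₁ * (∫ v in α..β, Yp a g v)))
      ≤ ε * (Real.log (Am a g β) - Real.log (Am a g α)) := by gcongr
  have hLe : L ≤ elU L a g H α := le_max_left _ _
  have h15 : 0 ≤ h * θ := by positivity
  refine max_le ?_ ?_
  · linarith
  · linarith

/-- the bound of the frequency along a stage -/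
noncomputable def Fr (h M C₁ ε L : ℝ) (a g H : ℝ → ℝ) (θ : ℕ → ℝ) (i₀ c : ℕ) : ℝ :=
  elU L a g H (i₀ * h) + 33 * C2 M C₁ * (∫ u in (i₀ * h : ℝ)..((i₀ + c : ℕ) * h), Yp a g u)
    + 2 * h * (∑ k ∈ Finset.range c, θ (i₀ + k)) + 32 * ε * (Gl a g h (i₀ + c) - Gl a g h i₀)

/-- the bound of the growth along a stage -/
noncomputable def Gr (n : ℕ) (h M C₁ B₀ L : ℝ) (a g H : ℝ → ℝ) (i₀ c : ℕ) : ℝ :=
  (∑ k ∈ Finset.range c, ch h M C₁ B₀ / n * Real.exp (-elU L a g H ((i₀ + k : ℕ) * h)))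
    - C2 M C₁ * (∫ u in (i₀ * h : ℝ)..((i₀ + c : ℕ) * h), Yp a g u)

/-- the jump from `c` to `c + n` -/
theorem jump_inv (he : EPath 0 (N * h) M a g b g₁) {i₀ n : ℕ} (hn1 : 1 ≤ n)
    (hh : HPath (i₀ * h) (N * h) C₁ ε g b g₁ H H₁ gS)
    (h0 : 0 < h) (h2 : h ≤ 2) (hM : 0 ≤ M) (hC₁ : 0 ≤ C₁) (hB0 : 0 ≤ B₀)
    (hB : ∫ u in (0:ℝ)..(N * h), Yp a g u ≤ B₀) {L : ℝ} {θ : ℕ → ℝ} (hθ0 : ∀ i, 0 ≤ θ i)
    (hε0 : 0 ≤ ε) (hε1 : ε ≤ 1) (hL2 : Real.log 2 ≤ L)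
    (hL7 : Real.log (2 * C7L n h M C₁ B₀) ≤ L) {c : ℕ} (hc : i₀ + (c + n) ≤ N)
    (hj : 2 * Ag a g h (i₀ + c) ≤ Ag a g h (i₀ + c + n))
    (h1 : elU L a g H ((i₀ + c : ℕ) * h) ≤ Fr h M C₁ ε L a g H θ i₀ c)
    (h3 : Gr n h M C₁ B₀ L a g H i₀ c ≤ Gl a g h (i₀ + c) - Gl a g h i₀) :
    elU L a g H ((i₀ + (c + n) : ℕ) * h) ≤ Fr h M C₁ ε L a g H θ i₀ (c + n) ∧
      Gr n h M C₁ B₀ L a g H i₀ (c + n) ≤ Gl a g h (i₀ + (c + n)) - Gl a g h i₀ := by
  have hC2 := C2_nonneg hM hC₁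
  have hch := ch_le (h := h) h0.le h2 hM hC₁ hB0
  have hch0 : 0 ≤ ch h M C₁ B₀ := by unfold ch; positivity
  have hn0 : (0 : ℝ) < n := by exact_mod_cast hn1
  have hlog2 : (0.6931471803:ℝ) < Real.log 2 := Real.log_two_gt_d9
  have hcast : ∀ {x y : ℕ}, x ≤ y → (x : ℝ) * h ≤ (y : ℝ) * h := fun hxy =>
    mul_le_mul_of_nonneg_right (Nat.cast_le.2 hxy) h0.le
  have hnn : ∀ x : ℕ, (0 : ℝ) ≤ x * h := fun x => by positivity
  have hexp1 : ∀ u, Real.exp (-elU L a g H u) ≤ 1 := by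
    intro u
    rw [Real.exp_le_one_iff]
    have : L ≤ elU L a g H u := le_max_left _ _
    linarith
  have hle1 : (i₀ : ℝ) * h ≤ ((i₀ + c : ℕ) : ℝ) * h := hcast (by omega)
  have hle2 : ((i₀ + c : ℕ) : ℝ) * h ≤ ((i₀ + (c + n) : ℕ) : ℝ) * h := hcast (by omega)
  have hle3 : ((i₀ + (c + n) : ℕ) : ℝ) * h ≤ N * h := hcast (by omega)
  obtain ⟨s1, s2⟩ := jump_step (n := n) he (hh.mono hle1 hle3) h0.le hle2
    (by push_cast; ring_nf; rfl) hM hC₁ (hnn _) hle3 hB hε0 hε1 hL7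
    (by
      have : i₀ + (c + n) = i₀ + c + n := by omega
      rw [this]; exact hj)
  have hadd := intervalIntegral.integral_add_adjacent_intervals
    (Yp_int he (hnn _) hle1 (hle2.trans hle3)) (Yp_int he (hnn _) hle2 hle3)
  have hY0 : 0 ≤ ∫ u in (((i₀ + c : ℕ) : ℝ) * h)..(((i₀ + (c + n) : ℕ) : ℝ) * h), Yp a g u :=
    int_Y_nonneg hle2
  have hCY : 0 ≤ C2 M C₁ *
      ∫ u in (((i₀ + c : ℕ) : ℝ) * h)..(((i₀ + (c + n) : ℕ) : ℝ) * h), Yp a g u := by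
    positivity
  have hG : Gl a g h (i₀ + c) + Real.log 2 ≤ Gl a g h (i₀ + (c + n)) := by
    unfold Gl; linarith
  unfold Fr Gr at *
  rw [← hadd]
  constructor
  · have h5 : 0 ≤ ε * (Gl a g h (i₀ + (c + n)) - Gl a g h (i₀ + c)) :=
      mul_nonneg hε0 (by linarith)
    have h6 : ∑ k ∈ Finset.range c, θ (i₀ + k) ≤ ∑ k ∈ Finset.range (c + n), θ (i₀ + k) := by
      rw [Finset.sum_range_add]
      have : 0 ≤ ∑ k ∈ Finset.range n, θ (i₀ + (c + k)) :=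
        Finset.sum_nonneg fun k _ => hθ0 _
      linarith
    have h7 : 2 * h * (∑ k ∈ Finset.range c, θ (i₀ + k))
        ≤ 2 * h * (∑ k ∈ Finset.range (c + n), θ (i₀ + k)) := by gcongr
    linarith
  · rw [Finset.sum_range_add]
    have h5 : ∑ k ∈ Finset.range n,
        ch h M C₁ B₀ / n * Real.exp (-elU L a g H ((i₀ + (c + k) : ℕ) * h)) ≤ 1 / 4 := by
      calc _ ≤ ∑ k ∈ Finset.range n, ch h M C₁ B₀ / n * 1 := by
            refine Finset.sum_le_sum fun k _ => ?_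
            exact mul_le_mul_of_nonneg_left (hexp1 _) (by positivity)
        _ = ch h M C₁ B₀ := by
            rw [Finset.sum_const, Finset.card_range, nsmul_eq_mul, mul_one]
            field_simp
        _ ≤ 1 / 4 := hch
    linarith

/-- the invariant of the induction over the steps of a stage -/
theorem stage_invK (he : EPath 0 (N * h) M a g b g₁) {i₀ i₁ n : ℕ} (hn1 : 1 ≤ n)
    (hiN : i₁ + n ≤ N) (hh : HPath (i₀ * h) (N * h) C₁ ε g b g₁ H H₁ gS)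
    (h0 : 0 < h) (h2 : h ≤ 2) (hM : 0 ≤ M) (hC₁ : 0 ≤ C₁) (hB0 : 0 ≤ B₀)
    (hB : ∫ u in (0:ℝ)..(N * h), Yp a g u ≤ B₀) {L : ℝ} {θ : ℕ → ℝ} (hθ0 : ∀ i, 0 ≤ θ i)
    (hθ1 : ∀ i, θ i ≤ 1 / 4)
    (hε0 : 0 ≤ ε) (hε1 : ε ≤ 3 / 4) (hL2 : Real.log 2 ≤ L)
    (hL7 : Real.log (2 * C7L n h M C₁ B₀) ≤ L)
    (halt : ∀ i, i₀ ≤ i → i < i₁ → (2 * Ag a g h i ≤ Ag a g h (i + n) ∨
      ∀ u ∈ Icc (i * h : ℝ) ((i + 1 : ℕ) * h), g u - gS u ≤ θ i * Am a g u)) (m : ℕ)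
    (hm : i₀ + m ≤ i₁) :
    ∃ c ≤ m, m < c + n ∧ (c < m → 2 * Ag a g h (i₀ + c) ≤ Ag a g h (i₀ + c + n)) ∧
      elU L a g H ((i₀ + c : ℕ) * h) ≤ Fr h M C₁ ε L a g H θ i₀ c ∧
      Gr n h M C₁ B₀ L a g H i₀ c ≤ Gl a g h (i₀ + c) - Gl a g h i₀ := by
  have hC2 := C2_nonneg hM hC₁
  have hch0 : 0 ≤ ch h M C₁ B₀ := by unfold ch; positivity
  have hn1' : (1 : ℝ) ≤ n := by exact_mod_cast hn1
  have hcast : ∀ {x y : ℕ}, x ≤ y → (x : ℝ) * h ≤ (y : ℝ) * h := fun hxy =>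
    mul_le_mul_of_nonneg_right (Nat.cast_le.2 hxy) h0.le
  have hnn : ∀ x : ℕ, (0 : ℝ) ≤ x * h := fun x => by positivity
  induction m with
  | zero =>
    refine ⟨0, le_rfl, by omega, fun h => absurd h (lt_irrefl _), ?_, ?_⟩
    · unfold Fr; simp
    · unfold Gr; simp
  | succ m ih =>
    obtain ⟨c, hcm, hmc, hcj, h1, h3⟩ := ih (by omega)
    by_cases hj : 2 * Ag a g h (i₀ + c) ≤ Ag a g h (i₀ + c + n)
    · -- a jump starts at `c`
      by_cases hlast : m + 1 < c + n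
      · exact ⟨c, by omega, hlast, fun _ => hj, h1, h3⟩
      · obtain ⟨k1, k2⟩ := jump_inv he hn1 hh h0 h2 hM hC₁ hB0 hB hθ0 hε0 (by linarith) hL2 hL7
          (c := c) (by omega) hj h1 h3
        refine ⟨c + n, by omega, by omega, fun h => absurd h (by omega), k1, k2⟩
    · -- no jump: then `c = m` and the step is good
      have hcm' : c = m := by
        by_contra hne
        exact hj (hcj (by omega))
      subst hcm'
      have hgood := (halt (i₀ + c) (by omega) (by omega)).resolve_left hj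
      have hle1 : (i₀ : ℝ) * h ≤ ((i₀ + c : ℕ) : ℝ) * h := hcast (by omega)
      have hle2 : ((i₀ + c : ℕ) : ℝ) * h ≤ ((i₀ + (c + 1) : ℕ) : ℝ) * h := hcast (by omega)
      have hle3 : ((i₀ + (c + 1) : ℕ) : ℝ) * h ≤ N * h := hcast (by omega)
      have s1 := good_stepK he (hh.mono hle1 hle3) (by push_cast; ring) h0 h2 hM hC₁
        (hnn _) hle3 hB (hθ0 _) (hθ1 _) hε0 (by linarith) hL2 hgood
      obtain ⟨-, s2⟩ := good_step he (hh.mono hle1 hle3) (by push_cast; ring) h0 h2 hM hC₁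
        (hnn _) hle3 hB (hθ0 _) (hθ1 _) hε0 (by linarith [hθ1 (i₀ + c)]) hL2 hgood
      have hadd := intervalIntegral.integral_add_adjacent_intervals
        (Yp_int he (hnn _) hle1 (hle2.trans hle3)) (Yp_int he (hnn _) hle2 hle3)
      refine ⟨c + 1, le_rfl, by omega, fun h => absurd h (lt_irrefl _), ?_, ?_⟩
      · unfold Fr at h1 ⊢
        rw [← hadd, Finset.sum_range_succ]
        unfold Gl at h1 ⊢
        linarith
      · unfold Gr at h3 ⊢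
        rw [← hadd, Finset.sum_range_succ]
        have h5 : ch h M C₁ B₀ / n * Real.exp (-elU L a g H ((i₀ + c : ℕ) * h))
            ≤ ch h M C₁ B₀ * Real.exp (-elU L a g H ((i₀ + c : ℕ) * h)) := by
          apply mul_le_mul_of_nonneg_right _ (Real.exp_pos _).le
          exact div_le_self hch0 hn1'
        unfold Gl at h3 ⊢
        linarith

end Vale.Agent.P214.NG
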