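import Vale.Agent.P214.NG.StageK

/-!
# P214, block NG (PathK, 2): the stage inequality
-/

open Set Filter Topology MeasureTheory

set_option linter.all false

namespace Vale.Agent.P214.NG

variable {N : ℕ} {U h M C₁ ε B₀ : ℝ} {a g b g₁ H H₁ gS H₀ H₀' : ℝ → ℝ}

/-- constant of the stage inequality -/
noncomputable def K1K (h M C₁ B₀ : ℝ) : ℝ := 66 * (C2 M C₁ * B₀) + 1 + 2 * h

/-- bound of the frequency at all indices of a stage -/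
theorem freq_boundK (he : EPath 0 (N * h) M a g b g₁) {i₀ i₁ n : ℕ} (hn1 : 1 ≤ n)
    (hiN : i₁ + n ≤ N) (hh : HPath (i₀ * h) (N * h) C₁ ε g b g₁ H H₁ gS)
    (h0 : 0 < h) (h2 : h ≤ 2) (hM : 0 ≤ M) (hC₁ : 0 ≤ C₁) (hB0 : 0 ≤ B₀)
    (hB : ∫ u in (0:ℝ)..(N * h), Yp a g u ≤ B₀) {θ : ℕ → ℝ} (hθ0 : ∀ i, 0 ≤ θ i)
    (hθ1 : ∀ i, θ i ≤ 1 / 4) {I : ℕ} (hI : i₁ ≤ I) (hθs : ∑ i ∈ Finset.range I, θ i ≤ 1)
    (hε0 : 0 ≤ ε) (hε1 : ε ≤ 3 / 4)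
    (halt : ∀ i, i₀ ≤ i → i < i₁ → (2 * Ag a g h i ≤ Ag a g h (i + n) ∨
      ∀ u ∈ Icc (i * h : ℝ) ((i + 1 : ℕ) * h), g u - gS u ≤ θ i * Am a g u)) {m : ℕ}
    (hm : i₀ + m ≤ i₁) {k : ℕ} (hk : k ≤ m) :
    elU (LcL n h M C₁ B₀) a g H ((i₀ + k : ℕ) * h)
      ≤ elU (LcL n h M C₁ B₀) a g H (i₀ * h) + K1K h M C₁ B₀
        + 32 * ε * (Gl a g h (i₀ + m) - Gl a g h i₀) := by
  have hC2 := C2_nonneg hM hC₁
  have hlog2' : Real.log 2 < (0.6931471808 : ℝ) := Real.log_two_lt_d9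
  have hL2 : Real.log 2 ≤ LcL n h M C₁ B₀ := le_max_left _ _
  have hL7 : Real.log (2 * C7L n h M C₁ B₀) ≤ LcL n h M C₁ B₀ := le_max_right _ _
  have hcast : ∀ {x y : ℕ}, x ≤ y → (x : ℝ) * h ≤ (y : ℝ) * h := fun hxy =>
    mul_le_mul_of_nonneg_right (Nat.cast_le.2 hxy) h0.le
  have hnn : ∀ x : ℕ, (0 : ℝ) ≤ x * h := fun x => by positivity
  have hC2B : 0 ≤ C2 M C₁ * B₀ := by positivity
  obtain ⟨c, hck, hkc, -, h1, -⟩ := stage_invK he hn1 hiN hh h0 h2 hM hC₁ hB0 hB hθ0 hθ1 hε0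
    hε1 hL2 hL7 halt k (by omega)
  have hle1 : (i₀ : ℝ) * h ≤ ((i₀ + c : ℕ) : ℝ) * h := hcast (by omega)
  have hle2 : ((i₀ + c : ℕ) : ℝ) * h ≤ ((i₀ + k : ℕ) : ℝ) * h := hcast (by omega)
  have hle2' : ((i₀ + c : ℕ) : ℝ) * h ≤ ((i₀ + m : ℕ) : ℝ) * h := hcast (by omega)
  have hle3 : ((i₀ + k : ℕ) : ℝ) * h ≤ N * h := hcast (by omega)
  have hle3' : ((i₀ + m : ℕ) : ℝ) * h ≤ N * h := hcast (by omega)
  have hmid := mid_step (n := n) he (hh.mono hle1 hle3) h0.le hle2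
    (by
      have : ((i₀ + k : ℕ) : ℝ) ≤ ((i₀ + c : ℕ) : ℝ) + n := by
        exact_mod_cast (show i₀ + k ≤ i₀ + c + n by omega)
      nlinarith) hM hC₁ (hnn _) hle3 hB hε0 (by linarith) hL7
  have hYa := int_Y_le he hB (hnn i₀) hle1 (hle2.trans hle3)
  have hYb := int_Y_le he hB (hnn (i₀ + c)) hle2 hle3
  have hG := A_quasi he hM hC₁ hB (hnn (i₀ + c)) hle2' hle3'
  have h5 : C2 M C₁ * (∫ u in (i₀ * h : ℝ)..((i₀ + c : ℕ) * h), Yp a g u) ≤ C2 M C₁ * B₀ := by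
    gcongr
  have h6 : C2 M C₁ * (∫ u in (((i₀ + c : ℕ) : ℝ) * h)..((i₀ + k : ℕ) * h), Yp a g u)
      ≤ C2 M C₁ * B₀ := by gcongr
  have h7 : ε * (Gl a g h (i₀ + c) - Gl a g h i₀)
      ≤ ε * ((Gl a g h (i₀ + m) - Gl a g h i₀) + C2 M C₁ * B₀) := by
    apply mul_le_mul_of_nonneg_left _ hε0
    unfold Gl; linarith
  have h8 : ε * (C2 M C₁ * B₀) ≤ 1 * (C2 M C₁ * B₀) := by
    apply mul_le_mul_of_nonneg_right _ hC2B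
    linarith
  have h9 := sum_theta_le (I := I) hθ0 (i₀ := i₀) (n := c) (by omega) hθs
  have h10 : 2 * h * (∑ k ∈ Finset.range c, θ (i₀ + k)) ≤ 2 * h * 1 := by gcongr
  unfold Fr at h1
  unfold K1K
  linarith

/-- the sum over a stage -/
theorem sum_boundK (he : EPath 0 (N * h) M a g b g₁) {i₀ i₁ n : ℕ} (hn1 : 1 ≤ n)
    (hiN : i₁ + n ≤ N) (hh : HPath (i₀ * h) (N * h) C₁ ε g b g₁ H H₁ gS)
    (h0 : 0 < h) (h2 : h ≤ 2) (hM : 0 ≤ M) (hC₁ : 0 ≤ C₁) (hB0 : 0 ≤ B₀)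
    (hB : ∫ u in (0:ℝ)..(N * h), Yp a g u ≤ B₀) {θ : ℕ → ℝ} (hθ0 : ∀ i, 0 ≤ θ i)
    (hθ1 : ∀ i, θ i ≤ 1 / 4) (hε0 : 0 ≤ ε) (hε1 : ε ≤ 3 / 4)
    (halt : ∀ i, i₀ ≤ i → i < i₁ → (2 * Ag a g h i ≤ Ag a g h (i + n) ∨
      ∀ u ∈ Icc (i * h : ℝ) ((i + 1 : ℕ) * h), g u - gS u ≤ θ i * Am a g u)) {m : ℕ}
    (hm : i₀ + m ≤ i₁) :
    ∑ k ∈ Finset.range m,
      ch h M C₁ B₀ / n * Real.exp (-elU (LcL n h M C₁ B₀) a g H ((i₀ + k : ℕ) * h))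
      ≤ (Gl a g h (i₀ + m) - Gl a g h i₀) + C2 M C₁ * B₀ + 1 / 4 := by
  have hC2 := C2_nonneg hM hC₁
  have hch := ch_le (h := h) h0.le h2 hM hC₁ hB0
  have hch0 : 0 ≤ ch h M C₁ B₀ := by unfold ch; positivity
  have hn0 : (0 : ℝ) < n := by exact_mod_cast hn1
  have hlog2 : (0.6931471803:ℝ) < Real.log 2 := Real.log_two_gt_d9
  have hL2 : Real.log 2 ≤ LcL n h M C₁ B₀ := le_max_left _ _
  have hL7 : Real.log (2 * C7L n h M C₁ B₀) ≤ LcL n h M C₁ B₀ := le_max_right _ _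
  have hcast : ∀ {x y : ℕ}, x ≤ y → (x : ℝ) * h ≤ (y : ℝ) * h := fun hxy =>
    mul_le_mul_of_nonneg_right (Nat.cast_le.2 hxy) h0.le
  have hnn : ∀ x : ℕ, (0 : ℝ) ≤ x * h := fun x => by positivity
  obtain ⟨c, hcm, hmc, -, -, h3⟩ := stage_invK he hn1 hiN hh h0 h2 hM hC₁ hB0 hB hθ0 hθ1 hε0
    hε1 hL2 hL7 halt m hm
  obtain ⟨r, rfl⟩ := Nat.exists_eq_add_of_le hcm
  rw [Finset.sum_range_add]
  have h5 : ∑ k ∈ Finset.range r,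
      ch h M C₁ B₀ / n * Real.exp (-elU (LcL n h M C₁ B₀) a g H ((i₀ + (c + k) : ℕ) * h))
        ≤ 1 / 4 := by
    calc _ ≤ ∑ k ∈ Finset.range r, ch h M C₁ B₀ / n * 1 := by
          refine Finset.sum_le_sum fun k _ => ?_
          refine mul_le_mul_of_nonneg_left ?_ (by positivity)
          rw [Real.exp_le_one_iff]
          have : LcL n h M C₁ B₀ ≤ elU (LcL n h M C₁ B₀) a g H ((i₀ + (c + k) : ℕ) * h) :=
            le_max_left _ _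
          linarith
      _ = r * (ch h M C₁ B₀ / n) := by
          rw [Finset.sum_const, Finset.card_range, nsmul_eq_mul, mul_one]
      _ ≤ n * (ch h M C₁ B₀ / n) := by
          apply mul_le_mul_of_nonneg_right _ (by positivity)
          exact_mod_cast (show r ≤ n by omega)
      _ = ch h M C₁ B₀ := by field_simp
      _ ≤ 1 / 4 := hch
  have hle1 : (i₀ : ℝ) * h ≤ ((i₀ + c : ℕ) : ℝ) * h := hcast (by omega)
  have hle2 : ((i₀ + c : ℕ) : ℝ) * h ≤ ((i₀ + (c + r) : ℕ) : ℝ) * h := hcast (by omega)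
  have hle3 : ((i₀ + (c + r) : ℕ) : ℝ) * h ≤ N * h := hcast (by omega)
  have hadd := intervalIntegral.integral_add_adjacent_intervals
    (Yp_int he (hnn _) hle1 (hle2.trans hle3)) (Yp_int he (hnn _) hle2 hle3)
  have hAm := (he.mono (hnn (i₀ + c)) hle3).A_mono hle2 hM hC₁
  have hY := int_Y_le he hB (hnn i₀) (hle1.trans hle2) hle3
  have h6 : C2 M C₁ * (∫ u in (i₀ * h : ℝ)..((i₀ + (c + r) : ℕ) * h), Yp a g u)
      ≤ C2 M C₁ * B₀ := by gcongr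
  rw [← hadd, mul_add] at h6
  unfold Gr at h3
  unfold Gl at h3 ⊢
  linarith

/-- **The stage inequality.** -/
theorem stage_boundK (he : EPath 0 (N * h) M a g b g₁) {i₀ i₁ n : ℕ} (hn1 : 1 ≤ n)
    (hiN : i₁ + n ≤ N) (hh : HPath (i₀ * h) (N * h) C₁ ε g b g₁ H H₁ gS)
    (h0 : 0 < h) (h2 : h ≤ 2) (hM : 0 ≤ M) (hC₁ : 0 ≤ C₁) (hB0 : 0 ≤ B₀)
    (hB : ∫ u in (0:ℝ)..(N * h), Yp a g u ≤ B₀) {θ : ℕ → ℝ} (hθ0 : ∀ i, 0 ≤ θ i)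
    (hθ1 : ∀ i, θ i ≤ 1 / 4) {I : ℕ} (hI : i₁ ≤ I) (hθs : ∑ i ∈ Finset.range I, θ i ≤ 1)
    (hε0 : 0 ≤ ε) (hε1 : ε ≤ 3 / 4)
    (halt : ∀ i, i₀ ≤ i → i < i₁ → (2 * Ag a g h i ≤ Ag a g h (i + n) ∨
      ∀ u ∈ Icc (i * h : ℝ) ((i + 1 : ℕ) * h), g u - gS u ≤ θ i * Am a g u)) {m : ℕ}
    (hm : i₀ + m ≤ i₁) :
    m * (ch h M C₁ B₀ / n * Real.exp (-(elU (LcL n h M C₁ B₀) a g H (i₀ * h) + K1K h M C₁ B₀
        + 32 * ε * (Gl a g h (i₀ + m) - Gl a g h i₀))))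
      ≤ (Gl a g h (i₀ + m) - Gl a g h i₀) + C2 M C₁ * B₀ + 1 / 4 := by
  have hch0 : 0 ≤ ch h M C₁ B₀ := by unfold ch; positivity
  have hsum := sum_boundK he hn1 hiN hh h0 h2 hM hC₁ hB0 hB hθ0 hθ1 hε0 hε1 halt hm
  have h7 : ∀ k ∈ Finset.range m, ch h M C₁ B₀ / n * Real.exp (-(elU (LcL n h M C₁ B₀) a g H
      (i₀ * h) + K1K h M C₁ B₀ + 32 * ε * (Gl a g h (i₀ + m) - Gl a g h i₀)))
      ≤ ch h M C₁ B₀ / n * Real.exp (-elU (LcL n h M C₁ B₀) a g H ((i₀ + k : ℕ) * h)) := by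
    intro k hk
    rw [Finset.mem_range] at hk
    have := freq_boundK he hn1 hiN hh h0 h2 hM hC₁ hB0 hB hθ0 hθ1 hI hθs hε0 hε1 halt hm hk.le
    apply mul_le_mul_of_nonneg_left _ (by positivity)
    apply Real.exp_le_exp.2
    linarith
  have h8 := Finset.sum_le_sum h7
  rw [Finset.sum_const, Finset.card_range, nsmul_eq_mul] at h8
  linarith

end Vale.Agent.P214.NG
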