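import Vale.Agent.P214.NG.DataL
import Vale.Agent.P214.NG.Stage

/-!
# P214, block NG-L (2): one good step with a constant threshold, jumps over `n` steps
-/

open Set Filter Topology MeasureTheory

set_option linter.all false

namespace Vale.Agent.P214.NG

variable {U h M C₁ ε B₀ : ℝ} {a g b g₁ H H₁ gS H₀ H₀' : ℝ → ℝ}

/-- `max L (log (H / A))` at time `u` -/
noncomputable def elU (L : ℝ) (a g H : ℝ → ℝ) (u : ℝ) : ℝ :=
  max L (Real.log (H u) - Real.log (Am a g u))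

/-- **A good step.** -/
theorem good_step (he : EPath 0 U M a g b g₁) {α β : ℝ}
    (hh : HPath α β C₁ ε g b g₁ H H₁ gS) (hβα : β = α + h) (h0 : 0 < h) (h2 : h ≤ 2)
    (hM : 0 ≤ M) (hC₁ : 0 ≤ C₁) (hα0 : 0 ≤ α) (hβU : β ≤ U)
    (hB : ∫ u in (0:ℝ)..U, Yp a g u ≤ B₀) {θ L : ℝ} (hθ0 : 0 ≤ θ) (hθ1 : θ ≤ 1 / 4)
    (hε0 : 0 ≤ ε) (hεθ : ε + θ ≤ 1) (hL2 : Real.log 2 ≤ L)
    (hgood : ∀ u ∈ Icc α β, g u - gS u ≤ θ * Am a g u) :
    elU L a g H β ≤ elU L a g H α + 33 * C2 M C₁ * (∫ u in α..β, Yp a g u)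
        + 32 * (ε + θ) * (Real.log (Am a g β) - Real.log (Am a g α)) ∧
      ch h M C₁ B₀ * Real.exp (-elU L a g H α) - C2 M C₁ * (∫ u in α..β, Yp a g u)
        ≤ Real.log (Am a g β) - Real.log (Am a g α) := by
  have hαβ : α ≤ β := by linarith
  have hαm : α ∈ Icc (0:ℝ) U := ⟨hα0, hαβ.trans hβU⟩
  have hβm : β ∈ Icc (0:ℝ) U := ⟨hα0.trans hαβ, hβU⟩
  have hC2 := C2_nonneg hM hC₁
  have hAα := he.Apos hαm
  have hAβ := he.Apos hβm
  have hY0 : 0 ≤ ∫ u in α..β, Yp a g u := int_Y_nonneg hαβ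
  have hYB := int_Y_le he hB hα0 hαβ hβU
  have hB0 : 0 ≤ B₀ := hY0.trans hYB
  have hε1 : ε ≤ 1 := by linarith
  have hell0 : 0 ≤ elU L a g H α :=
    (Real.log_nonneg one_le_two).trans (hL2.trans (le_max_left _ _))
  have heI := he.mono hα0 hβU
  have hcH : ContinuousOn H (Icc α β) :=
    fun u hu => (hh.dH u hu).continuousAt.continuousWithinAt
  have hcn : ContinuousOn (nn a g H) (Icc α β) := by
    unfold nn
    exact (heI.cont_A.div hcH fun u hu => (hh.Hpos u hu).ne').inf continuousOn_const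
  have hgrow := heI.A_growth hh hαβ hM hC₁ hθ1 hgood hcH
  have hnstep := fun u (hu : u ∈ Icc α β) =>
    heI.n_step hh hαβ hM hC₁ hθ0 hθ1 hε0 hε1 hgood hL2 hu
  have hnn1 : ∀ u, nn a g H u ≤ 1 := fun u => min_le_right _ _
  have hnn0 : ∀ u ∈ Icc α β, 0 ≤ nn a g H u := fun u hu =>
    le_min (div_nonneg (heI.Apos hu).le (hh.Hpos u hu).le) zero_le_one
  have hin : ∀ u ∈ Icc α β, IntervalIntegrable (nn a g H) volume α u := by
    intro u hu
    apply ContinuousOn.intervalIntegrable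
    rw [uIcc_of_le hu.1]
    exact hcn.mono (Icc_subset_Icc_right hu.2)
  have hiu : ∀ u ∈ Icc α β, (∫ v in α..u, nn a g H v) ≤ h := by
    intro u hu
    calc (∫ v in α..u, nn a g H v) ≤ ∫ v in α..u, (1:ℝ) :=
          intervalIntegral.integral_mono_on hu.1 (hin u hu)
            intervalIntegrable_const (fun v _ => hnn1 v)
      _ = u - α := by simp
      _ ≤ h := by linarith [hu.2]
  have hi0 : ∀ u ∈ Icc α β, 0 ≤ (∫ v in α..u, nn a g H v) := fun u hu =>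
    intervalIntegral.integral_nonneg hu.1 fun v hv => hnn0 v ⟨hv.1, hv.2.trans hu.2⟩
  have hβI' : β ∈ Icc α β := ⟨hαβ, le_rfl⟩
  have hεθ0 : 0 ≤ ε + θ := by linarith
  constructor
  · have h3 := hnstep β hβI'
    have h4 : max L (Real.log (H α) - Real.log (Am a g α)) = elU L a g H α := rfl
    rw [h4] at h3
    have h7 : (∫ v in α..β, nn a g H v) ≤ 8 * ((Real.log (Am a g β) - Real.log (Am a g α))
        + C2 M C₁ * (∫ v in α..β, Yp a g v)) := by linarith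
    have h8 : (ε + θ) * (∫ v in α..β, nn a g H v) ≤ (ε + θ) * (8 * ((Real.log (Am a g β)
        - Real.log (Am a g α)) + C2 M C₁ * (∫ v in α..β, Yp a g v))) := by gcongr
    have h9 : 0 ≤ C2 M C₁ * (∫ v in α..β, Yp a g v) := by positivity
    have h6 : (ε + θ) * (C2 M C₁ * (∫ v in α..β, Yp a g v))
        ≤ 1 * (C2 M C₁ * (∫ v in α..β, Yp a g v)) := by gcongr
    have h5 : (2 * θ + 4 * ε) * (∫ v in α..β, nn a g H v)
        ≤ 4 * ((ε + θ) * (∫ v in α..β, nn a g H v)) := by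
      have := hi0 β hβI'
      have h10 : 0 ≤ θ * (∫ v in α..β, nn a g H v) := by positivity
      nlinarith
    have h13 : -(C2 M C₁ * (∫ v in α..β, Yp a g v))
        ≤ Real.log (Am a g β) - Real.log (Am a g α) := by
      have := hi0 β hβI'
      linarith
    have h14 : (ε + θ) * (-(C2 M C₁ * (∫ v in α..β, Yp a g v)))
        ≤ (ε + θ) * (Real.log (Am a g β) - Real.log (Am a g α)) := by gcongr
    have hLe : L ≤ elU L a g H α := le_max_left _ _
    refine max_le ?_ ?_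
    · linarith
    · linarith
  · set ℓ := elU L a g H α with hℓ
    have hlow : ∀ u ∈ Icc α β,
        Real.exp (-(ℓ + (C2 M C₁ * B₀ + 5 * h))) ≤ nn a g H u := by
      intro u hu
      have h3 := hnstep u hu
      have h4 : max L (Real.log (H α) - Real.log (Am a g α)) = ℓ := rfl
      rw [h4] at h3
      have hAu := heI.Apos hu
      have hHu := hh.Hpos u hu
      have h5 : C2 M C₁ * (∫ v in α..u, Yp a g v) ≤ C2 M C₁ * B₀ := by
        gcongr
        exact int_Y_le he hB hα0 hu.1 (hu.2.trans hβU)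
      have h6 : (2 * θ + 4 * ε) * (∫ v in α..u, nn a g H v) ≤ 5 * h := by
        have := hiu u hu
        calc (2 * θ + 4 * ε) * (∫ v in α..u, nn a g H v)
            ≤ (2 * (1 / 4) + 4 * 1) * h := by
              gcongr
              exact hi0 u hu
          _ ≤ 5 * h := by linarith
      unfold nn
      refine le_min ?_ ?_
      · rw [← Real.exp_log (div_pos hAu hHu), Real.log_div hAu.ne' hHu.ne']
        apply Real.exp_le_exp.2
        linarith
      · rw [Real.exp_le_one_iff]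
        have : 0 ≤ C2 M C₁ * B₀ := by positivity
        linarith
    have h3 : h * Real.exp (-(ℓ + (C2 M C₁ * B₀ + 5 * h))) ≤ ∫ v in α..β, nn a g H v := by
      calc h * Real.exp (-(ℓ + (C2 M C₁ * B₀ + 5 * h)))
          = ∫ v in α..β, Real.exp (-(ℓ + (C2 M C₁ * B₀ + 5 * h))) := by
            rw [intervalIntegral.integral_const, smul_eq_mul, hβα]; ring
        _ ≤ _ := intervalIntegral.integral_mono_on hαβ intervalIntegrable_const
            (hin β hβI') (fun v hv => hlow v hv)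
    have h4 : ch h M C₁ B₀ * Real.exp (-ℓ)
        = 1 / 8 * (h * Real.exp (-(ℓ + (C2 M C₁ * B₀ + 5 * h)))) := by
      unfold ch
      rw [show -(ℓ + (C2 M C₁ * B₀ + 5 * h)) = -(C2 M C₁ * B₀ + 5 * h) + -ℓ by ring,
        Real.exp_add]
      ring
    rw [h4]
    linarith

/-- height growth over an interval on which the height function is defined -/
lemma height_le_sub (he : EPath 0 U M a g b g₁) (hM : 0 ≤ M) (hC₁ : 0 ≤ C₁)
    (hε0 : 0 ≤ ε) (hε1 : ε ≤ 1) (hB : ∫ u in (0:ℝ)..U, Yp a g u ≤ B₀) {α β D : ℝ}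
    (h0 : 0 ≤ α) (hαβ : α ≤ β) (hβ : β ≤ U) (hD : β - α ≤ D)
    (hd : ∀ u ∈ Icc α β, HasDerivAt H₀ (H₀' u) u)
    (herr : ∀ u ∈ Icc α β, H₀' u ≤ 2 * g u + ε * (g₁ u + C₁ * g u)) :
    H₀ β ≤ H₀ α + ((2 + C₁) * (2 * Real.exp (C2 M C₁ * B₀)) * D + 2) * Am a g β := by
  have hβ' : 0 < Am a g β := he.Apos ⟨h0.trans hαβ, hβ⟩
  have hsub : ∀ u ∈ Icc α β, u ∈ Icc 0 U := fun u hu => ⟨h0.trans hu.1, hu.2.trans hβ⟩
  have h1 := mvt_le (f := fun u => H₀ u - ε * g u) (f' := fun u => H₀' u - ε * g₁ u)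
    (K := (2 + C₁) * (2 * Real.exp (C2 M C₁ * B₀)) * Am a g β) hαβ
    (fun u hu => (hd u hu).sub ((he.dg u (hsub u hu)).const_mul ε)) (by
      intro u hu
      have h2 := herr u hu
      have h3 := he.gpos u (hsub u hu)
      have h4 := he.g_le u
      have h5 := A_quasi' he hM hC₁ hB (h0.trans hu.1) hu.2 hβ
      have h6 : H₀' u - ε * g₁ u ≤ (2 + C₁) * g u := by
        have : ε * (C₁ * g u) ≤ 1 * (C₁ * g u) := by gcongr
        linarith
      have h7 : (2 + C₁) * g u ≤ (2 + C₁) * (2 * (Real.exp (C2 M C₁ * B₀) * Am a g β)) := by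
        gcongr; linarith
      calc H₀' u - ε * g₁ u ≤ (2 + C₁) * g u := h6
        _ ≤ _ := h7
        _ = _ := by ring)
  have h2 : 0 < g α := he.gpos α ⟨h0, hαβ.trans hβ⟩
  have h3 : g β ≤ 2 * Am a g β := he.g_le β
  have h5 : ε * g β ≤ 2 * Am a g β := by
    have : 0 < g β := he.gpos β ⟨h0.trans hαβ, hβ⟩
    nlinarith
  have h6 : 0 ≤ ε * g α := by positivity
  have h7 : (2 + C₁) * (2 * Real.exp (C2 M C₁ * B₀)) * Am a g β * (β - α)
      ≤ (2 + C₁) * (2 * Real.exp (C2 M C₁ * B₀)) * Am a g β * D := by gcongr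
  nlinarith

lemma herr_of_HPath {α β : ℝ} (hh : HPath α β C₁ ε g b g₁ H H₁ gS) :
    ∀ u ∈ Icc α β, H₁ u ≤ 2 * g u + ε * (g₁ u + C₁ * g u) := fun u hu => by
  have h5 := hh.err2 u hu
  have h6 := hh.le u hu
  linarith

/-- constant of a jump over `n` steps -/
noncomputable def C7L (n : ℕ) (h M C₁ B₀ : ℝ) : ℝ :=
  (2 + C₁) * (2 * Real.exp (C2 M C₁ * B₀)) * (n * h) + 2

lemma C7L_pos {n : ℕ} (hh : 0 ≤ h) (hC₁ : 0 ≤ C₁) : 2 ≤ C7L n h M C₁ B₀ := by
  unfold C7L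
  have : 0 ≤ (2 + C₁) * (2 * Real.exp (C2 M C₁ * B₀)) * (n * h) := by positivity
  linarith

/-- **Inside a jump**: weak bound at every later time at distance at most `n h`. -/
theorem mid_step (he : EPath 0 U M a g b g₁) {α β : ℝ} {n : ℕ}
    (hh : HPath α β C₁ ε g b g₁ H H₁ gS) (h0 : 0 ≤ h) (hαβ : α ≤ β) (hn : β - α ≤ n * h)
    (hM : 0 ≤ M) (hC₁ : 0 ≤ C₁) (hα0 : 0 ≤ α) (hβU : β ≤ U)
    (hB : ∫ u in (0:ℝ)..U, Yp a g u ≤ B₀) {L : ℝ} (hε0 : 0 ≤ ε) (hε1 : ε ≤ 1)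
    (hL : Real.log (2 * C7L n h M C₁ B₀) ≤ L) :
    elU L a g H β ≤ elU L a g H α + Real.log 2 + C2 M C₁ * (∫ u in α..β, Yp a g u) := by
  have hAα := he.Apos (u := α) ⟨hα0, hαβ.trans hβU⟩
  have hAβ := he.Apos (u := β) ⟨hα0.trans hαβ, hβU⟩
  have hHα := hh.Hpos α ⟨le_rfl, hαβ⟩
  have hHβ := hh.Hpos β ⟨hαβ, le_rfl⟩
  have hC2 := C2_nonneg hM hC₁
  have hY0 : 0 ≤ ∫ u in α..β, Yp a g u := int_Y_nonneg hαβ
  have hlog2 : 0 ≤ Real.log 2 := Real.log_nonneg one_le_two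
  have hCY : 0 ≤ C2 M C₁ * (∫ u in α..β, Yp a g u) := by positivity
  have hAm := (he.mono hα0 hβU).A_mono hαβ hM hC₁
  have hHle := height_le_sub he hM hC₁ hε0 hε1 hB hα0 hαβ hβU hn hh.dH (herr_of_HPath hh)
  have hc : (2 + C₁) * (2 * Real.exp (C2 M C₁ * B₀)) * (n * h) + 2 = C7L n h M C₁ B₀ := rfl
  rw [hc] at hHle
  have hC7 := C7L_pos (n := n) (M := M) (B₀ := B₀) h0 hC₁
  have h1 : L ≤ elU L a g H α := le_max_left _ _
  have h2 : Real.log (H α) - Real.log (Am a g α) ≤ elU L a g H α := le_max_right _ _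
  refine max_le (by linarith) ?_
  rcases le_total (H α) (C7L n h M C₁ B₀ * Am a g β) with h7 | h7
  · have h8 : H β ≤ 2 * C7L n h M C₁ B₀ * Am a g β := by linarith
    have h9 : Real.log (H β) ≤ Real.log (2 * C7L n h M C₁ B₀) + Real.log (Am a g β) := by
      rw [← Real.log_mul (by positivity) hAβ.ne']
      exact Real.log_le_log hHβ h8
    linarith
  · have h8 : H β ≤ 2 * H α := by linarith
    have h9 : Real.log (H β) ≤ Real.log 2 + Real.log (H α) := by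
      rw [← Real.log_mul (by positivity) hHα.ne']
      exact Real.log_le_log hHβ h8
    linarith

/-- **A jump**: the logarithmic frequency does not grow. -/
theorem jump_step (he : EPath 0 U M a g b g₁) {α β : ℝ} {n : ℕ}
    (hh : HPath α β C₁ ε g b g₁ H H₁ gS) (h0 : 0 ≤ h) (hαβ : α ≤ β) (hn : β - α ≤ n * h)
    (hM : 0 ≤ M) (hC₁ : 0 ≤ C₁) (hα0 : 0 ≤ α) (hβU : β ≤ U)
    (hB : ∫ u in (0:ℝ)..U, Yp a g u ≤ B₀) {L : ℝ} (hε0 : 0 ≤ ε) (hε1 : ε ≤ 1)
    (hL : Real.log (2 * C7L n h M C₁ B₀) ≤ L) (hj : 2 * Am a g α ≤ Am a g β) :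
    elU L a g H β ≤ elU L a g H α ∧
      Real.log 2 ≤ Real.log (Am a g β) - Real.log (Am a g α) := by
  have hAα := he.Apos (u := α) ⟨hα0, hαβ.trans hβU⟩
  have hAβ := he.Apos (u := β) ⟨hα0.trans hαβ, hβU⟩
  have hHα := hh.Hpos α ⟨le_rfl, hαβ⟩
  have hHβ := hh.Hpos β ⟨hαβ, le_rfl⟩
  have hlogj : Real.log 2 + Real.log (Am a g α) ≤ Real.log (Am a g β) := by
    rw [← Real.log_mul (by norm_num) hAα.ne']
    exact Real.log_le_log (by positivity) hj
  refine ⟨?_, by linarith⟩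
  have hHle := height_le_sub he hM hC₁ hε0 hε1 hB hα0 hαβ hβU hn hh.dH (herr_of_HPath hh)
  have hc : (2 + C₁) * (2 * Real.exp (C2 M C₁ * B₀)) * (n * h) + 2 = C7L n h M C₁ B₀ := rfl
  rw [hc] at hHle
  have hC7 := C7L_pos (n := n) (M := M) (B₀ := B₀) h0 hC₁
  have h1 : L ≤ elU L a g H α := le_max_left _ _
  have h2 : Real.log (H α) - Real.log (Am a g α) ≤ elU L a g H α := le_max_right _ _
  refine max_le (by linarith) ?_
  rcases le_total (H α) (C7L n h M C₁ B₀ * Am a g β) with h7 | h7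
  · have h8 : H β ≤ 2 * C7L n h M C₁ B₀ * Am a g β := by linarith
    have h9 : Real.log (H β) ≤ Real.log (2 * C7L n h M C₁ B₀) + Real.log (Am a g β) := by
      rw [← Real.log_mul (by positivity) hAβ.ne']
      exact Real.log_le_log hHβ h8
    linarith
  · have h8 : H β ≤ 2 * H α := by linarith
    have h9 : Real.log (H β) ≤ Real.log 2 + Real.log (H α) := by
      rw [← Real.log_mul (by positivity) hHα.ne']
      exact Real.log_le_log hHβ h8
    linarith

end Vale.Agent.P214.NG
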