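import Vale.Agent.P214.NG.MainL

/-!
# P214, block NG-L (8): the first grid time of the last stretch
-/

open Set Filter Topology MeasureTheory

set_option linter.all false

namespace Vale.Agent.P214.NG

/-- **The first grid time `i'` of the last stretch of growth `K₁ log L(I)`**, from the two
conclusions of `pathL`. -/
theorem exists_tau {N I : ℕ} {h L₀ M K K₁ C' W : ℝ} {a g b g₁ : ℝ → ℝ}
    (he : EPath 0 (N * h) M a g b g₁) (h0 : 0 ≤ h)
    (hK₁ : 0 < K₁) (hKK : K₁ ≤ K) (hℓ : 0 < Real.log (Lg L₀ h a g I)) (hW : 0 ≤ Real.log W)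
    (h1 : K * (Real.log (Lg L₀ h a g I) + Real.log W)
      ≤ Real.log (Abar a g h I) - Real.log (Abar a g h 0))
    (h2 : ∀ i ≤ I, Real.log (Abar a g h I) ≤ Real.log (Abar a g h i)
        + K * Real.log (Lg L₀ h a g I) → C' * Real.log (Lg L₀ h a g I) ≤ Lg L₀ h a g i) :
    ∃ i', 1 ≤ i' ∧ i' ≤ I ∧
      (∀ k < i', Real.log (Abar a g h k) + K₁ * Real.log (Lg L₀ h a g I)
        ≤ Real.log (Abar a g h I)) ∧
      (∀ k, i' ≤ k → k ≤ I → Real.log (Abar a g h I)
        < Real.log (Abar a g h k) + K₁ * Real.log (Lg L₀ h a g I) ∧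
        C' * Real.log (Lg L₀ h a g I) ≤ Lg L₀ h a g k) := by
  classical
  set ℓ := Real.log (Lg L₀ h a g I) with hℓdef
  have hex : ∃ i, Real.log (Abar a g h I) < Real.log (Abar a g h i) + K₁ * ℓ :=
    ⟨I, by nlinarith⟩
  refine ⟨Nat.find hex, ?_, ?_, ?_, ?_⟩
  · by_contra hcon
    have h3 : Nat.find hex = 0 := by omega
    have h4 := Nat.find_spec hex
    rw [h3] at h4
    have hKW : 0 ≤ K * Real.log W := mul_nonneg (by linarith) hW
    have h5 : K₁ * ℓ ≤ K * ℓ := by gcongr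
    nlinarith
  · exact Nat.find_min' hex (by nlinarith)
  · intro k hk
    exact not_lt.1 (Nat.find_min hex hk)
  · intro k hk hkI
    have h3 := Nat.find_spec hex
    have h4 := Real.log_le_log (Abar_pos he h0 _) (Abar_mono (a := a) (g := g) (h := h) hk)
    have h5 : K₁ * ℓ ≤ K * ℓ := by gcongr
    exact ⟨by linarith, h2 k hkI (by linarith)⟩

end Vale.Agent.P214.NG
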